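import Crest.Agent.R19.SieveC

/-!
# R19, piece S: many rough numbers in an arithmetic progression (Brun–Hooley sieve)

We need, for `z` large and `z^100 ≤ D`, at least `D/√z` of the `k < D` for which `a + g k` has no prime factor `≤ z`
(`gcd(a,g)=1`).  (The true order is `D/log z`; the statement is much weaker, so crude constants are fine.)

PROOF.  Let `P` be the set of primes `l ≤ z`, `l ∤ g` (primes dividing `g` never divide `a+gk`).  For `d` squarefree, product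
of primes of `P`: `#{k<D : d ∣ a+gk} = D/d + O(1)` (error `< 1`).  Blocks: `z_1 = z`, `z_{j+1} = √z_j` (real numbers or
`Nat.sqrt`), `P_j = P ∩ (z_{j+1}, z_j]`, `j = 1..r`, until `z_{r+1} ≤ (log z)/10` or so; last block
`P_0 = P ∩ [2, z_{r+1}]` (full inclusion–exclusion: all `d ∣ primorial(z_{r+1}) ≤ 4^{z_{r+1}} ≤ z`), `b_0 = ∞`.
`ν_j(k) = #{l ∈ P_j : l ∣ a+gk}`, `b_j = 20+2(j-1)` (even).
`y_j = ∑_{t ≤ b_j} (-1)^t C(ν_j,t) (= C(ν_j - 1, b_j) if ν_j ≥ 1, 1 if ν_j = 0)`, `e_j = C(ν_j, b_j+1)`, `x_j = 1[ν_j = 0]`.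
Then `0 ≤ x_j ≤ y_j` and `y_j - x_j ≤ e_j`, so (Brun–Hooley)
`∏ x_j ≥ ∏ y_j - ∑_j e_j ∏_{i≠j} y_i`   (induction on the number of blocks).
Sum over `k<D`: both sides are combinations with coefficients `±1` of `1[d ∣ a+gk]`, `d = ∏ d_j`, `d_j` a product of
`≤ b_j` primes of `P_j` (one of them `b_j+1`); the number of such tuples is `≤ z·∏ z_j^{b_j}·z ≤ z^{50}`
(`∑ b_j 2^{-(j-1)} = 2·20+4 = 44`).  Main term: `D·∏ Y_j·(1 - ∑_j E_j/Y_j)`, `Y_j = ∑_{t≤b_j} (-1)^t e_t(1/l) ≥ V_j =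
∏_{P_j}(1-1/l)`, `E_j ≤ L_j^{b_j+1}/(b_j+1)!`, `L_j = ∑_{P_j} 1/l ≤ 4` by Chebyshev
(`Chebyshev.theta_le_log4_mul_x` or `primorial_le_four_pow`: `#primes in (x,2x] ≤ 2x·log 4/log x`), `V_j ≥ 4^{-L_j} ≥ 4^{-4}`.
So `∑ E_j/V_j ≤ 1/2`, the main term is `≥ (D/2)·∏ V_j ≥ D·4^{-4r}/(2(z_{r+1}+1))`, `r ≤ log₂ log z`; i.e. `≥ D/(log z)^c`, and
the error is `≤ (r+2) z^{50} ≤ z^{60}`, `D ≥ z^{100}`.  Hence count `≥ D/(log z)^c - z^{60} ≥ D/√z` for `z` large.
(Any other argument giving `D/√z` is just as good.)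
-/

set_option autoImplicit false

namespace Crest.Agent.R19.SieveAux

open Finset

theorem count_dvd (a g d D : ℕ) (hd : 0 < d) (hc : Nat.Coprime g d) :
    |(((Finset.range D).filter (fun k => d ∣ a + g * k)).card : ℝ) - D * ((d : ℝ))⁻¹| ≤ 1 := by
  have : NeZero d := ⟨hd.ne'⟩
  set u : (ZMod d)ˣ := ZMod.unitOfCoprime g hc with hu
  set k₀ : ℕ := ((u⁻¹ : (ZMod d)ˣ) * (-(a : ZMod d))).val with hk₀
  have hug : (u : ZMod d) = (g : ZMod d) := ZMod.coe_unitOfCoprime g hc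
  have h1 : ∀ k : ℕ, d ∣ a + g * k ↔ k ≡ k₀ [MOD d] := by
    intro k
    rw [← ZMod.natCast_eq_natCast_iff, hk₀, ZMod.natCast_val, ZMod.cast_id', id,
      ← ZMod.natCast_eq_zero_iff]
    push_cast
    rw [← hug]
    constructor
    · intro h
      have h2 : (u : ZMod d) * k = - a := by linear_combination h
      rw [← h2, ← mul_assoc]
      simp
    · intro h
      rw [h, ← mul_assoc]
      simp
  have h2 : ((Finset.range D).filter (fun k => d ∣ a + g * k)).card =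
      D / d + if k₀ % d < D % d then 1 else 0 := by
    rw [← Nat.count_modEq_card D hd k₀, Nat.count_eq_card_filter_range]
    congr 1
    ext k
    simp only [Finset.mem_filter, h1]
  rw [h2]
  have hdR : (0 : ℝ) < (d : ℝ) := by exact_mod_cast hd
  have h3 : (D : ℝ) = d * ((D / d : ℕ) : ℝ) + ((D % d : ℕ) : ℝ) := by
    exact_mod_cast (Nat.div_add_mod D d).symm
  have h4 : ((D % d : ℕ) : ℝ) < d := by exact_mod_cast Nat.mod_lt D hd
  have h5 : (0 : ℝ) ≤ ((D % d : ℕ) : ℝ) := by positivity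
  have h6 : (D : ℝ) * ((d : ℝ))⁻¹ = ((D / d : ℕ) : ℝ) + ((D % d : ℕ) : ℝ) * ((d : ℝ))⁻¹ := by
    conv_lhs => rw [h3]
    field_simp
  have h7 : ((D % d : ℕ) : ℝ) * ((d : ℝ))⁻¹ < 1 := by
    rw [← div_eq_mul_inv, div_lt_one hdR]; exact h4
  have h8 : 0 ≤ ((D % d : ℕ) : ℝ) * ((d : ℝ))⁻¹ := by positivity
  rw [h6, abs_le]
  push_cast
  split_ifs
  · constructor <;> norm_num <;> linarith
  · constructor <;> norm_num <;> linarith

theorem count_lower (a g y D : ℕ) {f : Finset ℕ → ℝ} {m c : ℝ}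
    (h : Rep (Pr g y) f m c) :
    D * m - c ≤ ∑ k ∈ Finset.range D, f ((Pr g y).filter (fun l => l ∣ a + g * k)) := by
  obtain ⟨lam, h1, h2, h3⟩ := h
  set P := Pr g y with hP
  have hprime : ∀ l ∈ P, l.Prime ∧ ¬ l ∣ g := by
    intro l hl
    simp only [hP, Pr, Finset.mem_filter] at hl
    exact hl.2
  have e1 : ∑ k ∈ Finset.range D, f (P.filter (fun l => l ∣ a + g * k)) =
      ∑ S ∈ P.powerset, lam S *
        (((Finset.range D).filter (fun k => (∏ l ∈ S, l) ∣ a + g * k)).card : ℝ) := by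
    have : ∀ k ∈ Finset.range D, f (P.filter (fun l => l ∣ a + g * k)) =
        ∑ S ∈ P.powerset, if (∏ l ∈ S, l) ∣ a + g * k then lam S else 0 := by
      intro k _
      rw [h1 _ (Finset.filter_subset _ _), ← Finset.sum_filter]
      congr 1
      ext S
      simp only [Finset.mem_filter, Finset.mem_powerset]
      constructor
      · intro hS
        refine ⟨hS.trans (Finset.filter_subset _ _), ?_⟩
        refine Finset.prod_primes_dvd _ (fun l hl => ?_) (fun l hl => ?_)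
        · exact (hprime l (Finset.mem_filter.mp (hS hl)).1).1.prime
        · exact (Finset.mem_filter.mp (hS hl)).2
      · rintro ⟨hS, hd⟩ l hl
        exact Finset.mem_filter.mpr ⟨hS hl, (Finset.dvd_prod_of_mem _ hl).trans hd⟩
    rw [Finset.sum_congr rfl this, Finset.sum_comm]
    refine Finset.sum_congr rfl fun S _ => ?_
    rw [← Finset.sum_filter, Finset.sum_const, nsmul_eq_mul, mul_comm]
  rw [e1]
  have e2 : ∀ S ∈ P.powerset, lam S * (D * ∏ l ∈ S, ((l : ℝ))⁻¹) - |lam S| ≤ lam S *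
        (((Finset.range D).filter (fun k => (∏ l ∈ S, l) ∣ a + g * k)).card : ℝ) := by
    intro S hS
    have hS' := Finset.mem_powerset.mp hS
    have hd : 0 < ∏ l ∈ S, l := Finset.prod_pos fun l hl => (hprime l (hS' hl)).1.pos
    have hc : Nat.Coprime g (∏ l ∈ S, l) := by
      refine Nat.Coprime.prod_right fun l hl => ?_
      exact (((hprime l (hS' hl)).1.coprime_iff_not_dvd).mpr (hprime l (hS' hl)).2).symm
    have h4 := count_dvd a g _ D hd hc
    have e3 : (((∏ l ∈ S, l : ℕ) : ℝ))⁻¹ = ∏ l ∈ S, ((l : ℝ))⁻¹ := by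
      push_cast
      rw [Finset.prod_inv_distrib]
    rw [e3] at h4
    set X := (((Finset.range D).filter (fun k => (∏ l ∈ S, l) ∣ a + g * k)).card : ℝ)
    set Z := (D : ℝ) * ∏ l ∈ S, ((l : ℝ))⁻¹
    have h5 : |lam S * (X - Z)| ≤ |lam S| := by
      rw [abs_mul]
      exact mul_le_of_le_one_right (abs_nonneg _) h4
    have h6 := (abs_le.mp h5).1
    linarith
  calc D * m - c ≤ ∑ S ∈ P.powerset, (lam S * (D * ∏ l ∈ S, ((l : ℝ))⁻¹) - |lam S|) := by
        rw [Finset.sum_sub_distrib, ← h2, Finset.mul_sum]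
        have : ∑ i ∈ P.powerset, (D : ℝ) * (lam i * ∏ l ∈ i, ((l : ℝ))⁻¹) =
            ∑ x ∈ P.powerset, lam x * (D * ∏ l ∈ x, ((l : ℝ))⁻¹) :=
          Finset.sum_congr rfl fun _ _ => by ring
        rw [this]
        linarith
    _ ≤ _ := Finset.sum_le_sum e2

theorem VV_trivial (g w : ℕ) (hw : 1 ≤ w) : 1 / (w : ℝ) ≤ VV (Pr g w) := by
  have h1 : ∏ l ∈ Finset.Ioc 1 w, (1 - ((l : ℝ))⁻¹) = 1 / (w : ℝ) := by
    induction w, hw using Nat.le_induction with
    | base => simp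
    | succ n hn ih =>
      rw [← Finset.insert_Ioc_right_eq_Ioc_add_one (by omega), Finset.prod_insert (by simp), ih]
      have : (0 : ℝ) < (n : ℝ) := by exact_mod_cast hn
      push_cast
      field_simp
      ring
  rw [← h1]
  unfold VV
  have hsub : Pr g w ⊆ Finset.Ioc 1 w := by
    intro l hl
    simp only [Pr, Finset.mem_filter, Finset.mem_range] at hl
    simp only [Finset.mem_Ioc]
    exact ⟨hl.2.1.one_lt, by omega⟩
  refine Finset.prod_le_prod_of_subset_of_le_one hsub ?_ ?_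
  · intro l _
    linarith [inv_nat_le_one l]
  · intro l _ _
    have : 0 ≤ ((l : ℝ))⁻¹ := by positivity
    linarith

theorem VV_step (g y : ℕ) (hy : 81 ≤ y) :
    VV (Pr g (Nat.sqrt y)) * (1 / 3 ^ 12) ≤ VV (Pr g y) := by
  set s := Nat.sqrt y with hs
  have hsy : s ≤ y := Nat.sqrt_le_self y
  have hBsub : Pr g s ⊆ Pr g y := by
    intro l hl
    simp only [Pr, Finset.mem_filter, Finset.mem_range] at hl ⊢
    exact ⟨by omega, hl.2⟩
  set A := Pr g y \ Pr g s with hA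
  have hAPI : A ⊆ PI s y := by
    intro l hl
    simp only [hA, Pr, PI, Finset.mem_sdiff, Finset.mem_filter, Finset.mem_range] at hl ⊢
    refine ⟨hl.1.1, hl.1.2.1, ?_⟩
    by_contra hh
    exact hl.2 ⟨by omega, hl.1.2⟩
  have hL : ∑ l ∈ A, ((l : ℝ))⁻¹ ≤ 6 :=
    (Finset.sum_le_sum_of_subset_of_nonneg hAPI (fun _ _ _ => by positivity)).trans
      (sum_block y hy)
  have hA2 : ∀ l ∈ A, 2 ≤ l := by
    intro l hl
    have := hAPI hl
    simp only [PI, Finset.mem_filter, Finset.mem_range] at this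
    exact this.2.1.two_le
  have hV2 := VV_ge A hA2 6 hL
  have h12 := exp12
  have hV3 : 1 / 3 ^ 12 ≤ VV A := by
    have : (-2 * 6 : ℝ) = -12 := by norm_num
    rw [this] at hV2
    linarith
  have e : VV (Pr g y) = VV A * VV (Pr g s) := by
    unfold VV
    exact (Finset.prod_sdiff hBsub).symm
  rw [e, mul_comm]
  exact mul_le_mul_of_nonneg_right hV3 (VV_nonneg _)

end Crest.Agent.R19.SieveAux

namespace Crest.Agent.R19

open SieveAux in
theorem rough_count : ∃ z₀ : ℕ, ∀ z D g a : ℕ, z₀ ≤ z → z ^ 100 ≤ D → Nat.Coprime a g →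
    (D : ℝ) / Real.sqrt z ≤
      (((Finset.range D).filter
        (fun k => Nat.Coprime (a + g * k) (primorial z))).card : ℝ) := by
  refine ⟨(4 * 3 ^ 24) ^ 4, fun z D g a hz hD hag => ?_⟩
  set s1 := Nat.sqrt z with hs1
  set s2 := Nat.sqrt s1 with hs2
  have k1 : (4 * 3 ^ 24) ^ 2 ≤ s1 := by
    rw [hs1, Nat.le_sqrt]
    calc (4 * 3 ^ 24) ^ 2 * (4 * 3 ^ 24) ^ 2 = (4 * 3 ^ 24) ^ 4 := by ring
      _ ≤ z := hz
  have k2 : 4 * 3 ^ 24 ≤ s2 := by
    rw [hs2, Nat.le_sqrt]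
    calc (4 * 3 ^ 24) * (4 * 3 ^ 24) = (4 * 3 ^ 24) ^ 2 := by ring
      _ ≤ s1 := k1
  have hz81 : 81 ≤ z := le_trans (by norm_num) hz
  have hs81 : 81 ≤ s1 := le_trans (by norm_num) k1
  have hs2pos : 1 ≤ s2 := le_trans (by norm_num) k2
  have hV : 1 / (s2 : ℝ) * (1 / 3 ^ 12) * (1 / 3 ^ 12) ≤ VV (Pr g z) := by
    have v1 := VV_step g z hz81
    have v2 := VV_step g s1 hs81
    have v3 := VV_trivial g s2 hs2pos
    calc 1 / (s2 : ℝ) * (1 / 3 ^ 12) * (1 / 3 ^ 12) ≤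
        VV (Pr g s2) * (1 / 3 ^ 12) * (1 / 3 ^ 12) := by gcongr
      _ ≤ VV (Pr g s1) * (1 / 3 ^ 12) := by gcongr
      _ ≤ VV (Pr g z) := v1
  obtain ⟨u, ℓ, U, Λ, hu, hℓ, hT, hΛ⟩ := main_ind g z (by omega) 0
  have hU : VV (Pr g z) ≤ U := (rep_ind (Pr g z)).mono hu fun T hT' => (hT T hT').2
  have hcount := count_lower a g z D hℓ
  have hle : ∑ k ∈ Finset.range D, ℓ ((Pr g z).filter (fun l => l ∣ a + g * k)) ≤
      (((Finset.range D).filter
        (fun k => Nat.Coprime (a + g * k) (primorial z))).card : ℝ) := by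
    rw [Finset.card_filter]
    push_cast
    refine Finset.sum_le_sum fun k _ => ?_
    have h1 := (hT _ (Finset.filter_subset (fun l => l ∣ a + g * k) (Pr g z))).1
    refine h1.trans ?_
    unfold ind
    split_ifs with h2 h3 h3
    · exact le_rfl
    · exfalso
      apply h3
      unfold primorial
      refine Nat.Coprime.prod_right fun p hp => ?_
      simp only [Finset.mem_filter, Finset.mem_range] at hp
      rw [Nat.coprime_comm, hp.2.coprime_iff_not_dvd]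
      intro hdiv
      by_cases hpg : p ∣ g
      · have hpa : p ∣ a := (Nat.dvd_add_left (hpg.mul_right k)).mp hdiv
        have := Nat.dvd_gcd hpa hpg
        rw [hag] at this
        exact hp.2.one_lt.ne' (Nat.dvd_one.mp this)
      · have : p ∈ (Pr g z).filter (fun l => l ∣ a + g * k) := by
          simp only [Pr, Finset.mem_filter, Finset.mem_range]
          exact ⟨⟨hp.1, hp.2, hpg⟩, hdiv⟩
        rw [h2] at this
        simp at this
    · norm_num
    · exact le_rfl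
  refine le_trans ?_ (hcount.trans hle)
  -- numerics
  have hzR : (0 : ℝ) < (z : ℝ) := by exact_mod_cast (by omega : 0 < z)
  have hz1 : (1 : ℝ) ≤ (z : ℝ) := by exact_mod_cast (by omega : 1 ≤ z)
  have hsq : (s2 : ℝ) * s2 ≤ Real.sqrt z := by
    apply Real.le_sqrt_of_sq_le
    have h1 : s2 * s2 ≤ s1 := Nat.sqrt_le s1
    have h2 : s1 * s1 ≤ z := Nat.sqrt_le z
    have h3 : (s2 * s2) ^ 2 ≤ z := by
      calc (s2 * s2) ^ 2 ≤ s1 ^ 2 := Nat.pow_le_pow_left h1 2
        _ = s1 * s1 := by ring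
        _ ≤ z := h2
    exact_mod_cast h3
  have hs2R : (4 * 3 ^ 24 : ℝ) ≤ (s2 : ℝ) := by exact_mod_cast k2
  have hs2R0 : (0 : ℝ) < (s2 : ℝ) := by
    have : (0 : ℝ) < 4 * 3 ^ 24 := by norm_num
    linarith
  have hsqrt : 0 < Real.sqrt z := Real.sqrt_pos.mpr hzR
  have hΛ2 : 2 / Real.sqrt z ≤ Λ := by
    have e1 : 2 / Real.sqrt z ≤ 2 / ((s2 : ℝ) * s2) := by gcongr
    have e2 : 2 / ((s2 : ℝ) * s2) ≤ (1 / (s2 : ℝ) * (1 / 3 ^ 12) * (1 / 3 ^ 12)) * (1 / 2) := by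
      rw [div_le_iff₀ (by positivity)]
      have : 1 / (s2 : ℝ) * (1 / 3 ^ 12) * (1 / 3 ^ 12) * (1 / 2) * ((s2 : ℝ) * s2) =
          s2 / (2 * 3 ^ 24) := by
        field_simp
      rw [this, le_div_iff₀ (by positivity)]
      linarith
    have e3 : U * (1 / 2) ≤ Λ := by
      refine le_trans (le_of_eq ?_) hΛ
      norm_num
    have e4 : VV (Pr g z) * (1 / 2) ≤ U * (1 / 2) := by linarith
    have e5 := mul_le_mul_of_nonneg_right hV (show (0 : ℝ) ≤ 1 / 2 by norm_num)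
    linarith
  have hDR : (z : ℝ) ^ 100 ≤ (D : ℝ) := by exact_mod_cast hD
  have hcost : (z : ℝ) ^ (2 * (40 + 2 * 0) + 10) ≤ D / Real.sqrt z := by
    rw [le_div_iff₀ hsqrt]
    have h1 : Real.sqrt z ≤ z := by
      rw [Real.sqrt_le_left (by linarith)]
      nlinarith
    calc (z : ℝ) ^ (2 * (40 + 2 * 0) + 10) * Real.sqrt z ≤
        (z : ℝ) ^ (2 * (40 + 2 * 0) + 10) * z := by gcongr
      _ = (z : ℝ) ^ 91 := by ring
      _ ≤ (z : ℝ) ^ 100 := pow_le_pow_right₀ hz1 (by norm_num)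
      _ ≤ D := hDR
  have hD0 : (0 : ℝ) ≤ D := by positivity
  have h5 := mul_le_mul_of_nonneg_left hΛ2 hD0
  have h6 : (D : ℝ) * (2 / Real.sqrt z) = D / Real.sqrt z + D / Real.sqrt z := by ring
  linarith

end Crest.Agent.R19
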