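import Crest.Agent.R19.LargeSieve
import Crest.Agent.R19.Sieve

/-!
# R19, piece M: choice of the modulus

PROOF.  Let `z` be the largest natural with `z^200 ≤ A`, `D = Nat.sqrt A ≥ z^100`, `m_k = a + g k` (`k < D`), so
`1 ≤ m_k ≤ A·D =: M`, `M² ≤ A³`.  By `rough_count` at least `D/√z` of the `k<D` have `m_k` free of primes `≤ z`.
Bad moduli: `𝓑 = {m' ∈ [2,M] : primSum s m' ≥ (card ι)²/2^300}`.  By `large_sieve` (with `X = A^3`)
`|𝓑|·(card ι)²/2^300 ≤ 8·A³·collCount s ≤ 8·A³·(card ι)²·A^(-3·1999/2000)`, i.e. `|𝓑| ≤ 2^303·A^(3/2000)`.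
For `m' ∈ 𝓑`, `m' > z`: `#{k<D : m' ∣ m_k} ≤ D/m' + 1 ≤ 2D/z` (`m_k` runs through one class, and `gcd(m_k,g)=1`).
The primes `l > z` dividing `q`: fewer than `400` (`z^# ≤ q ≤ A² < (z+1)^400`), each kills `≤ 2D/z` of the `k`.
Since `D/√z > (|𝓑|+400)·2D/z` for `A` large (`√z ≥ A^(1/400)/2`), some `k` survives: `m = m_k` is coprime to `q`, all divisors
`m' > 1` of `m` are `> z` and not bad, and `m ≤ A^(3/2) < (z+1)^300` has fewer than `300` prime factors (with multiplicity),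
all `≥ z+1`, so at most `2^299` divisors.  Sum up.
-/

namespace Crest.Agent.R19

theorem primSum_nonneg {ι : Type*} [Fintype ι] (s : ι → ℕ) (m : ℕ) : 0 ≤ primSum s m :=
  Finset.sum_nonneg fun _ _ => sq_nonneg _

/-- at most `D/m+1` of the `k < D` have `m ∣ a + g k` -/
theorem count_dvd_le (D m g a : ℕ) (hm : 0 < m) (hag : Nat.Coprime a g) :
    ((Finset.range D).filter (fun k => m ∣ a + g * k)).card ≤ D / m + 1 := by
  rcases Finset.eq_empty_or_nonempty ((Finset.range D).filter (fun k => m ∣ a + g * k)) with he | hne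
  · rw [he]; simp
  · obtain ⟨k0, hk0⟩ := hne
    rw [Finset.mem_filter] at hk0
    have hcop : Nat.Coprime m g := by
      have h1 : Nat.gcd m g ∣ a + g * k0 := dvd_trans (Nat.gcd_dvd_left m g) hk0.2
      have h2 : Nat.gcd m g ∣ g * k0 := dvd_trans (Nat.gcd_dvd_right m g) (dvd_mul_right _ _)
      have h3 : Nat.gcd m g ∣ a := (Nat.dvd_add_left h2).mp h1
      have h4 : Nat.gcd m g ∣ Nat.gcd a g := Nat.dvd_gcd h3 (Nat.gcd_dvd_right m g)
      rw [hag] at h4
      exact Nat.dvd_one.mp h4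
    have hsub : (Finset.range D).filter (fun k => m ∣ a + g * k) ⊆
        (Finset.range D).filter (fun k => k ≡ k0 [MOD m]) := by
      intro k hk
      rw [Finset.mem_filter] at hk ⊢
      refine ⟨hk.1, ?_⟩
      have h1 : a + g * k ≡ a + g * k0 [MOD m] :=
        ((Nat.modEq_zero_iff_dvd).mpr hk.2).trans ((Nat.modEq_zero_iff_dvd).mpr hk0.2).symm
      have h2 : g * k ≡ g * k0 [MOD m] := Nat.ModEq.add_left_cancel' a h1
      exact Nat.ModEq.cancel_left_of_coprime hcop h2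
    refine (Finset.card_le_card hsub).trans ?_
    have h := Nat.count_modEq_card D hm k0
    rw [Nat.count_eq_card_filter_range] at h
    rw [h]
    split_ifs <;> omega

/-- a number with all prime factors `> z` has few divisors -/
theorem card_divisors_le {m y B : ℕ} (hy : 0 < y) (hm : m ≠ 0) (hz : ∀ p ∈ m.primeFactors, y ≤ p)
    (hB : m < y ^ (B + 1)) : m.divisors.card ≤ 2 ^ B := by
  set e := ∑ p ∈ m.primeFactors, m.factorization p with he
  have h1 : y ^ e ≤ m := by
    calc y ^ e = ∏ p ∈ m.primeFactors, y ^ m.factorization p := by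
          rw [he, Finset.prod_pow_eq_pow_sum]
      _ ≤ ∏ p ∈ m.primeFactors, p ^ m.factorization p :=
          Finset.prod_le_prod' fun p hp => Nat.pow_le_pow_left (hz p hp) _
      _ = m := by
          have := Nat.prod_factorization_pow_eq_self hm
          rw [Finsupp.prod, Nat.support_factorization] at this
          exact this
  have h2 : e ≤ B := by
    by_contra hcon
    push Not at hcon
    have : y ^ (B + 1) ≤ y ^ e := Nat.pow_le_pow_right hy hcon
    omega
  rw [Nat.card_divisors hm]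
  calc ∏ x ∈ m.primeFactors, (m.factorization x + 1)
      ≤ ∏ x ∈ m.primeFactors, 2 ^ m.factorization x :=
        Finset.prod_le_prod' fun p _ => Nat.lt_two_pow_self
    _ = 2 ^ e := by rw [he, Finset.prod_pow_eq_pow_sum]
    _ ≤ 2 ^ B := Nat.pow_le_pow_right (by norm_num) h2

/-- few prime factors `> z` -/
theorem card_large_primes {q z y B : ℕ} (hy : y = z + 1) (hq : 0 < q) (hB : q < y ^ B) :
    ((q.primeFactors).filter (fun p => z < p)).card ≤ B := by
  set T := (q.primeFactors).filter (fun p => z < p) with hT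
  have h1 : y ^ T.card ≤ q := by
    calc y ^ T.card = ∏ _p ∈ T, y := by rw [Finset.prod_const]
      _ ≤ ∏ p ∈ T, p := Finset.prod_le_prod' fun p hp => by
          rw [hT, Finset.mem_filter] at hp
          rw [hy]
          exact hp.2
      _ ≤ ∏ p ∈ q.primeFactors, p := by
          apply Finset.prod_le_prod_of_subset_of_one_le' (Finset.filter_subset _ _)
          intro p hp _
          exact (Nat.prime_of_mem_primeFactors hp).one_lt.le
      _ ≤ q := Nat.le_of_dvd hq (Nat.prod_primeFactors_dvd q)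
  by_contra hcon
  push Not at hcon
  have : y ^ B ≤ y ^ T.card := Nat.pow_le_pow_right (by omega) hcon.le
  omega

theorem beta_pow (A C N : ℝ) (a c : ℕ) (hA : 0 < A) (hN : 0 < N)
    (h : C ^ c * A ^ a ≤ N ^ (2 * c)) (hac : 3 * c = 3 + a) :
    (A ^ 3 * C / N ^ 2) ^ c ≤ A ^ 3 := by
  have h3 : (A ^ 3 * C / N ^ 2) ^ c = A ^ 3 * (C ^ c * A ^ a) / N ^ (2 * c) := by
    rw [div_pow, mul_pow, ← pow_mul, ← pow_mul, hac, pow_add]
    ring
  rw [h3, div_le_iff₀ (pow_pos hN _)]
  exact mul_le_mul_of_nonneg_left h (pow_nonneg hA.le _)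

theorem beta_pow' (A C N y : ℝ) (hA : 0 < A) (hN : 0 < N) (hC : 0 ≤ C) (hy : 0 ≤ y)
    (h : C ^ 2000 * A ^ 5997 ≤ N ^ 4000) (hAy : A ≤ y ^ 200) :
    (A ^ 3 * C / N ^ 2) ^ 10 ≤ y ^ 3 := by
  have h1 := beta_pow A C N 5997 2000 hA hN h rfl
  have h2 : A ^ 3 ≤ (y ^ 3) ^ 200 := by
    calc A ^ 3 ≤ (y ^ 200) ^ 3 := pow_le_pow_left₀ hA.le hAy 3
      _ = (y ^ 3) ^ 200 := by rw [← pow_mul, ← pow_mul]
  have h3 : ((A ^ 3 * C / N ^ 2) ^ 10) ^ 200 ≤ (y ^ 3) ^ 200 := by
    rw [← pow_mul]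
    exact h1.trans h2
  exact le_of_pow_le_pow_left₀ (by norm_num) (pow_nonneg hy _) h3

theorem sqrt_big (z K c β : ℝ) (hK1 : 1 ≤ K) (hc : c = 16 * K + 800) (hβ0 : 0 ≤ β) (hzR : 1 ≤ z)
    (hZz : 8 * c ^ 10 + 1 ≤ z) (hβpow : β ^ 10 ≤ (z + 1) ^ 3) :
    2 * (8 * K * β + 400) < Real.sqrt z := by
  have hcpos : 0 < c := by rw [hc]; linarith
  set b := max β 1 with hb
  have hb1 : 1 ≤ b := le_max_right _ _
  have hbβ : β ≤ b := le_max_left _ _
  have hb10 : b ^ 10 ≤ (z + 1) ^ 3 := by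
    rcases le_total β 1 with h | h
    · rw [hb, max_eq_right h, one_pow]
      exact one_le_pow₀ (by linarith)
    · rw [hb, max_eq_left h]; exact hβpow
  have hlt : (c * b) ^ 10 < (Real.sqrt z) ^ 10 := by
    have e1 : (Real.sqrt z) ^ 10 = z ^ 5 := by
      calc (Real.sqrt z) ^ 10 = ((Real.sqrt z) ^ 2) ^ 5 := by ring
        _ = z ^ 5 := by rw [Real.sq_sqrt (by positivity)]
    rw [e1]
    calc (c * b) ^ 10 = c ^ 10 * b ^ 10 := by ring
      _ ≤ c ^ 10 * (z + 1) ^ 3 := mul_le_mul_of_nonneg_left hb10 (by positivity)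
      _ ≤ c ^ 10 * (2 * z) ^ 3 := by
          apply mul_le_mul_of_nonneg_left _ (by positivity)
          apply pow_le_pow_left₀ (by positivity)
          linarith
      _ = (8 * c ^ 10) * z ^ 3 := by ring
      _ < z * z ^ 3 := by
          apply mul_lt_mul_of_pos_right _ (by positivity)
          linarith
      _ = z ^ 4 := by ring
      _ ≤ z ^ 5 := pow_le_pow_right₀ hzR (by norm_num)
  have hlt' : c * b < Real.sqrt z := lt_of_pow_lt_pow_left₀ 10 (Real.sqrt_nonneg _) hlt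
  have h5 : 2 * (8 * K * β + 400) ≤ c * b := by
    rw [hc]
    have h6 : K * β ≤ K * b := mul_le_mul_of_nonneg_left hbβ (by linarith)
    calc 2 * (8 * K * β + 400) = 16 * (K * β) + 800 := by ring
      _ ≤ 16 * (K * b) + 800 * b := by linarith
      _ = (16 * K + 800) * b := by ring
  linarith

theorem exists_modulus : ∃ A₀ : ℕ, ∀ (ι : Type) [Fintype ι] (s : ι → ℕ) (A g a q : ℕ),
    A₀ ≤ A → (∀ i, s i < A ^ 3) → 0 < Fintype.card ι →
    (collCount s) ^ 2000 * A ^ 5997 ≤ (Fintype.card ι) ^ 4000 →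
    Nat.Coprime a g → 1 ≤ a → a ≤ g → g ≤ A → 0 < q → q ≤ A ^ 2 →
    ∃ k < Nat.sqrt A, Nat.Coprime (a + g * k) q ∧
      ∑ d ∈ (a + g * k).divisors.erase 1, primSum s d < (Fintype.card ι : ℝ) ^ 2 := by
  obtain ⟨z₀, hz₀⟩ := rough_count
  obtain ⟨n₀, hn₀⟩ : ∃ n₀ : ℕ, n₀ = 2 ^ 299 := ⟨_, rfl⟩
  have hn₀1 : 1 ≤ n₀ := by rw [hn₀]; exact Nat.one_le_two_pow
  have hdivlem : ∀ {m y : ℕ}, 0 < y → m ≠ 0 → (∀ p ∈ m.primeFactors, y ≤ p) →
      m < y ^ 300 → m.divisors.card ≤ n₀ := by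
    intro m y h0 h1 h2 h3
    rw [hn₀]
    exact card_divisors_le h0 h1 h2 h3
  clear hn₀
  obtain ⟨K, hK⟩ : ∃ K : ℝ, K = 2 * (n₀ : ℝ) := ⟨_, rfl⟩
  have hn₀R : (1 : ℝ) ≤ n₀ := by exact_mod_cast hn₀1
  have hK1 : 1 ≤ K := by rw [hK]; linarith
  have hKpos : 0 < K := by linarith
  obtain ⟨c, hc⟩ : ∃ c : ℝ, c = 16 * K + 800 := ⟨_, rfl⟩
  have hcpos : 0 < c := by rw [hc]; linarith
  obtain ⟨Z, hZ⟩ : ∃ Z : ℕ, 8 * c ^ 10 + 1 ≤ (Z : ℝ) := exists_nat_ge _
  refine ⟨(z₀ + Z + 1) ^ 200, ?_⟩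
  intro ι _ s A g a q hA hs hcard hcoll hag ha hag' hgA hq hqA
  -- the choice of z
  obtain ⟨z, y, hy, hz1, hz2⟩ : ∃ z y : ℕ, y = z + 1 ∧ z ^ 200 ≤ A ∧ A < y ^ 200 := by
    refine ⟨Nat.findGreatest (fun z => z ^ 200 ≤ A) A, _, rfl, ?_, ?_⟩
    · have := @Nat.findGreatest_spec 0 (fun z => z ^ 200 ≤ A) _ A (Nat.zero_le _) (by simp)
      exact this
    · by_contra hcon
      push Not at hcon
      have h1 : Nat.findGreatest (fun z => z ^ 200 ≤ A) A + 1 ≤ A :=
        (Nat.le_self_pow (by norm_num) _).trans hcon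
      exact @Nat.findGreatest_is_greatest (Nat.findGreatest (fun z => z ^ 200 ≤ A) A + 1)
        (fun z => z ^ 200 ≤ A) _ A (Nat.lt_succ_self _) h1 hcon
  have hz3 : z₀ + Z + 1 ≤ z := by
    by_contra hcon
    push Not at hcon
    have h1 : y ≤ z₀ + Z + 1 := by omega
    have : y ^ 200 ≤ (z₀ + Z + 1) ^ 200 := Nat.pow_le_pow_left h1 200
    exact absurd (hz2.trans_le (this.trans hA)) (lt_irrefl _)
  clear hA
  have hzpos : 0 < z := by omega
  set D := Nat.sqrt A with hD
  have hD1 : D * D ≤ A := Nat.sqrt_le A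
  have hzD : z ^ 100 ≤ D := by
    rw [hD, Nat.le_sqrt]
    calc z ^ 100 * z ^ 100 = z ^ 200 := by rw [← pow_add]
      _ ≤ A := hz1
  have hzleD : z ≤ D := (Nat.le_self_pow (by norm_num) z).trans hzD
  have hApos : 0 < A := lt_of_lt_of_le (pow_pos hzpos _) hz1
  have hDpos : 0 < D := by omega
  have hM : (A * D) ^ 2 ≤ A ^ 3 := by
    calc (A * D) ^ 2 = A ^ 2 * (D * D) := by ring
      _ ≤ A ^ 2 * A := Nat.mul_le_mul_left _ hD1
      _ = A ^ 3 := by ring
  have LS := large_sieve s (A ^ 3) (A * D) hs hM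
  -- size of m_k
  have hmk : ∀ k < D, a + g * k ≤ A * D := by
    intro k hk
    have h1 : g * k + g ≤ g * D := by
      calc g * k + g = g * (k + 1) := by ring
        _ ≤ g * D := Nat.mul_le_mul_left _ hk
    have h2 : g * D ≤ A * D := Nat.mul_le_mul_right _ hgA
    omega
  have hmk2 : ∀ k < D, a + g * k < y ^ 300 := by
    intro k hk
    have h1 := hmk k hk
    have h2 : (a + g * k) ^ 2 < (y ^ 300) ^ 2 := by
      calc (a + g * k) ^ 2 ≤ (A * D) ^ 2 := Nat.pow_le_pow_left h1 2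
        _ ≤ A ^ 3 := hM
        _ < (y ^ 200) ^ 3 := Nat.pow_lt_pow_left hz2 (by norm_num)
        _ = (y ^ 300) ^ 2 := by rw [← pow_mul, ← pow_mul]
    exact lt_of_pow_lt_pow_left₀ 2 (Nat.zero_le _) h2
  have hTcard : ((q.primeFactors).filter (fun p => z < p)).card ≤ 400 := by
    apply card_large_primes hy hq
    calc q ≤ A ^ 2 := hqA
      _ < (y ^ 200) ^ 2 := Nat.pow_lt_pow_left hz2 (by norm_num)
      _ = y ^ 400 := by rw [← pow_mul]
  have hGcard0 := hz₀ z D g a (by omega) hzD hag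
  -- notation
  obtain ⟨N, hN⟩ : ∃ N : ℝ, N = (Fintype.card ι : ℝ) := ⟨_, rfl⟩
  have hNpos : 0 < N := by rw [hN]; exact_mod_cast hcard
  have hAR : (0 : ℝ) < A := by exact_mod_cast hApos
  have hβpow : ((A : ℝ) ^ 3 * (collCount s : ℝ) / N ^ 2) ^ 10 ≤ ((z : ℝ) + 1) ^ 3 := by
    have e : ((z : ℝ) + 1) = (y : ℝ) := by rw [hy]; push_cast; rfl
    rw [e]
    apply beta_pow' _ _ _ _ hAR hNpos (Nat.cast_nonneg _) (Nat.cast_nonneg _)
    · rw [hN]; exact_mod_cast hcoll
    · exact_mod_cast hz2.le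
  clear hcoll hz1 hz2 hzD
  rw [← hN]
  set 𝓑 : Finset ℕ := (Finset.Icc 1 (A * D)).filter (fun m => N ^ 2 / K ≤ primSum s m)
    with h𝓑
  obtain ⟨β, hβ⟩ : ∃ β : ℝ, β = (A : ℝ) ^ 3 * (collCount s : ℝ) / N ^ 2 := ⟨_, rfl⟩
  rw [← hβ] at hβpow
  have hβ0 : 0 ≤ β := by rw [hβ]; positivity
  have hBcard : (𝓑.card : ℝ) ≤ 8 * K * β := by
    have h1 : (𝓑.card : ℝ) * (N ^ 2 / K) ≤ ∑ m ∈ Finset.Icc 1 (A * D), primSum s m := by
      calc (𝓑.card : ℝ) * (N ^ 2 / K) = ∑ _m ∈ 𝓑, (N ^ 2 / K) := by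
            rw [Finset.sum_const, nsmul_eq_mul]
        _ ≤ ∑ m ∈ 𝓑, primSum s m := Finset.sum_le_sum fun m hm => by
            rw [h𝓑, Finset.mem_filter] at hm
            exact hm.2
        _ ≤ ∑ m ∈ Finset.Icc 1 (A * D), primSum s m :=
            Finset.sum_le_sum_of_subset_of_nonneg (Finset.filter_subset _ _)
              fun m _ _ => primSum_nonneg s m
    have h2 : (𝓑.card : ℝ) * (N ^ 2 / K) ≤ 8 * (((A ^ 3 : ℕ) : ℝ)) * (collCount s : ℝ) :=
      h1.trans LS
    have h3 : (𝓑.card : ℝ) * (N ^ 2 / K) * (K / N ^ 2) ≤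
        8 * (((A ^ 3 : ℕ) : ℝ)) * (collCount s : ℝ) * (K / N ^ 2) :=
      mul_le_mul_of_nonneg_right h2 (by positivity)
    have h4 : (𝓑.card : ℝ) * (N ^ 2 / K) * (K / N ^ 2) = 𝓑.card := by
      field_simp
    rw [h4] at h3
    refine h3.trans (le_of_eq ?_)
    rw [hβ]
    push_cast
    ring
  have hzR : (1 : ℝ) ≤ z := by exact_mod_cast hzpos
  have hsq : 2 * (8 * K * β + 400) < Real.sqrt z := by
    have hZz : 8 * c ^ 10 + 1 ≤ (z : ℝ) := by
      have : Z ≤ z := by omega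
      have h' : (Z : ℝ) ≤ (z : ℝ) := by exact_mod_cast this
      exact hZ.trans h'
    exact sqrt_big z K c β hK1 hc hβ0 hzR hZz hβpow
  -- large prime factors of q
  set T := (q.primeFactors).filter (fun p => z < p) with hT
  -- existence of k
  set G := (Finset.range D).filter (fun k => Nat.Coprime (a + g * k) (primorial z)) with hG
  have hGcard : (D : ℝ) / Real.sqrt z ≤ (G.card : ℝ) := hGcard0
  obtain ⟨k, hkG, hkB, hkT⟩ : ∃ k ∈ G, (∀ m ∈ 𝓑, z < m → ¬ m ∣ a + g * k) ∧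
      (∀ l ∈ T, ¬ l ∣ a + g * k) := by
    by_contra hcon
    push Not at hcon
    have hsub : G ⊆ (𝓑.filter (fun m => z < m)).biUnion
          (fun m => (Finset.range D).filter (fun k => m ∣ a + g * k)) ∪
        T.biUnion (fun l => (Finset.range D).filter (fun k => l ∣ a + g * k)) := by
      intro k hk
      have hkr : k ∈ Finset.range D := by
        rw [hG, Finset.mem_filter] at hk
        exact hk.1
      rw [Finset.mem_union, Finset.mem_biUnion, Finset.mem_biUnion]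
      by_cases h : ∀ m ∈ 𝓑, z < m → ¬ m ∣ a + g * k
      · right
        obtain ⟨l, hl, hl2⟩ := hcon k hk h
        exact ⟨l, hl, Finset.mem_filter.mpr ⟨hkr, hl2⟩⟩
      · left
        push Not at h
        obtain ⟨m, hm, hm2, hm3⟩ := h
        exact ⟨m, Finset.mem_filter.mpr ⟨hm, hm2⟩, Finset.mem_filter.mpr ⟨hkr, hm3⟩⟩
    have hcard1 : G.card ≤ (𝓑.filter (fun m => z < m)).card * (D / z + 1) + T.card * (D / z + 1) := by
      refine (Finset.card_le_card hsub).trans ((Finset.card_union_le _ _).trans ?_)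
      apply add_le_add
      · apply Finset.card_biUnion_le_card_mul
        intro m hm
        rw [Finset.mem_filter] at hm
        refine (count_dvd_le D m g a (by omega) hag).trans ?_
        have : D / m ≤ D / z := Nat.div_le_div_left hm.2.le hzpos
        omega
      · apply Finset.card_biUnion_le_card_mul
        intro m hm
        rw [hT, Finset.mem_filter] at hm
        refine (count_dvd_le D m g a (by omega) hag).trans ?_
        have : D / m ≤ D / z := Nat.div_le_div_left hm.2.le hzpos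
        omega
    have hcard2 : (G.card : ℝ) ≤ ((𝓑.card : ℝ) + 400) * (2 * D / z) := by
      have h1 : G.card ≤ (𝓑.card + 400) * (D / z + 1) := by
        refine hcard1.trans ?_
        rw [← add_mul]
        apply Nat.mul_le_mul_right
        have := Finset.card_filter_le 𝓑 (fun m => z < m)
        omega
      have h2 : (((D / z + 1 : ℕ)) : ℝ) ≤ 2 * D / z := by
        have h3 : ((D / z : ℕ) : ℝ) ≤ (D : ℝ) / z := Nat.cast_div_le
        have h4 : (1 : ℝ) ≤ (D : ℝ) / z := by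
          rw [le_div_iff₀ (by linarith)]
          rw [one_mul]; exact_mod_cast hzleD
        push_cast
        have h5 : 2 * (D : ℝ) / z = D / z + D / z := by ring
        rw [h5]
        linarith
      calc (G.card : ℝ) ≤ (((𝓑.card + 400) * (D / z + 1) : ℕ) : ℝ) := by exact_mod_cast h1
        _ = ((𝓑.card : ℝ) + 400) * ((D / z + 1 : ℕ) : ℝ) := by push_cast; ring
        _ ≤ ((𝓑.card : ℝ) + 400) * (2 * D / z) :=
            mul_le_mul_of_nonneg_left h2 (by positivity)
    have hDR : (0 : ℝ) < D := by exact_mod_cast hDpos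
    have hzR' : (0 : ℝ) < z := by linarith
    have hsqpos : 0 < Real.sqrt z := Real.sqrt_pos.mpr hzR'
    have h6 : ((𝓑.card : ℝ) + 400) * (2 * D / z) < D / Real.sqrt z := by
      have h7 : 2 * ((𝓑.card : ℝ) + 400) < Real.sqrt z := by linarith
      have h8 : (D : ℝ) / Real.sqrt z = Real.sqrt z * (D / z) := by
        have : (z : ℝ) = Real.sqrt z * Real.sqrt z := (Real.mul_self_sqrt hzR'.le).symm
        rw [div_eq_iff hsqpos.ne']
        calc (D : ℝ) = (D / z) * z := by field_simp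
          _ = (D / z) * (Real.sqrt z * Real.sqrt z) := by rw [← this]
          _ = Real.sqrt z * (D / z) * Real.sqrt z := by ring
      rw [h8]
      calc ((𝓑.card : ℝ) + 400) * (2 * D / z) = (2 * ((𝓑.card : ℝ) + 400)) * (D / z) := by ring
        _ < Real.sqrt z * (D / z) := mul_lt_mul_of_pos_right h7 (by positivity)
    linarith
  -- conclusion
  have hkG' := hkG
  rw [hG, Finset.mem_filter, Finset.mem_range] at hkG'
  obtain ⟨hkD, hkcop⟩ := hkG'
  have hm0 : a + g * k ≠ 0 := by omega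
  have hprime : ∀ p, p.Prime → p ∣ a + g * k → z < p := by
    intro p hp hpd
    by_contra hcon
    push Not at hcon
    have h1 : p ∣ primorial z := hp.dvd_primorial_iff.mpr hcon
    exact hp.one_lt.ne' (Nat.dvd_one.mp (hkcop ▸ Nat.dvd_gcd hpd h1))
  refine ⟨k, hkD, ?_, ?_⟩
  · apply Nat.Coprime.symm
    apply Nat.coprime_of_dvd
    intro p hp hpq hpm
    exact hkT p (by
      rw [hT, Finset.mem_filter]
      exact ⟨Nat.mem_primeFactors.mpr ⟨hp, hpq, hq.ne'⟩, hprime p hp hpm⟩) hpm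
  · have hdiv : (a + g * k).divisors.card ≤ n₀ := by
      apply hdivlem (y := y) (by omega) hm0
      · intro p hp
        rw [hy]
        exact hprime p (Nat.prime_of_mem_primeFactors hp) (Nat.dvd_of_mem_primeFactors hp)
      · exact hmk2 k hkD
    have hbound : ∀ d ∈ (a + g * k).divisors.erase 1, primSum s d ≤ N ^ 2 / K := by
      intro d hd
      rw [Finset.mem_erase, Nat.mem_divisors] at hd
      obtain ⟨hd1, hd2, _⟩ := hd
      have hdpos : 0 < d := Nat.pos_of_dvd_of_pos hd2 (by omega)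
      have hdz : z < d := by
        obtain ⟨p, hp, hpd⟩ := Nat.exists_prime_and_dvd hd1
        exact (hprime p hp (hpd.trans hd2)).trans_le (Nat.le_of_dvd hdpos hpd)
      by_contra hcon
      push Not at hcon
      refine hkB d ?_ hdz hd2
      rw [h𝓑, Finset.mem_filter, Finset.mem_Icc]
      exact ⟨⟨hdpos, (Nat.le_of_dvd (by omega) hd2).trans (hmk k hkD)⟩, hcon.le⟩
    calc ∑ d ∈ (a + g * k).divisors.erase 1, primSum s d
        ≤ ∑ _d ∈ (a + g * k).divisors.erase 1, N ^ 2 / K := Finset.sum_le_sum hbound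
      _ = (((a + g * k).divisors.erase 1).card : ℝ) * (N ^ 2 / K) := by
          rw [Finset.sum_const, nsmul_eq_mul]
      _ ≤ (n₀ : ℝ) * (N ^ 2 / K) := by
          apply mul_le_mul_of_nonneg_right _ (by positivity)
          have : ((a + g * k).divisors.erase 1).card ≤ n₀ :=
            (Finset.card_erase_le).trans hdiv
          exact_mod_cast this
      _ = N ^ 2 / 2 := by
          rw [hK]
          field_simp
      _ < N ^ 2 := by
          have : 0 < N ^ 2 := by positivity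
          linarith

end Crest.Agent.R19
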