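import Mathlib

/-!
# Row 19 (S0025): `a/b` is a sum of `O(log log b)` distinct unit fractions.

Common definitions.  Overview of the proof: see the table `research` (row 19) and the headers of the
files of this folder.
-/

namespace Crest.Agent.R19

/-- `e(x) = exp(2πix)`. -/
noncomputable def ex (x : ℝ) : ℂ := Complex.exp (2 * Real.pi * Complex.I * x)

/-- Exponential sum of a finite family of naturals at the fraction `h/m`. -/
noncomputable def expSum {ι : Type*} [Fintype ι] (s : ι → ℕ) (m h : ℕ) : ℂ :=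
  ∑ i, ex ((h : ℝ) * (s i : ℝ) / (m : ℝ))

/-- Sum of `‖expSum‖²` over the primitive fractions `h/m`. -/
noncomputable def primSum {ι : Type*} [Fintype ι] (s : ι → ℕ) (m : ℕ) : ℝ :=
  ∑ h ∈ (Finset.range m).filter (fun h => Nat.Coprime h m), ‖expSum s m h‖ ^ 2

/-- Number of pairs `(i,i')` with `s i = s i'`. -/
noncomputable def collCount {ι : Type*} [Fintype ι] (s : ι → ℕ) : ℕ :=
  Fintype.card {p : ι × ι // s p.1 = s p.2}

/-- Number of pairs of divisors of `U` that are congruent modulo `Q`. -/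
def pairCount (U Q : ℕ) : ℕ :=
  ((U.divisors ×ˢ U.divisors).filter (fun p => p.1 ≡ p.2 [MOD Q])).card

/-- `∑ᵢ (Π/Qᵢ) uᵢ`, where `Π = ∏ Qᵢ`. -/
def blockVal {K : ℕ} (Q : Fin K → ℕ) (u : Fin K → ℕ) : ℕ :=
  ∑ i, (∏ j ∈ Finset.univ.erase i, Q j) * u i

/-- `∑ⱼ Eⱼ ∑ᵢ (Π/Qᵢ) uⱼᵢ`, three blocks. -/
def rowVal {K : ℕ} (E : Fin 3 → ℕ) (Q : Fin K → ℕ) (u : Fin 3 → Fin K → ℕ) : ℕ :=
  ∑ j, E j * blockVal Q (u j)

/-- The index type of all choices of divisors. -/
abbrev Idx (K U : ℕ) : Type := Fin 3 → Fin K → {u : ℕ // u ∈ U.divisors}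

/-- The sum attached to a choice of divisors. -/
def rowSum {K : ℕ} (U : ℕ) (E : Fin 3 → ℕ) (Q : Fin K → ℕ) (v : Idx K U) : ℕ :=
  rowVal E Q (fun j i => (v j i : ℕ))

end Crest.Agent.R19
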