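import Crest.Agent.R19.Rows

/-!
# R19, piece G: from the zero sum to unit fractions

`n = R·N`, `R = U·∏ Q`, `m + q = p·n` (so `p/q = 1/n + m/(q n)`), `m ∣ Σ := s + N·s'` where `s = rowSum U E Q v`,
`s' = rowSum U E Q v'`, `E 0 = 1`, `E 1 ∣ q`, `E 2 = q`.
The `6K` numbers `d = E j·(Π/Qᵢ)·v j i` and `N·E j·(Π/Qᵢ)·v' j i` are distinct divisors of `q n`:
 * first kind: all divide `q R`; block `0` is `< R ≤ E 1`, block `1` is `< E 1·R < E 2 = q`, so blocks do not meet
   (`blockVal_lt`-type sizes); inside a block `Qᵢ` does not divide the `i`-th but all others (`Qᵢ` coprime to `U`, and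
   use the part without the factor `E j`);
 * second kind: multiples of `N`; if `N d' = d ∣ q R` then `N ∣ R` (as `gcd(N,q)=1`), impossible since `N > R`.
With `x = Σ/m ≥ 1`, `m/(q n) = ∑_d d/(q n x) = ∑_d 1/((q n/d)·x)`; the denominators are distinct and each is
`≥ q n/m > n` (because `(q n/d)·x·m·d = q n Σ ≥ q n d` and `m < q`).
-/

namespace Crest.Agent.R19

/-- the term of index `(j, i)` -/
def egTerm {K : ℕ} (U : ℕ) (E : Fin 3 → ℕ) (Q : Fin K → ℕ) (v : Idx K U) (x : Fin 3 × Fin K) : ℕ :=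
  E x.1 * ((∏ j ∈ Finset.univ.erase x.2, Q j) * (v x.1 x.2 : ℕ))

theorem sum_term {K : ℕ} (U : ℕ) (E : Fin 3 → ℕ) (Q : Fin K → ℕ) (v : Idx K U) :
    ∑ x, egTerm U E Q v x = rowSum U E Q v := by
  unfold rowSum rowVal blockVal egTerm
  rw [Fintype.sum_prod_type]
  refine Finset.sum_congr rfl fun j _ => ?_
  rw [Finset.mul_sum]

section
variable {K : ℕ} (U q : ℕ) (E : Fin 3 → ℕ) (Q : Fin K → ℕ)

theorem E_dvd (hE0 : E 0 = 1) (hE1q : E 1 ∣ q) (hE2q : E 2 = q) (j : Fin 3) : E j ∣ q := by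
  fin_cases j
  · change E 0 ∣ q
    rw [hE0]; exact one_dvd _
  · exact hE1q
  · change E 2 ∣ q
    rw [hE2q]

theorem small_dvd (hU : 0 < U) (v : Idx K U) (x : Fin 3 × Fin K) :
    (∏ j ∈ Finset.univ.erase x.2, Q j) * (v x.1 x.2 : ℕ) ∣ U * ∏ i, Q i := by
  rw [mul_comm U]
  refine Nat.mul_dvd_mul ?_ (Nat.dvd_of_mem_divisors (v x.1 x.2).2)
  rw [← Finset.prod_erase_mul Finset.univ Q (Finset.mem_univ x.2)]
  exact Dvd.intro _ rfl

theorem term_dvd (hU : 0 < U) (hE0 : E 0 = 1) (hE1q : E 1 ∣ q) (hE2q : E 2 = q) (v : Idx K U)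
    (x : Fin 3 × Fin K) : egTerm U E Q v x ∣ q * (U * ∏ i, Q i) :=
  Nat.mul_dvd_mul (E_dvd q E hE0 hE1q hE2q x.1) (small_dvd U Q hU v x)

theorem term_injective (hU : 0 < U) (hprime : ∀ i, (Q i).Prime) (hinj : Function.Injective Q)
    (hQK : ∀ i, K < Q i) (hQU : ∀ i, Nat.Coprime (Q i) U)
    (hE0 : E 0 = 1) (hE1 : U * ∏ i, Q i ≤ E 1) (hE2 : (E 1 + 1) * (U * ∏ i, Q i) ≤ E 2)
    (v : Idx K U) : Function.Injective (egTerm U E Q v) := by
  have hPpos : 0 < ∏ i, Q i := Finset.prod_pos fun i _ => (hprime i).pos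
  have hR : 0 < U * ∏ i, Q i := Nat.mul_pos hU hPpos
  set R := U * ∏ i, Q i with hRdef
  have hsmall_pos : ∀ x : Fin 3 × Fin K,
      0 < (∏ j ∈ Finset.univ.erase x.2, Q j) * (v x.1 x.2 : ℕ) := fun x =>
    Nat.mul_pos (Finset.prod_pos fun i _ => (hprime i).pos)
      (Nat.pos_of_mem_divisors (v x.1 x.2).2)
  have hsmall_lt : ∀ x : Fin 3 × Fin K,
      (∏ j ∈ Finset.univ.erase x.2, Q j) * (v x.1 x.2 : ℕ) < R := by
    intro x
    rw [hRdef, ← Finset.prod_erase_mul Finset.univ Q (Finset.mem_univ x.2)]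
    have h1 : (v x.1 x.2 : ℕ) ≤ U := Nat.le_of_dvd hU (Nat.dvd_of_mem_divisors (v x.1 x.2).2)
    have h2 := (hprime x.2).two_le
    have h3 : 0 < ∏ j ∈ Finset.univ.erase x.2, Q j := Finset.prod_pos fun i _ => (hprime i).pos
    calc (∏ j ∈ Finset.univ.erase x.2, Q j) * (v x.1 x.2 : ℕ)
        ≤ (∏ j ∈ Finset.univ.erase x.2, Q j) * U := Nat.mul_le_mul_left _ h1
      _ < (∏ j ∈ Finset.univ.erase x.2, Q j) * U * Q x.2 := by
          have : 0 < (∏ j ∈ Finset.univ.erase x.2, Q j) * U := Nat.mul_pos h3 hU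
          nlinarith
      _ = U * ((∏ j ∈ Finset.univ.erase x.2, Q j) * Q x.2) := by ring
  have hE1pos : 0 < E 1 := lt_of_lt_of_le hR hE1
  have hE2pos : 0 < E 2 := lt_of_lt_of_le (Nat.mul_pos (Nat.succ_pos _) hR) hE2
  have hEpos : ∀ j : Fin 3, 0 < E j := by
    intro j
    fin_cases j
    · change 0 < E 0
      omega
    · exact hE1pos
    · exact hE2pos
  -- same block
  have same : ∀ (j : Fin 3) (i i' : Fin K), egTerm U E Q v (j, i) = egTerm U E Q v (j, i') →
      i = i' := by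
    intro j i i' h
    by_contra hne
    unfold egTerm at h
    have h' := Nat.eq_of_mul_eq_mul_left (hEpos j) h
    simp only at h'
    have hd : Q i ∣ (∏ l ∈ Finset.univ.erase i', Q l) * (v j i' : ℕ) := by
      refine Dvd.dvd.mul_right (Finset.dvd_prod_of_mem Q ?_) _
      rw [Finset.mem_erase]
      exact ⟨hne, Finset.mem_univ _⟩
    rw [← h'] at hd
    have hc1 : Nat.Coprime (Q i) (∏ j ∈ Finset.univ.erase i, Q j) :=
      coprime_prod_erase Q hprime hinj i
    have hc2 : Nat.Coprime (Q i) (v j i : ℕ) :=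
      Nat.Coprime.coprime_dvd_right (Nat.dvd_of_mem_divisors (v j i).2) (hQU i)
    have hc := Nat.Coprime.mul_right hc1 hc2
    have h1 := Nat.Coprime.eq_one_of_dvd hc hd
    exact (hprime i).one_lt.ne' h1
  -- sizes
  have b0 : ∀ i, egTerm U E Q v (0, i) < R := by
    intro i
    have := hsmall_lt (0, i)
    unfold egTerm
    simp only [hE0, one_mul]
    exact this
  have b1 : ∀ i, E 1 ≤ egTerm U E Q v (1, i) ∧ egTerm U E Q v (1, i) < E 1 * R := by
    intro i
    unfold egTerm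
    exact ⟨Nat.le_mul_of_pos_right _ (hsmall_pos (1, i)),
      Nat.mul_lt_mul_of_pos_left (hsmall_lt (1, i)) hE1pos⟩
  have b2 : ∀ i, E 2 ≤ egTerm U E Q v (2, i) := by
    intro i
    unfold egTerm
    exact Nat.le_mul_of_pos_right _ (hsmall_pos (2, i))
  have hE12 : E 1 * R < E 2 := by nlinarith
  rintro ⟨j, i⟩ ⟨j', i'⟩ h
  have hj : j = j' := by
    have a0 := b0 i
    have a1 := b1 i
    have a2 := b2 i
    have a0' := b0 i'
    have a1' := b1 i'
    have a2' := b2 i'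
    have hcases : ∀ j : Fin 3, j = 0 ∨ j = 1 ∨ j = 2 := by decide
    rcases hcases j with rfl | rfl | rfl <;> rcases hcases j' with rfl | rfl | rfl <;>
      first
        | rfl
        | (exfalso
           have hR1 : R ≤ E 1 * R := Nat.le_mul_of_pos_left _ hE1pos
           omega)
  subst hj
  rw [same j i i' h]

end

theorem egypt {K : ℕ} (U N m p q n : ℕ) (E : Fin 3 → ℕ) (Q : Fin K → ℕ) (v v' : Idx K U)
    (hK : 0 < K)
    (hU : 0 < U) (hprime : ∀ i, (Q i).Prime) (hinj : Function.Injective Q)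
    (hQK : ∀ i, K < Q i) (hQU : ∀ i, Nat.Coprime (Q i) U)
    (hE0 : E 0 = 1) (hE1q : E 1 ∣ q) (hE2q : E 2 = q)
    (hE1 : U * ∏ i, Q i ≤ E 1) (hE2 : (E 1 + 1) * (U * ∏ i, Q i) ≤ E 2)
    (hq : 0 < q) (hm : 0 < m) (hmq : m < q) (hn : n = (U * ∏ i, Q i) * N)
    (hmn : m + q = p * n) (hNq : Nat.Coprime N q) (hNR : U * ∏ i, Q i < N)
    (hdvd : m ∣ rowSum U E Q v + N * rowSum U E Q v') :
    ∃ S : Finset ℕ, (∀ d ∈ S, n < d) ∧ S.card ≤ 6 * K ∧
      (p : ℚ) / (q : ℚ) = 1 / (n : ℚ) + ∑ d ∈ S, (1 : ℚ) / (d : ℚ) := by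
  classical
  have hPpos : 0 < ∏ i, Q i := Finset.prod_pos fun i _ => (hprime i).pos
  have hR : 0 < U * ∏ i, Q i := Nat.mul_pos hU hPpos
  have hN : 0 < N := by omega
  have hnpos : 0 < n := by rw [hn]; exact Nat.mul_pos hR hN
  have hinj1 := term_injective U E Q hU hprime hinj hQK hQU hE0 hE1 hE2 v
  have hinj2 := term_injective U E Q hU hprime hinj hQK hQU hE0 hE1 hE2 v'
  -- the index type
  let d : (Fin 3 × Fin K) ⊕ (Fin 3 × Fin K) → ℕ :=
    Sum.elim (egTerm U E Q v) (fun x => N * egTerm U E Q v' x)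
  have hd_dvd : ∀ y, d y ∣ q * n := by
    rintro (x | x)
    · change egTerm U E Q v x ∣ q * n
      rw [hn, ← mul_assoc]
      exact Dvd.dvd.mul_right (term_dvd U q E Q hU hE0 hE1q hE2q v x) N
    · change N * egTerm U E Q v' x ∣ q * n
      rw [hn, ← mul_assoc, mul_comm _ N]
      exact Nat.mul_dvd_mul_left N (term_dvd U q E Q hU hE0 hE1q hE2q v' x)
  have hqn : 0 < q * n := Nat.mul_pos hq hnpos
  have hd_pos : ∀ y, 0 < d y := fun y => Nat.pos_of_dvd_of_pos (hd_dvd y) hqn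
  have hcross : ∀ x x', egTerm U E Q v x ≠ N * egTerm U E Q v' x' := by
    intro x x' h
    have h1 : N ∣ q * (U * ∏ i, Q i) :=
      (Dvd.intro _ h.symm).trans (term_dvd U q E Q hU hE0 hE1q hE2q v x)
    have h2 : N ∣ U * ∏ i, Q i := Nat.Coprime.dvd_of_dvd_mul_left hNq h1
    exact absurd (Nat.le_of_dvd hR h2) (by omega)
  have hd_inj : Function.Injective d := by
    rintro (x | x) (y | y) h
    · exact congrArg _ (hinj1 h)
    · exact absurd h (hcross x y)
    · exact absurd h.symm (hcross y x)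
    · exact congrArg _ (hinj2 (Nat.eq_of_mul_eq_mul_left hN h))
  have hsum : ∑ y, d y = rowSum U E Q v + N * rowSum U E Q v' := by
    rw [Fintype.sum_sum_type]
    change ∑ x, egTerm U E Q v x + ∑ x, N * egTerm U E Q v' x = _
    rw [← Finset.mul_sum, sum_term, sum_term]
  obtain ⟨x, hx⟩ := hdvd
  rw [← hsum] at hx
  have hle : ∀ y, d y ≤ m * x := by
    intro y
    rw [← hx]
    exact Finset.single_le_sum (f := d) (fun _ _ => Nat.zero_le _) (Finset.mem_univ y)
  have hxpos : 0 < x := by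
    have h := hle (Sum.inl (0, ⟨0, hK⟩))
    have h' := hd_pos (Sum.inl (0, ⟨0, hK⟩))
    by_contra h0
    have : x = 0 := by omega
    rw [this, mul_zero] at h
    omega
  -- the denominators
  let g : (Fin 3 × Fin K) ⊕ (Fin 3 × Fin K) → ℕ := fun y => (q * n / d y) * x
  have hg_mul : ∀ y, g y * d y = q * n * x := by
    intro y
    change (q * n / d y) * x * d y = _
    rw [mul_assoc, mul_comm x, ← mul_assoc, Nat.div_mul_cancel (hd_dvd y)]
  have hg_inj : Function.Injective g := by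
    intro y z h
    apply hd_inj
    have h1 := hg_mul y
    have h2 := hg_mul z
    rw [h] at h1
    have hpos : 0 < g z := by
      rcases Nat.eq_zero_or_pos (g z) with h0 | h0
      · rw [h0, zero_mul] at h2
        exact absurd h2.symm (Nat.mul_pos hqn hxpos).ne'
      · exact h0
    exact Nat.eq_of_mul_eq_mul_left hpos (h1.trans h2.symm)
  have hg_gt : ∀ y, n < g y := by
    intro y
    have h1 := hg_mul y
    have h2 := hle y
    by_contra hcon
    have h3 : g y ≤ n := by omega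
    have h4 : q * n * x ≤ n * (m * x) := by
      rw [← h1]; exact Nat.mul_le_mul h3 h2
    have h5 : n * (m * x) < q * n * x := by
      have : 0 < n * x := Nat.mul_pos hnpos hxpos
      nlinarith
    omega
  refine ⟨Finset.univ.image g, ?_, ?_, ?_⟩
  · intro e he
    obtain ⟨y, _, rfl⟩ := Finset.mem_image.mp he
    exact hg_gt y
  · refine Finset.card_image_le.trans ?_
    simp only [Finset.card_univ, Fintype.card_sum, Fintype.card_prod, Fintype.card_fin]
    omega
  · rw [Finset.sum_image (fun a _ b _ h => hg_inj h)]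
    have hqnx : ((q : ℚ) * n * x) ≠ 0 := by
      have := Nat.mul_pos hqn hxpos
      exact_mod_cast this.ne'
    have h1 : ∀ y, (1 : ℚ) / (g y : ℚ) = (d y : ℚ) / ((q : ℚ) * n * x) := by
      intro y
      have h2 := hg_mul y
      have h3 : (0 : ℚ) < g y := by
        have := hg_gt y
        exact_mod_cast (by omega : 0 < g y)
      rw [div_eq_div_iff h3.ne' hqnx]
      have h4 : ((g y : ℚ) * d y) = (q : ℚ) * n * x := by exact_mod_cast h2
      linarith
    rw [Finset.sum_congr rfl fun y _ => h1 y, ← Finset.sum_div]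
    have h5 : ∑ y, (d y : ℚ) = (m : ℚ) * x := by exact_mod_cast hx
    rw [h5]
    have hq' : (q : ℚ) ≠ 0 := by exact_mod_cast hq.ne'
    have hn' : (n : ℚ) ≠ 0 := by exact_mod_cast hnpos.ne'
    have hx' : (x : ℚ) ≠ 0 := by exact_mod_cast hxpos.ne'
    have h6 : (m : ℚ) + q = p * n := by exact_mod_cast hmn
    field_simp
    linarith

end Crest.Agent.R19
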