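import Crest.Agent.R19.Defs

/-!
# R19, piece L: a large sieve inequality (proved; elementary dual large sieve)
-/

namespace Crest.Agent.R19

namespace LS

open Finset

lemma ex_add (x y : ℝ) : ex (x + y) = ex x * ex y := by
  unfold ex
  rw [← Complex.exp_add]
  congr 1
  push_cast
  ring

lemma ex_zero : ex 0 = 1 := by simp [ex]

lemma norm_ex (x : ℝ) : ‖ex x‖ = 1 := by
  unfold ex
  have h : (2 * (Real.pi : ℂ) * Complex.I * (x : ℂ)) = ((2 * Real.pi * x : ℝ) : ℂ) * Complex.I := by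
    push_cast; ring
  rw [h, Complex.norm_exp_ofReal_mul_I]

lemma conj_ex (x : ℝ) : (starRingEnd ℂ) (ex x) = ex (-x) := by
  unfold ex
  rw [← Complex.exp_conj]
  congr 1
  have h2 : (starRingEnd ℂ) 2 = 2 := Complex.conj_ofNat 2
  simp [map_mul, Complex.conj_I, h2]

lemma ex_int (k : ℤ) : ex (k : ℝ) = 1 := by
  unfold ex
  have h : (2 * (Real.pi : ℂ) * Complex.I * ((k : ℝ) : ℂ)) = (k : ℂ) * (2 * Real.pi * Complex.I) := by
    push_cast; ring
  rw [h, Complex.exp_int_mul_two_pi_mul_I]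

lemma ex_nat_mul (x : ℝ) (n : ℕ) : ex (x * n) = ex x ^ n := by
  unfold ex
  rw [← Complex.exp_nat_mul]
  congr 1
  push_cast
  ring

lemma norm_ex_sub_one (x : ℝ) : ‖ex x - 1‖ = 2 * |Real.sin (Real.pi * x)| := by
  unfold ex
  have h : (2 * (Real.pi : ℂ) * Complex.I * (x : ℂ)) = Complex.I * ((2 * Real.pi * x : ℝ) : ℂ) := by
    push_cast; ring
  rw [h, Complex.norm_exp_I_mul_ofReal_sub_one]
  rw [Real.norm_eq_abs, abs_mul, abs_two]
  have h2 : 2 * Real.pi * x / 2 = Real.pi * x := by ring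
  rw [h2]

/-- The Dirichlet kernel. -/
noncomputable def D (N : ℕ) (β : ℝ) : ℂ := ∑ j ∈ range N, ex (β * j)

lemma norm_D_le (N : ℕ) (β : ℝ) : ‖D N β‖ ≤ N := by
  unfold D
  refine (norm_sum_le _ _).trans ?_
  simp [norm_ex]

lemma abs_sin_ge (x : ℝ) (hx : |x| ≤ 1 / 2) : 2 * |x| ≤ |Real.sin (Real.pi * x)| := by
  have hpi := Real.pi_pos
  have key : ∀ y : ℝ, 0 ≤ y → y ≤ 1 / 2 → 2 * y ≤ Real.sin (Real.pi * y) := by
    intro y hy0 hy1
    have := Real.mul_le_sin (x := Real.pi * y) (by positivity) (by nlinarith)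
    have h2 : 2 / Real.pi * (Real.pi * y) = 2 * y := by field_simp
    linarith
  have h := key |x| (abs_nonneg x) hx
  rcases abs_cases x with ⟨hx1, _⟩ | ⟨hx1, _⟩
  · rw [hx1] at h ⊢
    exact h.trans (le_abs_self _)
  · rw [hx1] at h ⊢
    have h3 : Real.sin (Real.pi * -x) = - Real.sin (Real.pi * x) := by
      rw [mul_neg, Real.sin_neg]
    rw [h3] at h
    exact h.trans (neg_le_abs _)

lemma norm_D_le' (N : ℕ) (β : ℝ) (k : ℤ) (hk : |β - k| ≤ 1 / 2) (hne : β - k ≠ 0) :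
    ‖D N β‖ ≤ 1 / (2 * |β - k|) := by
  have hex : ex β = ex (β - k) := by
    have : β = (β - k) + k := by ring
    conv_lhs => rw [this, ex_add, ex_int, mul_one]
  have h1 : 4 * |β - k| ≤ ‖ex β - 1‖ := by
    rw [hex, norm_ex_sub_one]
    have := abs_sin_ge (β - k) hk
    linarith
  have hpos : 0 < |β - k| := abs_pos.mpr hne
  have hne1 : ex β ≠ 1 := by
    intro h
    rw [h] at h1
    simp at h1
    linarith
  have hD : D N β = (ex β ^ N - 1) / (ex β - 1) := by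
    unfold D
    rw [← geom_sum_eq hne1]
    refine sum_congr rfl fun j _ => ?_
    rw [ex_nat_mul]
  rw [hD, norm_div]
  have h2 : ‖ex β ^ N - 1‖ ≤ 2 := by
    refine (norm_sub_le _ _).trans ?_
    rw [norm_pow, norm_ex]
    norm_num
  have h3 : 0 < ‖ex β - 1‖ := by linarith
  rw [div_le_div_iff₀ h3 (by positivity)]
  nlinarith

lemma abs_sub_lt_one_of_floor {x y : ℝ} (hx : 0 ≤ x) (hy : 0 ≤ y) (h : ⌊x⌋₊ = ⌊y⌋₊) :
    |x - y| < 1 := by
  have h1 := Nat.floor_le hx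
  have h2 := Nat.lt_floor_add_one x
  have h3 := Nat.floor_le hy
  have h4 := Nat.lt_floor_add_one y
  rw [h] at h1 h2
  rw [abs_lt]
  constructor <;> linarith

/-- The key spacing estimate. -/
lemma sum_D_le {ρ : Type*} [DecidableEq ρ] (F : Finset ρ) (α : ρ → ℝ) (X : ℕ) (hX : 0 < X)
    (hsep : ∀ r ∈ F, ∀ r' ∈ F, r ≠ r' → ∀ k : ℤ, 1 ≤ (X : ℝ) * |α r - α r' - k|)
    (r : ρ) (hr : r ∈ F) :
    ∑ r' ∈ F, ‖D (2 * X) (α r - α r')‖ ^ 2 ≤ 8 * (X : ℝ) ^ 2 := by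
  classical
  have hXpos : (0 : ℝ) < X := by exact_mod_cast hX
  set δ : ρ → ℝ := fun r' => (α r - α r') - round (α r - α r') with hδ
  have hδle : ∀ r', |δ r'| ≤ 1 / 2 := fun r' => abs_sub_round _
  have hδge : ∀ r' ∈ F, r' ≠ r → 1 ≤ (X : ℝ) * |δ r'| := by
    intro r' hr' hne
    exact hsep r hr r' hr' (Ne.symm hne) _
  have hδsep : ∀ r' ∈ F, ∀ r'' ∈ F, r' ≠ r'' → 1 ≤ (X : ℝ) * |δ r' - δ r''| := by
    intro r' hr' r'' hr'' hne
    have := hsep r'' hr'' r' hr' (Ne.symm hne) (round (α r - α r') - round (α r - α r''))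
    refine this.trans (le_of_eq ?_)
    congr 2
    simp only [hδ]
    push_cast
    ring
  have hbd : ∀ r' ∈ F, r' ≠ r → ‖D (2 * X) (α r - α r')‖ ^ 2 ≤ (1 / (2 * |δ r'|)) ^ 2 := by
    intro r' hr' hne
    have h1 := hδge r' hr' hne
    have hne0 : δ r' ≠ 0 := by
      intro h0
      rw [h0] at h1
      simp at h1
      linarith
    have := norm_D_le' (2 * X) (α r - α r') (round (α r - α r')) (hδle r') hne0
    exact pow_le_pow_left₀ (norm_nonneg _) this 2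
  -- generic bound for sums over an injective family
  have hgen : ∀ (S : Finset ρ) (f : ρ → ℕ), Set.InjOn f S → (∀ x ∈ S, 1 ≤ f x) →
      (∀ x ∈ S, (f x : ℝ) ≤ X * |δ x|) →
      ∑ x ∈ S, (1 / (2 * |δ x|)) ^ 2 ≤ (X : ℝ) ^ 2 / 2 := by
    intro S f hinj hf1 hf2
    have h1 : ∀ x ∈ S, (1 / (2 * |δ x|)) ^ 2 ≤ (X : ℝ) ^ 2 / 4 * ((f x : ℝ) ^ 2)⁻¹ := by
      intro x hx
      have hfx : (1 : ℝ) ≤ f x := by exact_mod_cast hf1 x hx
      have h2 := hf2 x hx
      have hpos : 0 < |δ x| := by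
        by_contra hcon
        push Not at hcon
        nlinarith
      rw [← div_eq_mul_inv, div_pow, one_pow, mul_pow, div_div, div_le_div_iff₀ (by positivity) (by positivity)]
      have h3 : (f x : ℝ) ^ 2 ≤ (X * |δ x|) ^ 2 := pow_le_pow_left₀ (by linarith) h2 2
      nlinarith
    have h2 : ∑ x ∈ S, ((f x : ℝ) ^ 2)⁻¹ ≤ 2 := by
      have h3 : ∑ x ∈ S, ((f x : ℝ) ^ 2)⁻¹ = ∑ i ∈ S.image f, ((i : ℝ) ^ 2)⁻¹ := by
        rw [sum_image hinj]
      rw [h3]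
      have h4 : S.image f ⊆ Ioo 0 ((S.image f).sup id + 1) := by
        intro i hi
        rw [mem_Ioo]
        constructor
        · obtain ⟨x, hx, rfl⟩ := mem_image.mp hi
          exact hf1 x hx
        · exact Nat.lt_succ_of_le (le_sup (f := id) hi)
      refine (sum_le_sum_of_subset_of_nonneg h4 (fun i _ _ => by positivity)).trans ?_
      have := sum_Ioo_inv_sq_le (α := ℝ) 0 ((S.image f).sup id + 1)
      simpa using this
    calc ∑ x ∈ S, (1 / (2 * |δ x|)) ^ 2 ≤ ∑ x ∈ S, (X : ℝ) ^ 2 / 4 * ((f x : ℝ) ^ 2)⁻¹ :=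
          sum_le_sum h1
      _ = (X : ℝ) ^ 2 / 4 * ∑ x ∈ S, ((f x : ℝ) ^ 2)⁻¹ := by rw [mul_sum]
      _ ≤ (X : ℝ) ^ 2 / 4 * 2 := by gcongr
      _ = (X : ℝ) ^ 2 / 2 := by ring
  -- split
  have hsplit : ∑ r' ∈ F, ‖D (2 * X) (α r - α r')‖ ^ 2
      = ‖D (2 * X) (α r - α r)‖ ^ 2 + ∑ r' ∈ F.erase r, ‖D (2 * X) (α r - α r')‖ ^ 2 :=
    (add_sum_erase _ _ hr).symm
  rw [hsplit]
  have hdiag : ‖D (2 * X) (α r - α r)‖ ^ 2 ≤ 4 * (X : ℝ) ^ 2 := by
    have := norm_D_le (2 * X) (α r - α r)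
    push_cast at this
    have h2 := pow_le_pow_left₀ (norm_nonneg _) this 2
    nlinarith
  have hoff : ∑ r' ∈ F.erase r, ‖D (2 * X) (α r - α r')‖ ^ 2 ≤ (X : ℝ) ^ 2 := by
    have h1 : ∑ r' ∈ F.erase r, ‖D (2 * X) (α r - α r')‖ ^ 2
        ≤ ∑ r' ∈ F.erase r, (1 / (2 * |δ r'|)) ^ 2 :=
      sum_le_sum fun r' hr' => hbd r' (mem_of_mem_erase hr') (ne_of_mem_erase hr')
    refine h1.trans ?_
    rw [← sum_filter_add_sum_filter_not (F.erase r) (fun r' => 0 < δ r')]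
    have hP : ∑ x ∈ (F.erase r).filter (fun r' => 0 < δ r'), (1 / (2 * |δ x|)) ^ 2 ≤ (X : ℝ) ^ 2 / 2 := by
      apply hgen _ (fun x => ⌊(X : ℝ) * |δ x|⌋₊)
      · intro x hx y hy hxy
        simp only [coe_filter, mem_erase, Set.mem_ofPred_eq] at hx hy
        by_contra hne
        have h3 := hδsep x hx.1.2 y hy.1.2 hne
        have h4 : |(X : ℝ) * |δ x| - X * (|δ y|)| < 1 := abs_sub_lt_one_of_floor (by positivity) (by positivity) hxy
        rw [abs_of_pos hx.2, abs_of_pos hy.2, ← mul_sub, abs_mul, abs_of_pos hXpos] at h4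
        linarith
      · intro x hx
        simp only [mem_filter, mem_erase] at hx
        have := hδge x hx.1.2 hx.1.1
        exact Nat.one_le_floor_iff _ |>.mpr this
      · intro x hx
        exact Nat.floor_le (by positivity)
    have hN : ∑ x ∈ (F.erase r).filter (fun r' => ¬ 0 < δ r'), (1 / (2 * |δ x|)) ^ 2 ≤ (X : ℝ) ^ 2 / 2 := by
      apply hgen _ (fun x => ⌊(X : ℝ) * |δ x|⌋₊)
      · intro x hx y hy hxy
        simp only [coe_filter, mem_erase, Set.mem_ofPred_eq, not_lt] at hx hy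
        by_contra hne
        have h3 := hδsep x hx.1.2 y hy.1.2 hne
        have h4 : |(X : ℝ) * |δ x| - X * (|δ y|)| < 1 := abs_sub_lt_one_of_floor (by positivity) (by positivity) hxy
        rw [abs_of_nonpos hx.2, abs_of_nonpos hy.2, ← mul_sub, abs_mul, abs_of_pos hXpos] at h4
        have h5 : |-δ x - -δ y| = |δ x - δ y| := by
          rw [← abs_neg]; congr 1; ring
        rw [h5] at h4
        linarith
      · intro x hx
        simp only [mem_filter, mem_erase] at hx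
        have := hδge x hx.1.2 hx.1.1
        exact Nat.one_le_floor_iff _ |>.mpr this
      · intro x hx
        exact Nat.floor_le (by positivity)
    linarith
  nlinarith [sq_nonneg (X : ℝ)]

/-- Dual large sieve. -/
lemma dual {ρ : Type*} [DecidableEq ρ] (F : Finset ρ) (α : ρ → ℝ) (X : ℕ) (hX : 0 < X)
    (hsep : ∀ r ∈ F, ∀ r' ∈ F, r ≠ r' → ∀ k : ℤ, 1 ≤ (X : ℝ) * |α r - α r' - k|)
    (b : ρ → ℂ) :
    ∑ n ∈ range X, ‖∑ r ∈ F, b r * ex (α r * (n : ℝ))‖ ^ 2 ≤ 8 * (X : ℝ) * ∑ r ∈ F, ‖b r‖ ^ 2 := by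
  classical
  have hXpos : (0 : ℝ) < X := by exact_mod_cast hX
  set T : ℝ → ℂ := fun t => ∑ r ∈ F, b r * ex (α r * t) with hT
  -- step 1
  have h1 : (X : ℝ) * ∑ n ∈ range X, ‖T n‖ ^ 2
      ≤ ∑ j ∈ range (2 * X), ∑ j' ∈ range (2 * X), ‖T ((j : ℝ) - j')‖ ^ 2 := by
    have e1 : (X : ℝ) * ∑ n ∈ range X, ‖T n‖ ^ 2
        = ∑ p ∈ range X ×ˢ range X, ‖T (p.1 : ℝ)‖ ^ 2 := by
      rw [sum_product, mul_sum]
      refine sum_congr rfl fun n _ => ?_
      simp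
    have e2 : ∑ p ∈ range X ×ˢ range X, ‖T (p.1 : ℝ)‖ ^ 2
        = ∑ q ∈ (range X ×ˢ range X).image (fun p : ℕ × ℕ => (p.2 + p.1, p.2)),
            ‖T ((q.1 : ℝ) - q.2)‖ ^ 2 := by
      rw [sum_image]
      · refine sum_congr rfl fun p _ => ?_
        congr 3
        push_cast
        ring
      · intro p _ q _ hpq
        simp only [Prod.mk.injEq] at hpq
        ext
        · omega
        · exact hpq.2
    rw [e1, e2, ← sum_product']
    refine sum_le_sum_of_subset_of_nonneg ?_ (fun _ _ _ => by positivity)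
    intro q hq
    simp only [mem_image, mem_product, mem_range] at hq ⊢
    obtain ⟨p, hp, rfl⟩ := hq
    constructor
    · show p.2 + p.1 < 2 * X
      omega
    · show p.2 < 2 * X
      omega
  -- step 2
  have h2 : ∀ t : ℝ, ((‖T t‖ ^ 2 : ℝ) : ℂ)
      = ∑ r ∈ F, ∑ r' ∈ F, b r * (starRingEnd ℂ) (b r') * ex ((α r - α r') * t) := by
    intro t
    rw [← Complex.normSq_eq_norm_sq, ← Complex.mul_conj]
    simp only [hT]
    rw [map_sum, sum_mul_sum]
    refine sum_congr rfl fun r _ => sum_congr rfl fun r' _ => ?_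
    rw [map_mul, conj_ex]
    have : (α r - α r') * t = α r * t + -(α r' * t) := by ring
    rw [this, ex_add]
    ring
  have h3 : ∀ β : ℝ, ∑ j ∈ range (2 * X), ∑ j' ∈ range (2 * X), ex (β * ((j : ℝ) - j'))
      = ((‖D (2 * X) β‖ ^ 2 : ℝ) : ℂ) := by
    intro β
    rw [← Complex.normSq_eq_norm_sq, ← Complex.mul_conj]
    unfold D
    rw [map_sum, sum_mul_sum]
    refine sum_congr rfl fun j _ => sum_congr rfl fun j' _ => ?_
    rw [conj_ex, ← ex_add]
    congr 1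
    ring
  have h4 : ((∑ j ∈ range (2 * X), ∑ j' ∈ range (2 * X), ‖T ((j : ℝ) - j')‖ ^ 2 : ℝ) : ℂ)
      = ∑ r ∈ F, ∑ r' ∈ F, b r * (starRingEnd ℂ) (b r') * ((‖D (2 * X) (α r - α r')‖ ^ 2 : ℝ) : ℂ) := by
    rw [Complex.ofReal_sum]
    simp_rw [Complex.ofReal_sum, h2, ← h3, mul_sum]
    calc _ = ∑ j ∈ range (2 * X), ∑ r ∈ F, ∑ j' ∈ range (2 * X), ∑ r' ∈ F,
              b r * (starRingEnd ℂ) (b r') * ex ((α r - α r') * ((j : ℝ) - j')) :=
            sum_congr rfl fun j _ => sum_comm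
      _ = ∑ r ∈ F, ∑ j ∈ range (2 * X), ∑ j' ∈ range (2 * X), ∑ r' ∈ F,
              b r * (starRingEnd ℂ) (b r') * ex ((α r - α r') * ((j : ℝ) - j')) := sum_comm
      _ = ∑ r ∈ F, ∑ j ∈ range (2 * X), ∑ r' ∈ F, ∑ j' ∈ range (2 * X),
              b r * (starRingEnd ℂ) (b r') * ex ((α r - α r') * ((j : ℝ) - j')) :=
            sum_congr rfl fun r _ => sum_congr rfl fun j _ => sum_comm
      _ = _ := sum_congr rfl fun r _ => sum_comm
  have h5 : ∑ j ∈ range (2 * X), ∑ j' ∈ range (2 * X), ‖T ((j : ℝ) - j')‖ ^ 2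
      ≤ ∑ r ∈ F, ∑ r' ∈ F, ‖b r‖ * ‖b r'‖ * ‖D (2 * X) (α r - α r')‖ ^ 2 := by
    have hnn : 0 ≤ ∑ j ∈ range (2 * X), ∑ j' ∈ range (2 * X), ‖T ((j : ℝ) - j')‖ ^ 2 := by
      positivity
    have h6 := congrArg norm h4
    rw [Complex.norm_real, Real.norm_eq_abs, abs_of_nonneg hnn] at h6
    rw [h6]
    refine (norm_sum_le _ _).trans (sum_le_sum fun r _ => ?_)
    refine (norm_sum_le _ _).trans (sum_le_sum fun r' _ => ?_)
    rw [norm_mul, norm_mul, Complex.norm_real, Complex.norm_conj, Real.norm_eq_abs,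
      abs_of_nonneg (by positivity)]
  have hsymm : ∀ β : ℝ, ‖D (2 * X) (-β)‖ = ‖D (2 * X) β‖ := by
    intro β
    have : D (2 * X) (-β) = (starRingEnd ℂ) (D (2 * X) β) := by
      unfold D
      rw [map_sum]
      refine sum_congr rfl fun j _ => ?_
      rw [conj_ex]
      congr 1
      ring
    rw [this, Complex.norm_conj]
  have h6 : ∑ r ∈ F, ∑ r' ∈ F, ‖b r‖ * ‖b r'‖ * ‖D (2 * X) (α r - α r')‖ ^ 2
      ≤ ∑ r ∈ F, ∑ r' ∈ F, ((‖b r‖ ^ 2 + ‖b r'‖ ^ 2) / 2) * ‖D (2 * X) (α r - α r')‖ ^ 2 := by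
    refine sum_le_sum fun r _ => sum_le_sum fun r' _ => ?_
    have : ‖b r‖ * ‖b r'‖ ≤ (‖b r‖ ^ 2 + ‖b r'‖ ^ 2) / 2 := by nlinarith [sq_nonneg (‖b r‖ - ‖b r'‖)]
    gcongr
  have h7 : ∑ r ∈ F, ∑ r' ∈ F, ((‖b r‖ ^ 2 + ‖b r'‖ ^ 2) / 2) * ‖D (2 * X) (α r - α r')‖ ^ 2
      = ∑ r ∈ F, ‖b r‖ ^ 2 * ∑ r' ∈ F, ‖D (2 * X) (α r - α r')‖ ^ 2 := by
    have e1 : ∑ r ∈ F, ∑ r' ∈ F, ((‖b r‖ ^ 2 + ‖b r'‖ ^ 2) / 2) * ‖D (2 * X) (α r - α r')‖ ^ 2
        = (∑ r ∈ F, ∑ r' ∈ F, (‖b r‖ ^ 2 / 2) * ‖D (2 * X) (α r - α r')‖ ^ 2)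
          + ∑ r ∈ F, ∑ r' ∈ F, (‖b r'‖ ^ 2 / 2) * ‖D (2 * X) (α r - α r')‖ ^ 2 := by
      rw [← sum_add_distrib]
      refine sum_congr rfl fun r _ => ?_
      rw [← sum_add_distrib]
      refine sum_congr rfl fun r' _ => ?_
      ring
    have e2 : ∑ r ∈ F, ∑ r' ∈ F, (‖b r'‖ ^ 2 / 2) * ‖D (2 * X) (α r - α r')‖ ^ 2
        = ∑ r ∈ F, ∑ r' ∈ F, (‖b r‖ ^ 2 / 2) * ‖D (2 * X) (α r - α r')‖ ^ 2 := by
      rw [sum_comm]
      refine sum_congr rfl fun r _ => sum_congr rfl fun r' _ => ?_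
      rw [← hsymm, neg_sub]
    rw [e1, e2, ← sum_add_distrib]
    refine sum_congr rfl fun r _ => ?_
    rw [← sum_add_distrib, mul_sum]
    refine sum_congr rfl fun r' _ => ?_
    ring
  have h8 : ∑ r ∈ F, ‖b r‖ ^ 2 * ∑ r' ∈ F, ‖D (2 * X) (α r - α r')‖ ^ 2
      ≤ ∑ r ∈ F, ‖b r‖ ^ 2 * (8 * (X : ℝ) ^ 2) := by
    refine sum_le_sum fun r hr => ?_
    have := sum_D_le F α X hX hsep r hr
    gcongr
  rw [← sum_mul] at h8
  have h9 : (X : ℝ) * ∑ n ∈ range X, ‖T n‖ ^ 2 ≤ (X : ℝ) * (8 * (X : ℝ) * ∑ r ∈ F, ‖b r‖ ^ 2) := by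
    calc _ ≤ _ := h1
      _ ≤ _ := h5
      _ ≤ _ := h6
      _ = _ := h7
      _ ≤ _ := h8
      _ = _ := by ring
  exact le_of_mul_le_mul_left h9 hXpos

/-- The analytic large sieve for a family of naturals. -/
lemma analytic {ι : Type*} [Fintype ι] (s : ι → ℕ) {ρ : Type*} [DecidableEq ρ] (F : Finset ρ)
    (α : ρ → ℝ) (X : ℕ) (hs : ∀ i, s i < X) (hX : 0 < X)
    (hsep : ∀ r ∈ F, ∀ r' ∈ F, r ≠ r' → ∀ k : ℤ, 1 ≤ (X : ℝ) * |α r - α r' - k|) :
    ∑ r ∈ F, ‖∑ i, ex (α r * (s i : ℝ))‖ ^ 2 ≤ 8 * (X : ℝ) * (collCount s : ℝ) := by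
  classical
  set S : ρ → ℂ := fun r => ∑ i, ex (α r * (s i : ℝ)) with hS
  set T : ℕ → ℂ := fun n => ∑ r ∈ F, (starRingEnd ℂ) (S r) * ex (α r * (n : ℝ)) with hT
  set a : ℕ → ℕ := fun n => (univ.filter (fun i => s i = n)).card with ha
  set Z : ℝ := ∑ r ∈ F, ‖S r‖ ^ 2 with hZ
  have hZ0 : 0 ≤ Z := by positivity
  have e1 : ((Z : ℝ) : ℂ) = ∑ n ∈ range X, (a n : ℂ) * T n := by
    have e2 : ∑ n ∈ range X, (a n : ℂ) * T n = ∑ i, T (s i) := by
      have h1 := sum_fiberwise_of_maps_to (s := (univ : Finset ι)) (t := range X) (g := s)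
        (fun i _ => mem_range.mpr (hs i)) (fun i => T (s i))
      rw [← h1]
      refine sum_congr rfl fun n _ => ?_
      rw [sum_congr rfl (g := fun _ => T n)]
      · simp [ha]
      · intro i hi
        rw [(mem_filter.mp hi).2]
    rw [e2, hZ]
    simp only [hT]
    rw [sum_comm, Complex.ofReal_sum]
    refine sum_congr rfl fun r _ => ?_
    rw [← mul_sum, ← Complex.normSq_eq_norm_sq, ← Complex.mul_conj, mul_comm]
  have e3 : ((collCount s : ℕ) : ℝ) = ∑ n ∈ range X, (a n : ℝ) ^ 2 := by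
    have h1 : collCount s = ∑ n ∈ range X, (a n) ^ 2 := by
      unfold collCount
      rw [Fintype.card_subtype]
      have h2 := card_eq_sum_card_fiberwise (s := univ.filter (fun p : ι × ι => s p.1 = s p.2))
        (t := range X) (f := fun p => s p.1) (fun p _ => mem_coe.mpr (mem_range.mpr (hs _)))
      rw [h2]
      refine sum_congr rfl fun n _ => ?_
      have h3 : (univ.filter (fun p : ι × ι => s p.1 = s p.2)).filter (fun p => s p.1 = n)
          = (univ.filter (fun i => s i = n)) ×ˢ (univ.filter (fun i => s i = n)) := by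
        ext p
        simp only [mem_filter, mem_univ, true_and, mem_product]
        constructor
        · rintro ⟨h4, h5⟩
          exact ⟨h5, h4 ▸ h5⟩
        · rintro ⟨h4, h5⟩
          exact ⟨h4.trans h5.symm, h4⟩
      rw [h3, card_product, sq]
    rw [h1]
    push_cast
    rfl
  have e4 : Z ≤ ∑ n ∈ range X, (a n : ℝ) * ‖T n‖ := by
    have h1 := congrArg norm e1
    rw [Complex.norm_real, Real.norm_eq_abs, abs_of_nonneg hZ0] at h1
    rw [h1]
    refine (norm_sum_le _ _).trans (sum_le_sum fun n _ => ?_)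
    rw [norm_mul]
    simp
  have e5 : (∑ n ∈ range X, (a n : ℝ) * ‖T n‖) ^ 2
      ≤ (∑ n ∈ range X, (a n : ℝ) ^ 2) * ∑ n ∈ range X, ‖T n‖ ^ 2 :=
    sum_mul_sq_le_sq_mul_sq _ _ _
  have e6 : ∑ n ∈ range X, ‖T n‖ ^ 2 ≤ 8 * (X : ℝ) * Z := by
    have := dual F α X hX hsep (fun r => (starRingEnd ℂ) (S r))
    simpa [hZ] using this
  have hc : (0 : ℝ) ≤ collCount s := Nat.cast_nonneg _
  have e7 : Z ^ 2 ≤ (collCount s : ℝ) * (8 * (X : ℝ) * Z) := by
    calc Z ^ 2 ≤ (∑ n ∈ range X, (a n : ℝ) * ‖T n‖) ^ 2 := pow_le_pow_left₀ hZ0 e4 2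
      _ ≤ _ := e5
      _ ≤ _ := by rw [← e3]; gcongr
  rcases hZ0.eq_or_lt with h0 | h0
  · rw [← h0]; positivity
  · nlinarith

end LS

open Finset in
theorem large_sieve {ι : Type*} [Fintype ι] (s : ι → ℕ) (X M : ℕ) (hs : ∀ i, s i < X)
    (hM : M ^ 2 ≤ X) :
    ∑ m ∈ Finset.Icc 1 M, primSum s m ≤ 8 * (X : ℝ) * (collCount s : ℝ) := by
  classical
  rcases Nat.eq_zero_or_pos X with hX | hX
  · subst hX
    have hM0 : M = 0 := by
      have : M ^ 2 = 0 := Nat.le_zero.mp hM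
      exact pow_eq_zero_iff (two_ne_zero) |>.mp this
    subst hM0
    simp
  · set F : Finset (Σ _ : ℕ, ℕ) :=
      (Icc 1 M).sigma (fun m => (range m).filter (fun h => Nat.Coprime h m)) with hF
    have h1 : ∑ m ∈ Finset.Icc 1 M, primSum s m
        = ∑ r ∈ F, ‖∑ i, ex (((r.2 : ℝ) / (r.1 : ℝ)) * (s i : ℝ))‖ ^ 2 := by
      rw [hF, sum_sigma]
      refine sum_congr rfl fun m _ => ?_
      unfold primSum
      refine sum_congr rfl fun h _ => ?_
      unfold expSum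
      congr 2
      refine sum_congr rfl fun i _ => ?_
      congr 1
      ring
    rw [h1]
    refine LS.analytic s F (fun r => (r.2 : ℝ) / (r.1 : ℝ)) X hs hX ?_
    rintro ⟨m, h⟩ hr ⟨m', h'⟩ hr' hne k
    simp only [hF, mem_sigma, mem_Icc, mem_filter, mem_range] at hr hr'
    obtain ⟨⟨hm1, hmM⟩, hhm, hcop⟩ := hr
    obtain ⟨⟨hm1', hmM'⟩, hhm', hcop'⟩ := hr'
    have hmpos : (0 : ℝ) < m := by exact_mod_cast hm1
    have hmpos' : (0 : ℝ) < m' := by exact_mod_cast hm1'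
    show 1 ≤ (X : ℝ) * |(h : ℝ) / m - (h' : ℝ) / m' - k|
    have h2 : (h : ℝ) / m - (h' : ℝ) / m' - k
        = (((h : ℤ) * m' - h' * m - k * m * m' : ℤ) : ℝ) / (m * m') := by
      push_cast
      field_simp
    have hne0 : ((h : ℤ) * m' - h' * m - k * m * m' : ℤ) ≠ 0 := by
      intro h0
      -- then `h/m - h'/m' = k`
      have h3 : (h : ℝ) / m - (h' : ℝ) / m' = k := by
        have : (h : ℝ) / m - (h' : ℝ) / m' - k = 0 := by rw [h2, h0]; simp
        linarith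
      have ha1 : (h : ℝ) / m < 1 := by
        rw [div_lt_one hmpos]; exact_mod_cast hhm
      have ha2 : (h' : ℝ) / m' < 1 := by
        rw [div_lt_one hmpos']; exact_mod_cast hhm'
      have ha3 : 0 ≤ (h : ℝ) / m := by positivity
      have ha4 : 0 ≤ (h' : ℝ) / m' := by positivity
      have hk0 : k = 0 := by
        have hk1 : (k : ℝ) < 1 := by linarith
        have hk2 : (-1 : ℝ) < k := by linarith
        have hk1' : k < 1 := by exact_mod_cast hk1
        have hk2' : -1 < k := by exact_mod_cast hk2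
        omega
      subst hk0
      have h4 : h * m' = h' * m := by
        have : (h : ℤ) * m' = h' * m := by linarith
        exact_mod_cast this
      have hmm : m = m' := by
        apply Nat.dvd_antisymm
        · have : m ∣ h * m' := by rw [h4]; exact dvd_mul_left _ _
          exact (Nat.Coprime.symm hcop).dvd_of_dvd_mul_left this
        · have : m' ∣ h' * m := by rw [← h4]; exact dvd_mul_left _ _
          exact (Nat.Coprime.symm hcop').dvd_of_dvd_mul_left this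
      subst hmm
      have : h = h' := Nat.eq_of_mul_eq_mul_right hm1 h4
      subst this
      exact hne rfl
    have h5 : (1 : ℝ) ≤ |(((h : ℤ) * m' - h' * m - k * m * m' : ℤ) : ℝ)| := by
      have := Int.one_le_abs hne0
      exact_mod_cast this
    rw [h2, abs_div, abs_of_pos (by positivity : (0 : ℝ) < m * m'), ← mul_div_assoc,
      le_div_iff₀ (by positivity), one_mul]
    have h6 : (m : ℝ) * m' ≤ X := by
      have : m * m' ≤ X := by
        calc m * m' ≤ M * M := Nat.mul_le_mul hmM hmM'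
          _ = M ^ 2 := (sq M).symm
          _ ≤ X := hM
      exact_mod_cast this
    calc (m : ℝ) * m' ≤ X * 1 := by rw [mul_one]; exact h6
      _ ≤ _ := by gcongr

end Crest.Agent.R19
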