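import Crest.Agent.R19.Defs

/-!
# R19, piece R: the rich number `R = U·∏ Qᵢ`
-/

namespace Crest.Agent.R19

namespace RichAux

open Finset

lemma two_pow_le (w : ℕ) : 2 ^ w ≤ w * Nat.primeCounting (2 ^ w) + w + 1 := by
  rcases Nat.eq_zero_or_pos w with rfl | hw
  · simp
  have h := Chebyshev.pi_ge (2 ^ w)
  have hl2 : 0 < Real.log 2 := Real.log_pos (by norm_num)
  have hlog : Real.log ((2 ^ w : ℕ) : ℝ) = w * Real.log 2 := by
    push_cast; rw [Real.log_pow]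
  have hwpos : (0 : ℝ) < w := by exact_mod_cast hw
  rw [hlog, div_le_iff₀ (by positivity)] at h
  have h2 : Real.log (((2 ^ w : ℕ) : ℝ) + 1) ≤ (w + 1) * Real.log 2 := by
    have : ((2 ^ w : ℕ) : ℝ) + 1 ≤ 2 ^ (w + 1) := by
      push_cast
      have : (1 : ℝ) ≤ 2 ^ w := one_le_pow₀ (by norm_num)
      rw [pow_succ]; linarith
    calc Real.log (((2 ^ w : ℕ) : ℝ) + 1) ≤ Real.log (2 ^ (w + 1)) :=
          Real.log_le_log (by positivity) this
      _ = _ := by rw [Real.log_pow]; push_cast; ring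
  have h3 : ((2 ^ w : ℕ) : ℝ) * Real.log 2 ≤
      (w * (Nat.primeCounting (2 ^ w) : ℝ) + w + 1) * Real.log 2 := by
    nlinarith
  have h4 := le_of_mul_le_mul_right h3 hl2
  exact_mod_cast h4

/-- primes in `(2^(w/2), 2^w]` -/
def PP (w : ℕ) : Finset ℕ := (Ioc (2 ^ (w / 2)) (2 ^ w)).filter Nat.Prime

lemma primeCounting_eq (n : ℕ) : Nat.primeCounting n = ((Icc 1 n).filter Nat.Prime).card := by
  rw [Nat.primeCounting, Nat.primeCounting', Nat.count_eq_card_filter_range]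
  congr 1
  ext p
  simp only [mem_filter, mem_range, mem_Icc]
  constructor
  · rintro ⟨h1, h2⟩; exact ⟨⟨h2.one_le, by omega⟩, h2⟩
  · rintro ⟨⟨h0, h1⟩, h2⟩; exact ⟨by omega, h2⟩

lemma card_PP (w : ℕ) : Nat.primeCounting (2 ^ w) ≤ (PP w).card + 2 ^ (w / 2) := by
  rw [primeCounting_eq]
  have hsub : (Icc 1 (2 ^ w)).filter Nat.Prime ⊆ PP w ∪ Icc 1 (2 ^ (w / 2)) := by
    intro p hp
    simp only [PP, mem_filter, mem_Icc, mem_union, mem_Ioc] at hp ⊢
    by_cases h : p ≤ 2 ^ (w / 2)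
    · right; exact ⟨hp.1.1, h⟩
    · left; exact ⟨⟨by omega, hp.1.2⟩, hp.2⟩
  refine (card_le_card hsub).trans ((card_union_le _ _).trans ?_)
  simp

/-- `2^w ≤ 2 w |PP w|` for `w ≥ 16` -/
lemma two_pow_le_PP (w : ℕ) (hw : 16 ≤ w) : 2 ^ w ≤ 2 * w * (PP w).card := by
  have h1 := two_pow_le w
  have h2 := card_PP w
  have h3 : w * Nat.primeCounting (2 ^ w) ≤ w * (PP w).card + w * 2 ^ (w / 2) := by
    rw [← mul_add]; exact Nat.mul_le_mul_left _ h2
  -- 2 (w 2^(w/2) + w + 1) ≤ 2^w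
  have h4 : 2 * (w * 2 ^ (w / 2) + w + 1) ≤ 2 ^ w := by
    set m := w / 2 with hm
    have hm8 : 8 ≤ m := by omega
    have hw2 : w ≤ 2 * m + 1 := by omega
    have hm2 : 2 * m ≤ w := by omega
    have key : ∀ m : ℕ, 8 ≤ m → 2 * ((2 * m + 1) * 2 ^ m + (2 * m + 1) + 1) ≤ 2 ^ (2 * m) := by
      intro m hm
      have hpow : ∀ m : ℕ, 8 ≤ m → 6 * m + 5 ≤ 2 ^ m := by
        intro m hm
        induction m, hm using Nat.le_induction with
        | base => norm_num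
        | succ k hk ih => rw [pow_succ]; omega
      have := hpow m hm
      have h5 : 2 ^ (2 * m) = 2 ^ m * 2 ^ m := by rw [two_mul, pow_add]
      rw [h5]
      nlinarith
    calc 2 * (w * 2 ^ m + w + 1) ≤ 2 * ((2 * m + 1) * 2 ^ m + (2 * m + 1) + 1) := by gcongr
      _ ≤ 2 ^ (2 * m) := key m hm8
      _ ≤ 2 ^ w := Nat.pow_le_pow_right (by norm_num) hm2
  have : 2 * w * (PP w).card = 2 * (w * (PP w).card) := by ring
  rw [this]
  omega

/-- many prime divisors force size -/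
lemma pow_card_dvd_le {B D : ℕ} (S : Finset ℕ) (hS : ∀ p ∈ S, p.Prime) (hB : ∀ p ∈ S, B ≤ p)
    (hD : 0 < D) (hdvd : ∀ p ∈ S, p ∣ D) : B ^ S.card ≤ D := by
  have h1 : ∏ p ∈ S, p ∣ D := Finset.prod_primes_dvd D (fun p hp => (hS p hp).prime) hdvd
  exact (Finset.pow_card_le_prod S (fun p => p) B hB).trans (Nat.le_of_dvd hD h1)

lemma card_primeFactors_le (q : ℕ) (hq : 0 < q) : 2 ^ q.primeFactors.card ≤ q :=
  pow_card_dvd_le q.primeFactors (fun _ hp => Nat.prime_of_mem_primeFactors hp)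
    (fun _ hp => (Nat.prime_of_mem_primeFactors hp).two_le) hq
    (fun _ hp => Nat.dvd_of_mem_primeFactors hp)

lemma card_divisors_prod (T : Finset ℕ) (hT : ∀ p ∈ T, p.Prime) :
    (∏ p ∈ T, p).divisors.card = 2 ^ T.card := by
  induction T using Finset.induction_on with
  | empty => simp
  | insert p T hp ih =>
    rw [prod_insert hp, card_insert_of_notMem hp]
    have hpp := hT p (mem_insert_self p T)
    have hT' : ∀ r ∈ T, r.Prime := fun r hr => hT r (mem_insert_of_mem hr)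
    have hc : Nat.Coprime p (∏ r ∈ T, r) := by
      refine Nat.Coprime.prod_right fun r hr => ?_
      exact (Nat.coprime_primes hpp (hT' r hr)).2 fun h => hp (h ▸ hr)
    rw [hc.card_divisors_mul, ih hT', Nat.Prime.divisors hpp,
      card_pair hpp.one_lt.ne]
    ring


/-- off-diagonal pairs -/
def off (U Q : ℕ) : ℕ :=
  ((U.divisors ×ˢ U.divisors).filter (fun p => p.1 ≠ p.2 ∧ p.1 ≡ p.2 [MOD Q])).card

lemma pairCount_le (U Q : ℕ) : pairCount U Q ≤ U.divisors.card + off U Q := by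
  have hsub : (U.divisors ×ˢ U.divisors).filter (fun p => p.1 ≡ p.2 [MOD Q]) ⊆
      (U.divisors.image fun u => (u, u)) ∪
        (U.divisors ×ˢ U.divisors).filter (fun p => p.1 ≠ p.2 ∧ p.1 ≡ p.2 [MOD Q]) := by
    rintro ⟨u, v⟩ h
    simp only [mem_filter, mem_product, mem_union, mem_image, Prod.mk.injEq] at h ⊢
    by_cases huv : u = v
    · left; exact ⟨u, h.1.1, rfl, huv⟩
    · right; exact ⟨h.1, huv, h.2⟩
  unfold pairCount off
  exact (card_le_card hsub).trans ((card_union_le _ _).trans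
    (Nat.add_le_add_right card_image_le _))

lemma card_mod_le {U w ℓ y : ℕ} (hw : 2 ≤ w) (hU : U ≤ y ^ w) (hy : y < 2 ^ ℓ)
    {u v : ℕ} (huU : u ≤ U) (hvU : v ≤ U) (huv : u ≠ v) :
    ((PP w).filter (fun Q => u ≡ v [MOD Q])).card ≤ 3 * ℓ := by
  set S := (PP w).filter (fun Q => u ≡ v [MOD Q]) with hS
  wlog hlt : u < v generalizing u v with H
  · have hlt' : v < u := by omega
    have := H hvU huU huv.symm rfl hlt'
    have hEq : (PP w).filter (fun Q => u ≡ v [MOD Q]) =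
        (PP w).filter (fun Q => v ≡ u [MOD Q]) :=
      filter_congr fun Q _ => ⟨fun h => h.symm, fun h => h.symm⟩
    rw [hS, hEq]; exact this
  have hD : 0 < v - u := by omega
  have h1 : (2 ^ (w / 2)) ^ S.card ≤ v - u := by
    refine pow_card_dvd_le S ?_ ?_ hD ?_
    · intro p hp
      simp only [hS, PP, mem_filter] at hp
      exact hp.1.2
    · intro p hp
      simp only [hS, PP, mem_filter, mem_Ioc] at hp
      exact hp.1.1.1.le
    · intro p hp
      simp only [hS, mem_filter] at hp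
      exact (Nat.modEq_iff_dvd' hlt.le).1 hp.2
  have h2 : (2 ^ (w / 2)) ^ S.card ≤ y ^ w := h1.trans ((Nat.sub_le _ _).trans (hvU.trans hU))
  have h3 : w ≤ 3 * (w / 2) := by omega
  have h4 : 2 ^ (w * S.card) ≤ (y ^ w) ^ 3 := by
    calc 2 ^ (w * S.card) ≤ 2 ^ (3 * (w / 2) * S.card) :=
          Nat.pow_le_pow_right (by norm_num) (Nat.mul_le_mul_right _ h3)
      _ = ((2 ^ (w / 2)) ^ S.card) ^ 3 := by
          rw [← pow_mul, ← pow_mul]; congr 1; ring
      _ ≤ (y ^ w) ^ 3 := Nat.pow_le_pow_left h2 3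
  have h5 : (y ^ w) ^ 3 ≤ 2 ^ (w * (3 * ℓ)) := by
    calc (y ^ w) ^ 3 = y ^ (w * 3) := by rw [← pow_mul]
      _ ≤ (2 ^ ℓ) ^ (w * 3) := Nat.pow_le_pow_left hy.le _
      _ = 2 ^ (w * (3 * ℓ)) := by rw [← pow_mul]; congr 1; ring
  have h6 : w * S.card ≤ w * (3 * ℓ) := (Nat.pow_le_pow_iff_right (by norm_num)).1 (h4.trans h5)
  exact Nat.le_of_mul_le_mul_left h6 (by omega)

lemma sum_off_le {U w ℓ y : ℕ} (hw : 2 ≤ w) (hU : U ≤ y ^ w) (hy : y < 2 ^ ℓ) :
    ∑ Q ∈ PP w, off U Q ≤ U.divisors.card ^ 2 * (3 * ℓ) := by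
  have h1 : ∀ Q, off U Q = ∑ p ∈ U.divisors ×ˢ U.divisors,
      if p.1 ≠ p.2 ∧ p.1 ≡ p.2 [MOD Q] then 1 else 0 := by
    intro Q; rw [off, card_filter]
  simp only [h1]
  rw [sum_comm]
  have h2 : ∀ p ∈ U.divisors ×ˢ U.divisors,
      (∑ Q ∈ PP w, if p.1 ≠ p.2 ∧ p.1 ≡ p.2 [MOD Q] then 1 else 0) ≤ 3 * ℓ := by
    rintro ⟨u, v⟩ h
    rw [mem_product] at h
    by_cases huv : u = v
    · simp [huv]
    · have := card_mod_le hw hU hy (Nat.divisor_le h.1) (Nat.divisor_le h.2) huv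
      rw [card_filter] at this
      simpa [huv] using this
  refine (sum_le_sum h2).trans ?_
  rw [sum_const, card_product, smul_eq_mul, sq]

/-- bad primes -/
def bad (U w ℓ : ℕ) : Finset ℕ := (PP w).filter (fun Q => 2 ^ w * (12 * w * ℓ) < off U Q)

lemma card_bad {U w ℓ y : ℕ} (hw : 16 ≤ w) (hℓ : 1 ≤ ℓ) (hU : U ≤ y ^ w) (hy : y < 2 ^ ℓ)
    (hcard : U.divisors.card = 2 ^ w) : 2 * (bad U w ℓ).card ≤ (PP w).card := by
  have h1 : (bad U w ℓ).card * (2 ^ w * (12 * w * ℓ)) ≤ ∑ Q ∈ PP w, off U Q := by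
    calc (bad U w ℓ).card * (2 ^ w * (12 * w * ℓ))
        = ∑ Q ∈ bad U w ℓ, 2 ^ w * (12 * w * ℓ) := by rw [sum_const, smul_eq_mul]
      _ ≤ ∑ Q ∈ bad U w ℓ, off U Q := by
          refine sum_le_sum fun Q hQ => ?_
          simp only [bad, mem_filter] at hQ
          exact hQ.2.le
      _ ≤ ∑ Q ∈ PP w, off U Q :=
          sum_le_sum_of_subset (filter_subset _ _)
  have h2 := h1.trans (sum_off_le (by omega) hU hy)
  rw [hcard] at h2
  have h3 := two_pow_le_PP w hw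
  have h4 : (bad U w ℓ).card * (2 ^ w * (12 * w * ℓ)) ≤
      2 ^ w * (2 * w * (PP w).card) * (3 * ℓ) := by
    refine h2.trans ?_
    rw [sq]
    gcongr
  have h5 : (2 ^ w * (6 * w * ℓ)) * (2 * (bad U w ℓ).card) ≤
      (2 ^ w * (6 * w * ℓ)) * (PP w).card := by
    calc (2 ^ w * (6 * w * ℓ)) * (2 * (bad U w ℓ).card)
        = (bad U w ℓ).card * (2 ^ w * (12 * w * ℓ)) := by ring
      _ ≤ 2 ^ w * (2 * w * (PP w).card) * (3 * ℓ) := h4
      _ = (2 ^ w * (6 * w * ℓ)) * (PP w).card := by ring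
  exact Nat.le_of_mul_le_mul_left h5 (by positivity)


/-- the product of `w` small primes not dividing `q` -/
lemma exists_U {L w q v : ℕ} (hv1 : 2 ^ v ≤ (L + 1) ^ 3) (hv2 : (L + 1) ^ 3 < 2 ^ (v + 1))
    (hvL : v ≤ L) (hL : 10 ≤ L) (hwL : w ≤ L) (hq : 0 < q) (hq2 : q.primeFactors.card ≤ 2 * L + 1) :
    ∃ T : Finset ℕ, (∀ p ∈ T, p.Prime) ∧ (∀ p ∈ T, p ≤ (L + 1) ^ 3) ∧ T.card = w ∧
      ∀ p ∈ T, ¬ p ∣ q := by
  set S := ((Icc 1 ((L + 1) ^ 3)).filter Nat.Prime) \ q.primeFactors with hS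
  have hcard : w ≤ S.card := by
    have h1 := two_pow_le v
    have h2 : Nat.primeCounting (2 ^ v) ≤ Nat.primeCounting ((L + 1) ^ 3) :=
      Nat.monotone_primeCounting hv1
    have h3 : Nat.primeCounting ((L + 1) ^ 3) ≤ S.card + q.primeFactors.card := by
      rw [primeCounting_eq]
      have := le_card_sdiff q.primeFactors ((Icc 1 ((L + 1) ^ 3)).filter Nat.Prime)
      rw [← hS] at this
      omega
    by_contra hlt
    have h4 : Nat.primeCounting (2 ^ v) ≤ 3 * L + 1 := by omega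
    have h5 : 2 ^ v ≤ v * (3 * L + 1) + v + 1 := by
      have := Nat.mul_le_mul_left v h4
      omega
    have h6 : v * (3 * L + 1) + v + 1 ≤ L * (3 * L + 1) + L + 1 := by
      have := Nat.mul_le_mul_right (3 * L + 1) hvL
      omega
    have h7 : (L + 1) ^ 3 < 2 * (L * (3 * L + 1) + L + 1) := by
      rw [pow_succ 2 v] at hv2; omega
    nlinarith [sq_nonneg L, mul_le_mul hL hL (by norm_num) (by omega)]
  obtain ⟨T, hTS, hTc⟩ := exists_subset_card_eq hcard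
  refine ⟨T, fun p hp => ?_, fun p hp => ?_, hTc, fun p hp => ?_⟩
  · have := hTS hp
    simp only [hS, mem_sdiff, mem_filter] at this
    exact this.1.2
  · have := hTS hp
    simp only [hS, mem_sdiff, mem_filter, mem_Icc] at this
    exact this.1.1.2
  · have := hTS hp
    simp only [hS, mem_sdiff, mem_filter, Nat.mem_primeFactors] at this
    intro hdvd
    exact this.2 ⟨this.1.2, hdvd, hq.ne'⟩

lemma core {A q L ℓ K w : ℕ} (hLdef : L = Nat.log 2 A) (hℓ : ℓ = Nat.log 2 ((L + 1) ^ 3) + 1)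
    (hK : K = 20000 * ℓ) (hw : w = Nat.log 2 (A ^ 2999) / (3000 * K))
    (hE : K ^ 4 ≤ L) (hℓ5 : 5 ≤ ℓ) (hq : 0 < q) (hqA : q ≤ A ^ 2) :
    ∃ (U : ℕ) (Q : Fin K → ℕ), 0 < U ∧ (∀ i, (Q i).Prime) ∧ Function.Injective Q ∧
      (∀ i, K < Q i) ∧ (∀ i, Nat.Coprime (Q i) U) ∧ Nat.Coprime U q ∧
      (∀ i, Nat.Coprime (Q i) q) ∧
      (U * ∏ i, Q i) ^ 4000 ≤ A ^ 3999 ∧
      (∏ i, pairCount U (Q i)) ^ 2000 * A ^ 1999 ≤ (U.divisors.card ^ K) ^ 4000 := by
  have hK1 : 100000 ≤ K := by omega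
  have hK2 : K ^ 2 ≤ K ^ 4 := Nat.pow_le_pow_right (by omega) (by norm_num)
  have hK2' : 100000 * K ≤ K ^ 2 := by rw [sq]; exact Nat.mul_le_mul_right _ hK1
  have hLK : K ≤ L := by omega
  have hA0 : A ≠ 0 := by rintro rfl; simp at hLdef; omega
  have hA1 : 2 ^ L ≤ A := by rw [hLdef]; exact Nat.pow_log_le_self 2 hA0
  have hA2 : A < 2 ^ (L + 1) := by rw [hLdef]; exact Nat.lt_pow_succ_log_self (by norm_num) A
  set v := Nat.log 2 ((L + 1) ^ 3) with hv
  have hv1 : 2 ^ v ≤ (L + 1) ^ 3 := Nat.pow_log_le_self 2 (by positivity)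
  have hv2 : (L + 1) ^ 3 < 2 ^ (v + 1) := Nat.lt_pow_succ_log_self (by norm_num) _
  have hy : (L + 1) ^ 3 < 2 ^ ℓ := by rw [hℓ]; exact hv2
  set n := Nat.log 2 (A ^ 2999) with hn
  have hA0' : A ^ 2999 ≠ 0 := pow_ne_zero _ hA0
  have hn1 : 2 ^ n ≤ A ^ 2999 := Nat.pow_log_le_self 2 hA0'
  have hn2 : A ^ 2999 < 2 ^ (n + 1) := Nat.lt_pow_succ_log_self (by norm_num) _
  have hn3 : L ≤ n := by
    refine Nat.le_log_of_pow_le (by norm_num) (hA1.trans ?_)
    exact Nat.le_self_pow (by norm_num) A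
  have hn4 : n < 2999 * (L + 1) := by
    have : 2 ^ n < 2 ^ (2999 * (L + 1)) := by
      refine hn1.trans_lt ?_
      rw [mul_comm, pow_mul]
      exact Nat.pow_lt_pow_left hA2 (by norm_num)
    exact (Nat.pow_lt_pow_iff_right (by norm_num)).1 this
  have hw1 : 3000 * K * w ≤ n := by rw [hw]; exact Nat.mul_div_le n (3000 * K)
  have hw2 : n < 3000 * K * (w + 1) := by
    rw [hw]; exact Nat.lt_mul_div_succ n (by positivity)
  have hw3 : K ^ 2 ≤ w := by
    rw [hw, Nat.le_div_iff_mul_le (by positivity)]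
    refine le_trans ?_ (hE.trans hn3)
    calc K ^ 2 * (3000 * K) ≤ K ^ 2 * (K * K) := by gcongr; omega
      _ = K ^ 4 := by ring
  have hw4 : w ≤ L := by
    by_contra hlt
    have h1 : L + 1 ≤ w := by omega
    have h2 : 3000 * K * (L + 1) ≤ 3000 * K * w := Nat.mul_le_mul_left _ h1
    have h3 : 3000 * (L + 1) ≤ 3000 * K * (L + 1) := by
      refine Nat.mul_le_mul_right _ ?_
      omega
    omega
  have hω : q.primeFactors.card ≤ 2 * L + 1 := by
    have h1 : 2 ^ q.primeFactors.card < 2 ^ (2 * (L + 1)) := by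
      refine (card_primeFactors_le q hq).trans_lt (hqA.trans_lt ?_)
      rw [mul_comm, pow_mul]
      exact Nat.pow_lt_pow_left hA2 (by norm_num)
    have := (Nat.pow_lt_pow_iff_right (by norm_num)).1 h1
    omega
  obtain ⟨T, hTp, hTy, hTc, hTq⟩ := exists_U (q := q) (w := w) hv1 hv2 (by omega) (by omega)
    hw4 hq hω
  set U := ∏ p ∈ T, p with hU
  have hUpos : 0 < U := prod_pos fun p hp => (hTp p hp).pos
  have hUle : U ≤ ((L + 1) ^ 3) ^ w := by
    rw [← hTc]; exact prod_le_pow_card T (fun p => p) _ hTy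
  have hUd : U.divisors.card = 2 ^ w := by rw [hU, card_divisors_prod T hTp, hTc]
  have hw16 : 16 ≤ w := by omega
  have hbad := card_bad (U := U) (w := w) (ℓ := ℓ) hw16 (by omega) hUle hy hUd
  have hPP := two_pow_le_PP w hw16
  set G := (PP w \ bad U w ℓ) \ q.primeFactors with hG
  have hGc : K ≤ G.card := by
    have h1 := le_card_sdiff (bad U w ℓ) (PP w)
    have h2 := le_card_sdiff q.primeFactors (PP w \ bad U w ℓ)
    rw [← hG] at h2
    by_contra hlt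
    have h3 : (PP w).card ≤ 4 * L + 2 + 2 * K := by omega
    have h4 : 2 ^ w ≤ 2 * w * (4 * L + 2 + 2 * K) := hPP.trans (Nat.mul_le_mul_left _ h3)
    have h5 : L + 1 ≤ 2 ^ K := by
      have : L + 1 ≤ (L + 1) ^ 3 := Nat.le_self_pow (by norm_num) _
      refine this.trans (hy.le.trans ?_)
      exact Nat.pow_le_pow_right (by norm_num) (by omega)
    have h6 : K < 2 ^ K := Nat.lt_two_pow_self
    have h7 : 2 * w * (4 * L + 2 + 2 * K) ≤ 2 * 2 ^ K * (8 * 2 ^ K) := by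
      gcongr
      · omega
      · omega
    have h8 : 2 * 2 ^ K * (8 * 2 ^ K) = 2 ^ (2 * K + 4) := by ring
    have h9 : 2 ^ (2 * K + 4) < 2 ^ w := Nat.pow_lt_pow_right (by norm_num) (by omega)
    omega
  let Q : Fin K → ℕ := G.orderEmbOfCardLe hGc
  have hQm : ∀ i, Q i ∈ G := fun i => G.orderEmbOfCardLe_mem hGc i
  have hQm' : ∀ i, ((2 ^ (w / 2) < Q i ∧ Q i ≤ 2 ^ w) ∧ (Q i).Prime) ∧
      Q i ∉ bad U w ℓ ∧ Q i ∉ q.primeFactors := by
    intro i
    have := hQm i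
    simp only [hG, mem_sdiff] at this
    refine ⟨?_, this.1.2, this.2⟩
    have h := this.1.1
    simp only [PP, mem_filter, mem_Ioc] at h
    exact h
  have hw2K : K ≤ w / 2 := by omega
  have hyQ : ∀ i, (L + 1) ^ 3 < Q i := by
    intro i
    refine hy.trans_le (le_trans ?_ (hQm' i).1.1.1.le)
    exact Nat.pow_le_pow_right (by norm_num) (by omega)
  refine ⟨U, Q, hUpos, fun i => (hQm' i).1.2, (G.orderEmbOfCardLe hGc).injective, ?_, ?_, ?_, ?_,
    ?_, ?_⟩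
  · intro i
    refine lt_of_lt_of_le (Nat.lt_two_pow_self (n := K)) (le_trans ?_ (hQm' i).1.1.1.le)
    exact Nat.pow_le_pow_right (by norm_num) hw2K
  · intro i
    refine Nat.Coprime.prod_right fun p hp => ?_
    refine (Nat.coprime_primes (hQm' i).1.2 (hTp p hp)).2 fun h => ?_
    have h1 := hTy p hp
    have h2 := hyQ i
    omega
  · refine Nat.Coprime.prod_left fun p hp => ?_
    exact ((hTp p hp).coprime_iff_not_dvd).2 (hTq p hp)
  · intro i
    refine ((hQm' i).1.2.coprime_iff_not_dvd).2 fun h => (hQm' i).2.2 ?_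
    rw [Nat.mem_primeFactors]
    exact ⟨(hQm' i).1.2, h, hq.ne'⟩
  · -- size
    have e1 : U ^ 20000 ≤ 2 ^ (K * w) := by
      calc U ^ 20000 ≤ (((L + 1) ^ 3) ^ w) ^ 20000 := Nat.pow_le_pow_left hUle _
        _ ≤ ((2 ^ ℓ) ^ w) ^ 20000 :=
            Nat.pow_le_pow_left (Nat.pow_le_pow_left hy.le _) _
        _ = 2 ^ (K * w) := by
            rw [← pow_mul, ← pow_mul]; congr 1; rw [hK]; ring
    have e2 : (U ^ 20000) ^ 3000 ≤ A ^ 2999 := by
      calc (U ^ 20000) ^ 3000 ≤ (2 ^ (K * w)) ^ 3000 := Nat.pow_le_pow_left e1 _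
        _ = 2 ^ (3000 * K * w) := by rw [← pow_mul]; congr 1; ring
        _ ≤ 2 ^ n := Nat.pow_le_pow_right (by norm_num) hw1
        _ ≤ _ := hn1
    have e3 : ∏ i, Q i ≤ (2 ^ w) ^ K := by
      have := prod_le_pow_card (univ : Finset (Fin K)) Q (2 ^ w) fun i _ => (hQm' i).1.1.2
      simpa using this
    have e4 : (∏ i, Q i) ^ 3000 ≤ A ^ 2999 := by
      calc (∏ i, Q i) ^ 3000 ≤ ((2 ^ w) ^ K) ^ 3000 := Nat.pow_le_pow_left e3 _
        _ = 2 ^ (3000 * K * w) := by rw [← pow_mul, ← pow_mul]; congr 1; ring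
        _ ≤ 2 ^ n := Nat.pow_le_pow_right (by norm_num) hw1
        _ ≤ _ := hn1
    refine (Nat.pow_le_pow_iff_left (n := 15000) (by norm_num)).1 ?_
    calc ((U * ∏ i, Q i) ^ 4000) ^ 15000
        = (U ^ 20000) ^ 3000 * ((∏ i, Q i) ^ 3000) ^ 20000 := by
          rw [← pow_mul, mul_pow, ← pow_mul, ← pow_mul]
      _ ≤ A ^ 2999 * (A ^ 2999) ^ 20000 :=
          Nat.mul_le_mul e2 (Nat.pow_le_pow_left e4 _)
      _ = A ^ (2999 + 2999 * 20000) := by rw [← pow_mul, ← pow_add]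
      _ ≤ A ^ (3999 * 15000) := Nat.pow_le_pow_right (Nat.pos_of_ne_zero hA0) (by norm_num)
      _ = (A ^ 3999) ^ 15000 := by rw [← pow_mul]
  · -- counting
    set κ := 1 + 12 * w * ℓ with hκ
    have e1 : ∀ i, pairCount U (Q i) ≤ 2 ^ w * κ := by
      intro i
      have h1 := pairCount_le U (Q i)
      have h2 : off U (Q i) ≤ 2 ^ w * (12 * w * ℓ) := by
        by_contra hlt
        refine (hQm' i).2.1 ?_
        simp only [bad, mem_filter]
        refine ⟨?_, by omega⟩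
        simp only [PP, mem_filter, mem_Ioc]
        exact (hQm' i).1
      rw [hUd] at h1
      rw [hκ, mul_add, mul_one]
      omega
    have e2 : ∏ i, pairCount U (Q i) ≤ (2 ^ w * κ) ^ K := by
      have := prod_le_pow_card (univ : Finset (Fin K)) (fun i => pairCount U (Q i)) (2 ^ w * κ)
        fun i _ => e1 i
      simpa using this
    have e3 : 2 * κ ≤ 2 ^ (ℓ + 5) := by
      have h1 : w * ℓ ≤ L * L := Nat.mul_le_mul hw4 (by omega)
      have h2 : 2 * κ ≤ 32 * (L + 1) ^ 3 := by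
        have : 2 * κ = 2 + 24 * (w * ℓ) := by rw [hκ]; ring
        rw [this]
        nlinarith [sq_nonneg L]
      calc 2 * κ ≤ 32 * (L + 1) ^ 3 := h2
        _ ≤ 32 * 2 ^ ℓ := Nat.mul_le_mul_left _ hy.le
        _ = 2 ^ (ℓ + 5) := by rw [pow_add]; ring
    have e4 : (2 * κ) ^ (6000 * K) ≤ A := by
      calc (2 * κ) ^ (6000 * K) ≤ (2 ^ (ℓ + 5)) ^ (6000 * K) := Nat.pow_le_pow_left e3 _
        _ = 2 ^ ((ℓ + 5) * (6000 * K)) := by rw [← pow_mul]
        _ ≤ 2 ^ L := by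
            refine Nat.pow_le_pow_right (by norm_num) (le_trans ?_ (hK2.trans hE))
            rw [sq]
            calc (ℓ + 5) * (6000 * K) ≤ (2 * ℓ) * (6000 * K) := by gcongr; omega
              _ ≤ (20000 * ℓ) * K := by
                  have : (2 * ℓ) * (6000 * K) = 12000 * ℓ * K := by ring
                  rw [this]
                  gcongr
                  norm_num
              _ = K * K := by rw [← hK]
        _ ≤ A := hA1
    have e5 : A ^ 5998 ≤ 2 ^ (6000 * K * w) * 2 ^ (6000 * K) := by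
      calc A ^ 5998 = (A ^ 2999) ^ 2 := by rw [← pow_mul]
        _ ≤ (2 ^ (3000 * K * (w + 1))) ^ 2 := by
            refine Nat.pow_le_pow_left (hn2.le.trans ?_) _
            exact Nat.pow_le_pow_right (by norm_num) hw2
        _ = 2 ^ (6000 * K * w) * 2 ^ (6000 * K) := by
            rw [← pow_mul, ← pow_add]; congr 1; ring
    have e6 : κ ^ (6000 * K) * A ^ 5997 ≤ 2 ^ (6000 * K * w) := by
      have h1 : (κ ^ (6000 * K) * A ^ 5997) * 2 ^ (6000 * K) ≤
          2 ^ (6000 * K * w) * 2 ^ (6000 * K) := by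
        calc (κ ^ (6000 * K) * A ^ 5997) * 2 ^ (6000 * K)
            = (2 * κ) ^ (6000 * K) * A ^ 5997 := by rw [mul_pow]; ring
          _ ≤ A * A ^ 5997 := Nat.mul_le_mul_right _ e4
          _ = A ^ 5998 := by rw [← pow_succ']
          _ ≤ _ := e5
      exact Nat.le_of_mul_le_mul_right h1 (by positivity)
    rw [hUd]
    refine (Nat.pow_le_pow_iff_left (n := 3) (by norm_num)).1 ?_
    calc ((∏ i, pairCount U (Q i)) ^ 2000 * A ^ 1999) ^ 3
        ≤ (((2 ^ w * κ) ^ K) ^ 2000 * A ^ 1999) ^ 3 := by gcongr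
      _ = 2 ^ (6000 * K * w) * (κ ^ (6000 * K) * A ^ 5997) := by
          have a1 : ((2 ^ w * κ) ^ K) ^ 2000 = 2 ^ (2000 * K * w) * κ ^ (2000 * K) := by
            rw [← pow_mul, mul_pow, ← pow_mul]
            congr 1
            · congr 1; ring
            · congr 1; ring
          rw [a1, mul_pow, mul_pow, ← pow_mul, ← pow_mul, ← pow_mul, mul_assoc]
          congr 1
          · congr 1; ring
          · congr 1
            congr 1; ring
      _ ≤ 2 ^ (6000 * K * w) * 2 ^ (6000 * K * w) := Nat.mul_le_mul_left _ e6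
      _ = (((2 ^ w) ^ K) ^ 4000) ^ 3 := by
          rw [← pow_add, ← pow_mul, ← pow_mul, ← pow_mul]; congr 1; ring


/-- the asymptotic input -/
lemma asym : ∃ L₀ : ℕ, ∀ L : ℕ, L₀ ≤ L →
    (20000 * (Nat.log 2 ((L + 1) ^ 3) + 1)) ^ 4 ≤ L ∧ 5 ≤ Nat.log 2 ((L + 1) ^ 3) + 1 ∧
      ((20000 * (Nat.log 2 ((L + 1) ^ 3) + 1) : ℕ) : ℝ) ≤ 120000 * Real.log (L + 1) := by
  have hl2 : 0.6931471803 < Real.log 2 := Real.log_two_gt_d9
  have h1 : ∀ᶠ x : ℝ in Filter.atTop, Real.log x ^ 4 ≤ 1 / (2 * 120000 ^ 4) * x := by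
    have := (Real.isLittleO_pow_log_id_atTop (n := 4)).bound
      (show (0 : ℝ) < 1 / (2 * 120000 ^ 4) by positivity)
    filter_upwards [this, Filter.eventually_ge_atTop 0] with x hx hx0
    have h2 := (le_abs_self _).trans hx
    simpa [abs_of_nonneg hx0] using h2
  obtain ⟨x₀, hx₀⟩ := Filter.eventually_atTop.1 h1
  refine ⟨max 10 ⌈x₀⌉₊, fun L hL => ?_⟩
  have hL10 : 10 ≤ L := (le_max_left _ _).trans hL
  have hLx : x₀ ≤ (L : ℝ) + 1 := by
    have : ⌈x₀⌉₊ ≤ L := (le_max_right _ _).trans hL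
    have h3 : x₀ ≤ (L : ℝ) := (Nat.le_ceil x₀).trans (by exact_mod_cast this)
    linarith
  have hL10' : (10 : ℝ) ≤ L := by exact_mod_cast hL10
  set v := Nat.log 2 ((L + 1) ^ 3) with hv
  have hv1 : 2 ^ v ≤ (L + 1) ^ 3 := Nat.pow_log_le_self 2 (by positivity)
  have hlog : (v : ℝ) * Real.log 2 ≤ 3 * Real.log (L + 1) := by
    have h4 : ((2 : ℝ) ^ v) ≤ ((L : ℝ) + 1) ^ 3 := by exact_mod_cast hv1
    have h5 := Real.log_le_log (by positivity) h4
    rwa [Real.log_pow, Real.log_pow] at h5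
  have hlog1 : 1 ≤ Real.log (L + 1) := by
    rw [Real.le_log_iff_exp_le (by linarith)]
    have := Real.exp_one_lt_d9
    linarith
  have hvle : (v : ℝ) + 1 ≤ 6 * Real.log (L + 1) := by
    have h6 : (v : ℝ) * 0.69 ≤ 3 * Real.log (L + 1) := by
      have : (v : ℝ) * 0.69 ≤ v * Real.log 2 := by
        have : (0 : ℝ) ≤ v := by positivity
        nlinarith
      linarith
    nlinarith
  have hKle : ((20000 * (v + 1) : ℕ) : ℝ) ≤ 120000 * Real.log (L + 1) := by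
    push_cast; linarith
  refine ⟨?_, ?_, hKle⟩
  · have h7 : (((20000 * (v + 1)) ^ 4 : ℕ) : ℝ) ≤ L := by
      push_cast at hKle ⊢
      calc ((20000 : ℝ) * ((v : ℝ) + 1)) ^ 4 ≤ (120000 * Real.log (L + 1)) ^ 4 := by
            gcongr
        _ = 120000 ^ 4 * Real.log (L + 1) ^ 4 := by ring
        _ ≤ 120000 ^ 4 * (1 / (2 * 120000 ^ 4) * (L + 1)) := by
            gcongr
            exact hx₀ _ hLx
        _ = (L + 1) / 2 := by ring
        _ ≤ L := by linarith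
    exact_mod_cast h7
  · have h8 : 2 ^ 4 ≤ (L + 1) ^ 3 := by
      calc 2 ^ 4 ≤ 11 ^ 3 := by norm_num
        _ ≤ (L + 1) ^ 3 := Nat.pow_le_pow_left (by omega) 3
    have := Nat.le_log_of_pow_le (by norm_num) h8
    omega

lemma loglog_bound (A : ℕ) (hL10 : 10 ≤ Nat.log 2 A) :
    Real.log ((Nat.log 2 A : ℕ) + 1) ≤ 2 * Real.log (Real.log A) := by
  set L := Nat.log 2 A with hL
  have hA0 : A ≠ 0 := by rintro rfl; simp at hL; omega
  have hA1 : 2 ^ L ≤ A := Nat.pow_log_le_self 2 hA0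
  have hl2 : 0.6931471803 < Real.log 2 := Real.log_two_gt_d9
  have hlA : (L : ℝ) * Real.log 2 ≤ Real.log A := by
    have h4 : ((2 : ℝ) ^ L) ≤ A := by exact_mod_cast hA1
    have h5 := Real.log_le_log (by positivity) h4
    rwa [Real.log_pow] at h5
  have hL10' : (10 : ℝ) ≤ L := by exact_mod_cast hL10
  have hlA3 : 6 ≤ Real.log A := by nlinarith
  have h6 : (L : ℝ) + 1 ≤ Real.log A ^ 2 := by
    have : (L : ℝ) * 0.69 ≤ Real.log A := by nlinarith
    nlinarith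
  have := Real.log_le_log (by positivity) h6
  rwa [Real.log_pow] at this

end RichAux

open RichAux in
theorem exists_rich : ∃ (C : ℝ) (A₀ : ℕ), 0 < C ∧ ∀ A q : ℕ, A₀ ≤ A → 0 < q → q ≤ A ^ 2 →
    ∃ (K U : ℕ) (Q : Fin K → ℕ), 0 < K ∧ 0 < U ∧ (∀ i, (Q i).Prime) ∧ Function.Injective Q ∧
      (∀ i, K < Q i) ∧ (∀ i, Nat.Coprime (Q i) U) ∧ Nat.Coprime U q ∧
      (∀ i, Nat.Coprime (Q i) q) ∧
      (K : ℝ) ≤ C * Real.log (Real.log A) ∧
      (U * ∏ i, Q i) ^ 4000 ≤ A ^ 3999 ∧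
      (∏ i, pairCount U (Q i)) ^ 2000 * A ^ 1999 ≤ (U.divisors.card ^ K) ^ 4000 := by
  obtain ⟨L₀, hL₀⟩ := asym
  refine ⟨240000, 2 ^ (max L₀ 10), by norm_num, fun A q hA hq hqA => ?_⟩
  have hLA : max L₀ 10 ≤ Nat.log 2 A := Nat.le_log_of_pow_le (by norm_num) hA
  obtain ⟨hE, h5, hlog⟩ := hL₀ (Nat.log 2 A) ((le_max_left _ _).trans hLA)
  obtain ⟨U, Q, h⟩ := core (A := A) (q := q) rfl rfl rfl rfl hE h5 hq hqA
  refine ⟨_, U, Q, by positivity, h.1, h.2.1, h.2.2.1, h.2.2.2.1, h.2.2.2.2.1, h.2.2.2.2.2.1,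
    h.2.2.2.2.2.2.1, ?_, h.2.2.2.2.2.2.2.1, h.2.2.2.2.2.2.2.2⟩
  refine hlog.trans ?_
  have h7 := loglog_bound A ((le_max_right _ _).trans hLA)
  linarith

end Crest.Agent.R19
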