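import Crest.Agent.R19.Defs

/-!
# R19, piece C: size and collisions of the row sums

PROOF.  `blockVal Q u = ∑ (Π/Qᵢ) uᵢ ≤ ∑ᵢ Π·U/Qᵢ < Π·U =: R` since `K < Qᵢ` for all `i` (`K·(Π U/Qᵢ) < Π U`), if `uᵢ ≤ U`.
If `rowVal E Q u = rowVal E Q u'` with `E 0 = 1`, `R ≤ E 1`, `(E 1 + 1)·R ≤ E 2`, then by size all three block values agree
(if block 2 differed, `E 2 ≤ |E 2 (s₂-s₂')| = |E 1 (s₁-s₁') + (s₀-s₀')| < (E 1 + 1)·R`, etc.).  If two block values agree then
modulo `Qᵢ` all terms but the `i`-th vanish and `Π/Qᵢ` is a unit, so `uᵢ ≡ uᵢ' [MOD Qᵢ]`.  So the number of colliding pairs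
is at most the number of pairs with `v j i ≡ v' j i [MOD Q i]` for all `j, i`, which is `(∏ᵢ pairCount U (Q i))^3`.
-/

namespace Crest.Agent.R19

theorem blockVal_lt {K : ℕ} (U : ℕ) (Q : Fin K → ℕ) (hU : 0 < U) (hQ : ∀ i, K < Q i)
    (u : Fin K → ℕ) (hu : ∀ i, u i ≤ U) : blockVal Q u < U * ∏ i, Q i := by
  set P := ∏ i, Q i with hP
  have hPpos : 0 < P := Finset.prod_pos fun i _ => by have := hQ i; omega
  have h1 : ∀ i, (∏ j ∈ Finset.univ.erase i, Q j) * (K + 1) ≤ P := by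
    intro i
    rw [hP, ← Finset.prod_erase_mul Finset.univ Q (Finset.mem_univ i)]
    exact Nat.mul_le_mul_left _ (hQ i)
  have h2 : blockVal Q u * (K + 1) ≤ K * (P * U) := by
    unfold blockVal
    rw [Finset.sum_mul]
    calc ∑ i, (∏ j ∈ Finset.univ.erase i, Q j) * u i * (K + 1)
        ≤ ∑ _i : Fin K, P * U := by
          refine Finset.sum_le_sum fun i _ => ?_
          calc (∏ j ∈ Finset.univ.erase i, Q j) * u i * (K + 1)
              = ((∏ j ∈ Finset.univ.erase i, Q j) * (K + 1)) * u i := by ring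
            _ ≤ P * U := Nat.mul_le_mul (h1 i) (hu i)
      _ = K * (P * U) := by simp
  have h3 : K * (P * U) < (K + 1) * (P * U) := by
    have : 0 < P * U := Nat.mul_pos hPpos hU
    nlinarith
  have h4 : blockVal Q u * (K + 1) < (U * P) * (K + 1) := by
    calc blockVal Q u * (K + 1) ≤ K * (P * U) := h2
      _ < (K + 1) * (P * U) := h3
      _ = (U * P) * (K + 1) := by ring
  exact Nat.lt_of_mul_lt_mul_right h4

/-- modulo `Q i` only the `i`-th term survives -/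
theorem blockVal_modEq {K : ℕ} (Q : Fin K → ℕ) (u : Fin K → ℕ) (i : Fin K) :
    blockVal Q u ≡ (∏ j ∈ Finset.univ.erase i, Q j) * u i [MOD Q i] := by
  unfold blockVal
  rw [← Finset.add_sum_erase Finset.univ _ (Finset.mem_univ i)]
  have h : Q i ∣ ∑ x ∈ Finset.univ.erase i, (∏ j ∈ Finset.univ.erase x, Q j) * u x := by
    refine Finset.dvd_sum fun x hx => ?_
    refine Dvd.dvd.mul_right ?_ _
    refine Finset.dvd_prod_of_mem Q ?_
    rw [Finset.mem_erase] at hx ⊢
    exact ⟨fun h => hx.1 h.symm, Finset.mem_univ _⟩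
  have h0 := (Nat.modEq_zero_iff_dvd.mpr h).add_left ((∏ j ∈ Finset.univ.erase i, Q j) * u i)
  simpa using h0

theorem coprime_prod_erase {K : ℕ} (Q : Fin K → ℕ) (hp : ∀ i, (Q i).Prime)
    (hinj : Function.Injective Q) (i : Fin K) :
    Nat.Coprime (Q i) (∏ j ∈ Finset.univ.erase i, Q j) := by
  refine Nat.Coprime.prod_right fun j hj => ?_
  rw [Finset.mem_erase] at hj
  exact (Nat.coprime_primes (hp i) (hp j)).mpr fun h => hj.1 (hinj h).symm

theorem modEq_of_blockVal_eq {K : ℕ} (Q : Fin K → ℕ) (hp : ∀ i, (Q i).Prime)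
    (hinj : Function.Injective Q) (u u' : Fin K → ℕ) (h : blockVal Q u = blockVal Q u')
    (i : Fin K) : u i ≡ u' i [MOD Q i] := by
  have h1 := (blockVal_modEq Q u i).symm.trans (h ▸ blockVal_modEq Q u' i)
  exact Nat.ModEq.cancel_left_of_coprime (coprime_prod_erase Q hp hinj i) h1

theorem blockVal_eq_of_rowVal_eq {K : ℕ} (R : ℕ) (E : Fin 3 → ℕ) (Q : Fin K → ℕ)
    (hE0 : E 0 = 1) (hE1 : R ≤ E 1) (hE2 : (E 1 + 1) * R ≤ E 2)
    (u u' : Fin 3 → Fin K → ℕ) (hu : ∀ j, blockVal Q (u j) < R)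
    (hu' : ∀ j, blockVal Q (u' j) < R) (h : rowVal E Q u = rowVal E Q u') (j : Fin 3) :
    blockVal Q (u j) = blockVal Q (u' j) := by
  unfold rowVal at h
  rw [Fin.sum_univ_three, Fin.sum_univ_three, hE0] at h
  have main : ∀ a b c a' b' c' : ℕ, a < R → b < R → c < R → a' < R → b' < R → c' < R →
      1 * a + E 1 * b + E 2 * c = 1 * a' + E 1 * b' + E 2 * c' → a = a' ∧ b = b' ∧ c = c' := by
    have hlt : ∀ a b c a' b' c' : ℕ, a < R → b < R →
        1 * a + E 1 * b + E 2 * c = 1 * a' + E 1 * b' + E 2 * c' → ¬ c < c' := by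
      intro a b c a' b' c' ha hb heq hcc
      have h1 : E 2 * (c + 1) ≤ E 2 * c' := Nat.mul_le_mul_left _ hcc
      have h2 : E 1 * b ≤ E 1 * R := Nat.mul_le_mul_left _ hb.le
      nlinarith
    have hlt1 : ∀ a b a' b' : ℕ, a < R → 1 * a + E 1 * b = 1 * a' + E 1 * b' → ¬ b < b' := by
      intro a b a' b' ha heq hbb
      have h1 : E 1 * (b + 1) ≤ E 1 * b' := Nat.mul_le_mul_left _ hbb
      nlinarith
    intro a b c a' b' c' ha hb hc ha' hb' hc' heq
    have h1 := hlt a b c a' b' c' ha hb heq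
    have h2 := hlt a' b' c' a b c ha' hb' heq.symm
    have hcc : c = c' := by omega
    subst hcc
    have heq' : 1 * a + E 1 * b = 1 * a' + E 1 * b' := by omega
    have h3 := hlt1 a b a' b' ha heq'
    have h4 := hlt1 a' b' a b ha' heq'.symm
    have hbb : b = b' := by omega
    subst hbb
    exact ⟨by omega, rfl, rfl⟩
  obtain ⟨h0, h1, h2⟩ := main _ _ _ _ _ _ (hu 0) (hu 1) (hu 2) (hu' 0) (hu' 1) (hu' 2) h
  fin_cases j
  · exact h0
  · exact h1
  · exact h2

theorem collCount_rowSum_le {K : ℕ} (U : ℕ) (E : Fin 3 → ℕ) (Q : Fin K → ℕ) (hU : 0 < U)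
    (hp : ∀ i, (Q i).Prime) (hinj : Function.Injective Q) (hQ : ∀ i, K < Q i)
    (hE0 : E 0 = 1) (hE1 : U * ∏ i, Q i ≤ E 1) (hE2 : (E 1 + 1) * (U * ∏ i, Q i) ≤ E 2) :
    collCount (rowSum U E Q) ≤ (∏ i, pairCount U (Q i)) ^ 3 := by
  have key : ∀ p : {p : Idx K U × Idx K U // rowSum U E Q p.1 = rowSum U E Q p.2},
      ∀ (j : Fin 3) (i : Fin K), ((p.1.1 j i : ℕ), (p.1.2 j i : ℕ)) ∈
        (U.divisors ×ˢ U.divisors).filter (fun x => x.1 ≡ x.2 [MOD Q i]) := by
    intro p j i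
    rw [Finset.mem_filter, Finset.mem_product]
    refine ⟨⟨(p.1.1 j i).2, (p.1.2 j i).2⟩, ?_⟩
    have hlt : ∀ (w : Idx K U) (j : Fin 3), blockVal Q (fun i => (w j i : ℕ)) < U * ∏ i, Q i :=
      fun w j => blockVal_lt U Q hU hQ _ fun i =>
        Nat.le_of_dvd hU (Nat.dvd_of_mem_divisors (w j i).2)
    have h := blockVal_eq_of_rowVal_eq (U * ∏ i, Q i) E Q hE0 hE1 hE2
      (fun j i => (p.1.1 j i : ℕ)) (fun j i => (p.1.2 j i : ℕ)) (hlt p.1.1) (hlt p.1.2) p.2 j
    exact modEq_of_blockVal_eq Q hp hinj _ _ h i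
  let f : {p : Idx K U × Idx K U // rowSum U E Q p.1 = rowSum U E Q p.2} →
      ((j : Fin 3) → (i : Fin K) →
        {x : ℕ × ℕ // x ∈ (U.divisors ×ˢ U.divisors).filter (fun x => x.1 ≡ x.2 [MOD Q i])}) :=
    fun p j i => ⟨((p.1.1 j i : ℕ), (p.1.2 j i : ℕ)), key p j i⟩
  have hf : Function.Injective f := by
    intro p p' h
    apply Subtype.ext
    apply Prod.ext
    · funext j i
      have := congrArg Subtype.val (congrFun (congrFun h j) i)
      exact Subtype.ext (congrArg Prod.fst this)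
    · funext j i
      have := congrArg Subtype.val (congrFun (congrFun h j) i)
      exact Subtype.ext (congrArg Prod.snd this)
  unfold collCount
  refine (Fintype.card_le_of_injective f hf).trans (le_of_eq ?_)
  rw [Fintype.card_pi]
  simp only [Fintype.card_pi, Fintype.card_coe, Finset.prod_const, Finset.card_univ,
    Fintype.card_fin]
  rfl

end Crest.Agent.R19
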