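import Crest.Agent.R19.Defs

/-!
# R19, piece Y: Sylvester's greedy algorithm

PROOF.  `p₀ = a, q₀ = b`; `e_{j+1} = ⌈q_j/p_j⌉`, `p_{j+1} = p_j e_{j+1} - q_j ∈ [0,p_j)`, `q_{j+1} = q_j e_{j+1}` (not reduced), so
`a/b = ∑_{i≤j} 1/e_i + p_j/q_j` and `2 ≤ e₁ < e₂ < …`; in fact `e_{j+1} - 1 ≥ e_j (e_j - 1)`, so `e_j ≥ 2^(2^(j-2))` and
`q_j ≥ e_j` is doubly exponential; `e_{j+1} ≤ q_j` and `q_{j+1} ≤ q_j²`.  If some `p_j = 0` we are done (first alternative).
Otherwise let `i` be the first index with `q_i ≥ b^12000`; `A := q_i ≤ q_{i-1}² ≤ b^24000`, `i ≤ log₂(12000·log₂ b)+3`.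
One more step: `P = p_{i+1}`, `q_{i+1} = A·e`, `e ≥ A/p_i ≥ A/b`, `e ≤ A`.  `G = gcd(P,q_{i+1}) ≤ P < b`, `p = P/G`,
`q = q_{i+1}/G`, `E = gcd(A,q)`.  `A ∣ G·q` gives `A/E ∣ G`, so `A ≤ E·b`.  All `e_j ≤ A` for `j ≤ i+1`.
-/

set_option autoImplicit false

namespace Crest.Agent.R19

namespace Sylv

structure Inv (a b : ℕ) (j : ℕ) (S : Finset ℕ) (p q e : ℕ) : Prop where
  card : S.card = j
  mem : ∀ n ∈ S, 2 ≤ n ∧ n ≤ e
  sum : ∑ n ∈ S, (1 : ℚ) / (n : ℚ) + (p : ℚ) / (q : ℚ) = (a : ℚ) / (b : ℚ)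
  pa : p ≤ a
  pq : p < q
  e1 : 1 ≤ e
  lt : p * (e * (e - 1)) < q
  gr : 1 ≤ j → 2 ^ (2 ^ j / 4) + 1 ≤ e
  eq : e ≤ q

lemma ceil_spec (p q : ℕ) (hp : 1 ≤ p) : q ≤ p * ((q + p - 1) / p) ∧
    p * ((q + p - 1) / p) < q + p := by
  have h1 := Nat.div_add_mod (q + p - 1) p
  have h2 := Nat.mod_lt (q + p - 1) (show p > 0 by omega)
  constructor <;> omega

lemma pow_step (j : ℕ) (x : ℕ) (hj : 1 ≤ j) (hx : 2 ^ (2 ^ j / 4) + 1 ≤ x) :
    2 ^ (2 ^ (j + 1) / 4) ≤ x * (x - 1) := by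
  have hx1 : 1 ≤ x := le_trans (Nat.le_add_left 1 _) hx
  obtain ⟨y, rfl⟩ : ∃ y, x = y + 1 := ⟨x - 1, (Nat.sub_add_cancel hx1).symm⟩
  have hy : 2 ^ (2 ^ j / 4) ≤ y := by omega
  rw [Nat.add_sub_cancel]
  rcases Nat.lt_or_ge j 2 with h | h
  · have : j = 1 := by omega
    subst this
    norm_num at hy ⊢
    nlinarith
  · obtain ⟨i, rfl⟩ : ∃ i, j = i + 2 := ⟨j - 2, by omega⟩
    have e1 : 2 ^ (i + 2) / 4 = 2 ^ i := by
      rw [pow_add]; omega
    have e2 : 2 ^ (i + 2 + 1) / 4 = 2 * 2 ^ i := by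
      rw [pow_succ, pow_add]; omega
    rw [e1] at hy
    rw [e2, mul_comm 2, pow_mul, sq]
    calc 2 ^ 2 ^ i * 2 ^ 2 ^ i ≤ y * y := Nat.mul_le_mul hy hy
      _ ≤ (y + 1) * y := Nat.mul_le_mul_right y (by omega)

lemma step {a b : ℕ} {j : ℕ} {S : Finset ℕ} {p q e : ℕ} (h : Inv a b j S p q e) (hp : 1 ≤ p)  :
    ∃ (S' : Finset ℕ) (p' e' : ℕ), Inv a b (j + 1) S' p' (q * e') e' ∧ p' < p ∧ e' ≤ q ∧
      q ≤ p * e' := by
  obtain ⟨h1, h2⟩ := ceil_spec p q hp
  set e' := (q + p - 1) / p with he'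
  have hpq := h.pq
  have hlt := h.lt
  have hq : 0 < q := by omega
  have he2 : 2 ≤ e' := by
    by_contra hc
    have : e' ≤ 1 := by omega
    have : p * e' ≤ p * 1 := Nat.mul_le_mul_left p this
    omega
  have hgt : e * (e - 1) < e' := by
    have : p * (e * (e - 1)) < p * e' := by omega
    exact Nat.lt_of_mul_lt_mul_left this
  have hee : e < e' := by
    rcases Nat.lt_or_ge e 2 with hc | hc
    · omega
    · obtain ⟨y, rfl⟩ : ∃ y, e = y + 2 := ⟨e - 2, by omega⟩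
      rw [show y + 2 - 1 = y + 1 by omega] at hgt
      nlinarith
  have he'q : e' ≤ q := by
    obtain ⟨p1, rfl⟩ : ∃ p1, p = p1 + 1 := ⟨p - 1, by omega⟩
    by_contra hc
    have hc' : q + 1 ≤ e' := by omega
    have : (p1 + 1) * (q + 1) ≤ (p1 + 1) * e' := Nat.mul_le_mul_left _ hc'
    nlinarith
  have hnot : e' ∉ S := fun hm => by
    have := (h.mem e' hm).2
    omega
  refine ⟨insert e' S, p * e' - q, e', ⟨?_, ?_, ?_, ?_, ?_, by omega, ?_, ?_, ?_⟩, by omega, he'q, h1⟩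
  · rw [Finset.card_insert_of_notMem hnot, h.card]
  · intro n hn
    rcases Finset.mem_insert.1 hn with rfl | hn
    · exact ⟨he2, le_rfl⟩
    · have := h.mem n hn
      omega
  · rw [Finset.sum_insert hnot, ← h.sum]
    have e1 : ((p * e' - q : ℕ) : ℚ) = (p : ℚ) * e' - q := by
      rw [Nat.cast_sub h1]; push_cast; ring
    rw [e1]
    have h3 : (e' : ℚ) ≠ 0 := by
      have : e' ≠ 0 := by omega
      exact_mod_cast this
    have h4 : (q : ℚ) ≠ 0 := by
      have : q ≠ 0 := by omega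
      exact_mod_cast this
    push_cast
    field_simp
    ring
  · have := h.pa
    omega
  · have : p * e' - q < p := by omega
    have : q * 1 ≤ q * e' := Nat.mul_le_mul_left q (by omega)
    omega
  · -- (p e' - q) * (e' * (e' - 1)) < q * e'
    obtain ⟨y, hy⟩ : ∃ y, e' = y + 1 := ⟨e' - 1, by omega⟩
    obtain ⟨r, hr⟩ : ∃ r, p * e' = q + r := ⟨p * e' - q, by omega⟩
    rw [hr, Nat.add_sub_cancel_left]
    have hrp : r < p := by omega
    have e3 : e' - 1 = y := by omega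
    rw [e3]
    -- r * y < q: p (y+1) = q + r, so p y = q + r - p < q
    have h5 : p * y < q := by
      rw [hy] at hr
      have : p * (y + 1) = p * y + p := by ring
      omega
    have h6 : r * y < q := lt_of_le_of_lt (Nat.mul_le_mul_right y hrp.le) h5
    calc r * (e' * y) = (r * y) * e' := by ring
      _ < q * e' := Nat.mul_lt_mul_of_pos_right h6 (by omega)
  · intro _
    rcases Nat.lt_or_ge j 1 with hj | hj
    · have : j = 0 := by omega
      subst this
      norm_num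
      omega
    · have := pow_step j e hj (h.gr hj)
      omega
  · exact Nat.le_mul_of_pos_left _ hq

lemma log_bound (b k : ℕ) (hb : 1024 ≤ b) (hk : 1 ≤ k → 2 ^ (2 ^ k / 4) < b ^ 12000) :
    ((k + 2 : ℕ) : ℝ) ≤ (4 + (Real.log (12000 / Real.log 2) + 1) / Real.log 2) *
      Real.log (Real.log (b : ℝ)) := by
  have hl2 : 0 < Real.log 2 := Real.log_pos (by norm_num)
  have hl2' : Real.log 2 ≤ 1 := by
    have := Real.log_two_lt_d9
    linarith
  have hlb : Real.exp 1 ≤ Real.log b := by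
    have h1 : Real.log 1024 ≤ Real.log b := Real.log_le_log (by norm_num) (by exact_mod_cast hb)
    have h2 : Real.log 1024 = 10 * Real.log 2 := by
      rw [show (1024 : ℝ) = 2 ^ 10 by norm_num, Real.log_pow]; norm_num
    have := Real.log_two_gt_d9
    have := Real.exp_one_lt_d9
    linarith
  have hlb0 : 0 < Real.log b := lt_of_lt_of_le (Real.exp_pos _) hlb
  have hL : 1 ≤ Real.log (Real.log b) := by
    rw [Real.le_log_iff_exp_le hlb0]; exact hlb
  have hc : 0 ≤ Real.log (12000 / Real.log 2) := by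
    apply Real.log_nonneg
    rw [le_div_iff₀ hl2]
    linarith
  have hc2 : 0 ≤ Real.log (12000 / Real.log 2) / Real.log 2 := by positivity
  have e0 : (4 + (Real.log (12000 / Real.log 2) + 1) / Real.log 2) *
      Real.log (Real.log (b : ℝ)) = 4 * Real.log (Real.log (b : ℝ)) +
        (Real.log (12000 / Real.log 2) / Real.log 2) * Real.log (Real.log (b : ℝ)) +
        Real.log (Real.log (b : ℝ)) / Real.log 2 := by
    field_simp
    ring
  rw [e0]
  have e4 : 0 ≤ Real.log (Real.log (b : ℝ)) / Real.log 2 := by positivity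
  rcases Nat.lt_or_ge k 2 with h | h
  · have h1 : ((k + 2 : ℕ) : ℝ) ≤ 4 := by
      have : k + 2 ≤ 4 := by omega
      exact_mod_cast this
    have h2 : 0 ≤ (Real.log (12000 / Real.log 2) / Real.log 2) * Real.log (Real.log (b : ℝ)) := by
      positivity
    nlinarith
  · obtain ⟨i, rfl⟩ : ∃ i, k = i + 2 := ⟨k - 2, by omega⟩
    have hk' := hk (by omega)
    rw [show 2 ^ (i + 2) / 4 = 2 ^ i by rw [pow_add]; omega] at hk'
    have h1 : (2 : ℝ) ^ (2 ^ i) < (b : ℝ) ^ 12000 := by exact_mod_cast hk'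
    have h2 := Real.log_lt_log (by positivity) h1
    rw [Real.log_pow, Real.log_pow] at h2
    push_cast at h2
    have h3 : (2 : ℝ) ^ i < 12000 / Real.log 2 * Real.log b := by
      rw [div_mul_eq_mul_div, lt_div_iff₀ hl2]
      exact h2
    have h4 := Real.log_lt_log (by positivity) h3
    rw [Real.log_pow, Real.log_mul (by positivity) (by positivity)] at h4
    have h5 : (i : ℝ) < (Real.log (12000 / Real.log 2) + Real.log (Real.log b)) / Real.log 2 := by
      rw [lt_div_iff₀ hl2]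
      exact h4
    rw [add_div] at h5
    push_cast
    nlinarith

end Sylv

open Sylv in
theorem sylvester : ∃ (C : ℝ) (b₀ : ℕ), 0 < C ∧ ∀ a b : ℕ, b₀ ≤ b → 1 ≤ a → a < b →
    (∃ S : Finset ℕ, (∀ n ∈ S, 2 ≤ n) ∧ (S.card : ℝ) ≤ C * Real.log (Real.log (b : ℝ)) ∧
        ∑ n ∈ S, (1 : ℚ) / (n : ℚ) = (a : ℚ) / (b : ℚ)) ∨
    (∃ (S : Finset ℕ) (A p q E : ℕ), (∀ n ∈ S, 2 ≤ n ∧ n ≤ A) ∧
        (S.card : ℝ) ≤ C * Real.log (Real.log (b : ℝ)) ∧
        ∑ n ∈ S, (1 : ℚ) / (n : ℚ) + (p : ℚ) / (q : ℚ) = (a : ℚ) / (b : ℚ) ∧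
        b ^ 12000 ≤ A ∧ A ≤ b ^ 24000 ∧ 1 ≤ p ∧ p < b ∧ Nat.Coprime p q ∧
        q ≤ A ^ 2 ∧ A ^ 2 ≤ q * b ^ 2 ∧ E ∣ q ∧ E ≤ A ∧ A ≤ E * b) := by
  have hl2 : 0 < Real.log 2 := Real.log_pos (by norm_num)
  have hl2' : Real.log 2 ≤ 1 := by
    have := Real.log_two_lt_d9
    linarith
  have hc : 0 ≤ Real.log (12000 / Real.log 2) := by
    apply Real.log_nonneg
    rw [le_div_iff₀ hl2]
    linarith
  refine ⟨4 + (Real.log (12000 / Real.log 2) + 1) / Real.log 2, 1024, by positivity, ?_⟩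
  intro a b hb ha hab
  set T := b ^ 12000 with hT
  have hbT : b < T := by
    rw [hT]
    have h := Nat.pow_lt_pow_right (a := b) (m := 1) (n := 12000) (by omega) (by omega)
    rwa [pow_one] at h
  let R : ℕ → Prop := fun k => ∃ S p q e, Inv a b k S p q e ∧ 1 ≤ p ∧ q < T
  have R0 : R 0 := by
    refine ⟨∅, a, b, 1, ⟨rfl, by simp, by simp, le_rfl, hab, le_rfl, by simp; omega, by simp,
      by omega⟩, ha, hbT⟩
  have hRb : ∀ k, R k → 1 ≤ k → 2 ^ (2 ^ k / 4) < T := by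
    rintro k ⟨S, p, q, e, hI, hp, hq⟩ hk
    have := hI.gr hk
    have := hI.eq
    omega
  have hex : ∃ k, ¬ R k := by
    refine ⟨T + 2, fun hR => ?_⟩
    have h1 := hRb _ hR (by omega)
    have h2 : 2 ^ (T + 2) / 4 = 2 ^ T := by rw [pow_add]; omega
    rw [h2] at h1
    have h3 : T < 2 ^ T := Nat.lt_two_pow_self
    have h4 : 2 ^ T < 2 ^ 2 ^ T := Nat.lt_two_pow_self
    omega
  obtain ⟨k, hRk, hRk1⟩ : ∃ k, R k ∧ ¬ R (k + 1) := by
    by_contra hcon
    push Not at hcon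
    obtain ⟨k, hk⟩ := hex
    apply hk
    clear hk
    induction k with
    | zero => exact R0
    | succ k ih => exact hcon k ih
  have hbound := log_bound b k hb (fun h => hRb k hRk h)
  obtain ⟨S, p, q, e, hI, hp, hq⟩ := hRk
  obtain ⟨S', p', e', hI', hpp', heq', hqe'⟩ := step hI hp
  have hk1 : ((k + 1 : ℕ) : ℝ) ≤ ((k + 2 : ℕ) : ℝ) := by push_cast; linarith
  rcases Nat.eq_zero_or_pos p' with hp0 | hp0
  · left
    refine ⟨S', fun n hn => (hI'.mem n hn).1, ?_, ?_⟩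
    · rw [hI'.card]; exact hk1.trans hbound
    · have := hI'.sum
      rw [hp0] at this
      simpa using this
  have hTA : T ≤ q * e' := by
    by_contra hcon
    push Not at hcon
    exact hRk1 ⟨S', p', q * e', e', hI', hp0, hcon⟩
  obtain ⟨S'', P, f, hI'', hPp, hfA, hAf⟩ := step hI' hp0
  set A := q * e' with hA
  rcases Nat.eq_zero_or_pos P with hP0 | hP0
  · left
    refine ⟨S'', fun n hn => (hI''.mem n hn).1, ?_, ?_⟩
    · rw [hI''.card]; exact hbound
    · have := hI''.sum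
      rw [hP0] at this
      simpa using this
  right
  have hTpos : 0 < T := by omega
  have hApos : 0 < A := by omega
  have hfpos : 0 < f := by
    rcases Nat.eq_zero_or_pos f with h | h
    · rw [h] at hAf; omega
    · exact h
  set g := Nat.gcd P (A * f) with hg
  have hgpos : 0 < g := Nat.gcd_pos_of_pos_left _ hP0
  obtain ⟨p1, hp1⟩ : g ∣ P := Nat.gcd_dvd_left _ _
  obtain ⟨q1, hq1⟩ : g ∣ A * f := Nat.gcd_dvd_right _ _
  have hcop : Nat.Coprime p1 q1 := by
    have h1 := Nat.coprime_div_gcd_div_gcd (m := P) (n := A * f) hgpos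
    rw [← hg] at h1
    rwa [hp1, hq1, Nat.mul_div_cancel_left _ hgpos, Nat.mul_div_cancel_left _ hgpos] at h1
  have hp1pos : 0 < p1 := by
    rcases Nat.eq_zero_or_pos p1 with h | h
    · rw [h, mul_zero] at hp1; omega
    · exact h
  have hq1pos : 0 < q1 := by
    rcases Nat.eq_zero_or_pos q1 with h | h
    · rw [h, mul_zero] at hq1
      have := Nat.mul_pos hApos hfpos
      omega
    · exact h
  have hpa := hI.pa
  have hgP : g ≤ P := Nat.gcd_le_left _ hP0
  have hgb : g < b := by omega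
  have hPb : P < b := by omega
  have hfA' : A ≤ b * f := by
    have : p' * f ≤ b * f := Nat.mul_le_mul_right f (by omega)
    omega
  refine ⟨S'', A, p1, q1, Nat.gcd A q1, ?_, ?_, ?_, hTA, ?_, hp1pos, ?_, hcop, ?_, ?_,
    Nat.gcd_dvd_right _ _, Nat.gcd_le_left _ hApos, ?_⟩
  · intro n hn
    have := hI''.mem n hn
    omega
  · rw [hI''.card]; exact hbound
  · rw [← hI''.sum]
    congr 1
    rw [hp1, hq1]
    push_cast
    have : (g : ℚ) ≠ 0 := by
      have : g ≠ 0 := by omega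
      exact_mod_cast this
    rw [mul_div_mul_left _ _ this]
  · calc A = q * e' := hA
      _ ≤ q * q := Nat.mul_le_mul_left q heq'
      _ ≤ T * T := Nat.mul_le_mul hq.le hq.le
      _ = b ^ 24000 := by rw [hT, ← pow_add]
  · calc p1 ≤ g * p1 := Nat.le_mul_of_pos_left _ hgpos
      _ = P := hp1.symm
      _ < b := hPb
  · calc q1 ≤ g * q1 := Nat.le_mul_of_pos_left _ hgpos
      _ = A * f := hq1.symm
      _ ≤ A * A := Nat.mul_le_mul_left A hfA
      _ = A ^ 2 := (sq A).symm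
  · calc A ^ 2 = A * A := sq A
      _ ≤ A * (b * f) := Nat.mul_le_mul_left A hfA'
      _ = b * (A * f) := by ring
      _ = b * (g * q1) := by rw [hq1]
      _ ≤ b * (b * q1) := Nat.mul_le_mul_left b (Nat.mul_le_mul_right q1 hgb.le)
      _ = q1 * b ^ 2 := by ring
  · -- A ≤ gcd A q1 * b
    set E := Nat.gcd A q1 with hE
    have hEpos : 0 < E := Nat.gcd_pos_of_pos_left _ hApos
    obtain ⟨A1, hA1⟩ : E ∣ A := Nat.gcd_dvd_left _ _
    obtain ⟨q2, hq2⟩ : E ∣ q1 := Nat.gcd_dvd_right _ _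
    have hcop2 : Nat.Coprime A1 q2 := by
      have h1 := Nat.coprime_div_gcd_div_gcd (m := A) (n := q1) hEpos
      rw [← hE] at h1
      have e1 : A / E = A1 := by
        nth_rewrite 1 [hA1]
        exact Nat.mul_div_cancel_left _ hEpos
      have e2 : q1 / E = q2 := by
        nth_rewrite 1 [hq2]
        exact Nat.mul_div_cancel_left _ hEpos
      rwa [e1, e2] at h1
    have h1 : A1 * f = g * q2 := by
      have : E * (A1 * f) = E * (g * q2) := by
        calc E * (A1 * f) = (E * A1) * f := by ring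
          _ = A * f := by rw [← hA1]
          _ = g * q1 := hq1
          _ = g * (E * q2) := by rw [← hq2]
          _ = E * (g * q2) := by ring
      exact Nat.eq_of_mul_eq_mul_left hEpos this
    have h2 : A1 ∣ g := hcop2.dvd_of_dvd_mul_right ⟨f, h1.symm⟩
    have h3 : A1 ≤ g := Nat.le_of_dvd hgpos h2
    calc A = E * A1 := hA1
      _ ≤ E * b := Nat.mul_le_mul_left E (by omega)

end Crest.Agent.R19
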