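import Crest.Agent.R19.Zero
import Crest.Agent.R19.Rich
import Crest.Agent.R19.Rows
import Crest.Agent.R19.Sylv
import Crest.Agent.R19.Choose
import Crest.Agent.R19.Egypt

/-!
# R19: assembly
-/

namespace Crest.Agent.R19

open Finset

theorem rowSum_lt {K : ℕ} (U : ℕ) (E : Fin 3 → ℕ) (Q : Fin K → ℕ) (hU : 0 < U)
    (hQ : ∀ i, K < Q i) (v : Idx K U) (A : ℕ) (hE0 : E 0 = 1)
    (hE1 : E 1 ≤ A) (hE2 : E 2 ≤ A ^ 2) (hA : 1 ≤ A) (hR : (U * ∏ i, Q i) * 3 ≤ A) :
    rowSum U E Q v < A ^ 3 := by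
  have hb : ∀ j, blockVal Q (fun i => (v j i : ℕ)) < U * ∏ i, Q i := fun j =>
    blockVal_lt U Q hU hQ _ (fun i => Nat.le_of_dvd hU (Nat.dvd_of_mem_divisors (v j i).2))
  set R := U * ∏ i, Q i with hRdef
  unfold rowSum rowVal
  rw [Fin.sum_univ_three, hE0]
  beta_reduce
  have h0 := hb 0
  have h1 := hb 1
  have h2 := hb 2
  have hA2 : A ≤ A ^ 2 := by nlinarith
  have e1 : E 1 * blockVal Q (fun i => (v 1 i : ℕ)) ≤ A ^ 2 * R := by
    calc _ ≤ A * R := Nat.mul_le_mul hE1 h1.le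
      _ ≤ A ^ 2 * R := Nat.mul_le_mul_right _ hA2
  have e2 : E 2 * blockVal Q (fun i => (v 2 i : ℕ)) ≤ A ^ 2 * R := Nat.mul_le_mul hE2 h2.le
  have e0 : 1 * blockVal Q (fun i => (v 0 i : ℕ)) < A ^ 2 * R := by
    calc _ < 1 * R := by simpa using h0
      _ ≤ A ^ 2 * R := Nat.mul_le_mul_right _ (by nlinarith)
  calc _ < A ^ 2 * R + A ^ 2 * R + A ^ 2 * R := by omega
    _ = A ^ 2 * (R * 3) := by ring
    _ ≤ A ^ 2 * A := Nat.mul_le_mul_left _ hR
    _ = A ^ 3 := by ring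

theorem step : ∃ (C : ℝ) (A₀ : ℕ), 0 < C ∧ ∀ (A b p q E : ℕ), A₀ ≤ A → 2 ≤ b →
    b ^ 12000 ≤ A → 1 ≤ p → p < b → Nat.Coprime p q → q ≤ A ^ 2 → A ^ 2 ≤ q * b ^ 2 → E ∣ q →
    E ≤ A → A ≤ E * b →
    ∃ S : Finset ℕ, (∀ n ∈ S, A < n) ∧ (S.card : ℝ) ≤ C * Real.log (Real.log A) ∧
      ∑ n ∈ S, (1 : ℚ) / (n : ℚ) = (p : ℚ) / (q : ℚ) := by
  obtain ⟨C, A₁, hC, hrich⟩ := exists_rich
  obtain ⟨A₂, hmod⟩ := exists_modulus
  refine ⟨7 * C, max A₁ A₂, by positivity, ?_⟩
  intro A b p q E hA hb hbA hp hpb hpq hqA hAq hEq hEA hAE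
  have hA1 : A₁ ≤ A := le_trans (le_max_left _ _) hA
  have hA2 : A₂ ≤ A := le_trans (le_max_right _ _) hA
  have hApos : 0 < A := lt_of_lt_of_le (pow_pos (by omega) _) hbA
  have hqpos : 0 < q := by
    rcases Nat.eq_zero_or_pos q with h | h
    · subst h
      simp at hAq
      omega
    · exact h
  obtain ⟨K, U, Q, hK, hU, hprime, hinj, hQK, hQU, hUq, hQq, hKC, hR, hpair⟩ :=
    hrich A q hA1 hqpos hqA
  set R := U * ∏ i, Q i with hRdef
  have hRpos : 0 < R := Nat.mul_pos hU (Finset.prod_pos fun i _ => (hprime i).pos)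
  -- R b^3 ≤ A
  have hRb : R * b ^ 3 ≤ A := by
    have h1 : (R * b ^ 3) ^ 4000 ≤ A ^ 4000 := by
      calc (R * b ^ 3) ^ 4000 = R ^ 4000 * b ^ 12000 := by
            rw [mul_pow, ← pow_mul]
        _ ≤ A ^ 3999 * A := Nat.mul_le_mul hR hbA
        _ = A ^ 4000 := by rw [← pow_succ]
    exact le_of_pow_le_pow_left₀ (by norm_num) (Nat.zero_le _) h1
  have hb3 : 8 ≤ b ^ 3 := by
    calc 8 = 2 ^ 3 := by norm_num
      _ ≤ b ^ 3 := Nat.pow_le_pow_left hb 3
  have hb2 : 4 ≤ b ^ 2 := by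
    calc 4 = 2 ^ 2 := by norm_num
      _ ≤ b ^ 2 := Nat.pow_le_pow_left hb 2
  have hbpos : 0 < b := by omega
  -- R ≤ E
  have hRE : R ≤ E := by
    have h1 : R * b ^ 2 * b ≤ E * b := by
      calc R * b ^ 2 * b = R * b ^ 3 := by ring
        _ ≤ A := hRb
        _ ≤ E * b := hAE
    have h2 : R * b ^ 2 ≤ E := Nat.le_of_mul_le_mul_right h1 hbpos
    nlinarith
  have hRE2 : (E + 1) * R ≤ q := by
    have h1 : (E + 1) * R * b ^ 2 ≤ q * b ^ 2 := by
      have h3 : 2 * (R * b ^ 2) ≤ A := by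
        calc 2 * (R * b ^ 2) ≤ b * (R * b ^ 2) := Nat.mul_le_mul_right _ hb
          _ = R * b ^ 3 := by ring
          _ ≤ A := hRb
      calc (E + 1) * R * b ^ 2 = (E + 1) * (R * b ^ 2) := by ring
        _ ≤ (2 * A) * (R * b ^ 2) := Nat.mul_le_mul_right _ (by omega)
        _ = A * (2 * (R * b ^ 2)) := by ring
        _ ≤ A * A := Nat.mul_le_mul_left _ h3
        _ = A ^ 2 := by ring
        _ ≤ q * b ^ 2 := hAq
    exact Nat.le_of_mul_le_mul_right h1 (by positivity)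
  -- coprimality of R and q
  have hRq : Nat.Coprime R q := Nat.Coprime.mul_left hUq (Nat.Coprime.prod_left fun i _ => hQq i)
  have hgq : Nat.Coprime (p * R) q := Nat.Coprime.mul_left hpq hRq
  have hgpos : 0 < p * R := Nat.mul_pos hp hRpos
  set g := p * R with hgdef
  have hgA : g ≤ A := by
    calc p * R ≤ b ^ 3 * R := Nat.mul_le_mul_right _ (by nlinarith [Nat.pow_le_pow_right hbpos (show 1 ≤ 3 by norm_num)])
      _ = R * b ^ 3 := by ring
      _ ≤ A := hRb
  -- N₀ and a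
  set N₀ := q / g + 1 with hN₀
  have hN₀1 : q < g * N₀ := by
    rw [hN₀]; exact Nat.lt_mul_div_succ q hgpos
  have hN₀2 : g * N₀ ≤ q + g := by
    rw [hN₀, mul_add, mul_one]
    exact Nat.add_le_add_right (Nat.mul_div_le q g) g
  obtain ⟨a, ha⟩ : ∃ a, g * N₀ = q + a := ⟨g * N₀ - q, by omega⟩
  have ha1 : 1 ≤ a := by omega
  have hag : a ≤ g := by omega
  have hcop : Nat.Coprime a g := by
    have h1 : Nat.gcd a g ∣ q := by
      have h2 : Nat.gcd a g ∣ q + a := by
        rw [← ha]; exact Dvd.dvd.mul_right (Nat.gcd_dvd_right a g) _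
      exact (Nat.dvd_add_left (Nat.gcd_dvd_left a g)).1 h2
    have h3 : Nat.gcd a g ∣ Nat.gcd g q := Nat.dvd_gcd (Nat.gcd_dvd_right a g) h1
    rw [hgq] at h3
    exact Nat.dvd_one.1 h3
  -- the family
  set E' : Fin 3 → ℕ := ![1, E, q] with hE'
  have hE'0 : E' 0 = 1 := rfl
  have hE'1 : E' 1 = E := rfl
  have hE'2 : E' 2 = q := rfl
  have hsA : ∀ v : Idx K U, rowSum U E' Q v < A ^ 3 := by
    intro v
    apply rowSum_lt U E' Q hU hQK v A hE'0 (by rw [hE'1]; exact hEA) (by rw [hE'2]; exact hqA)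
      (by omega)
    calc (U * ∏ i, Q i) * 3 ≤ R * b ^ 3 := Nat.mul_le_mul_left _ (by omega)
      _ ≤ A := hRb
  have hcoll : collCount (rowSum U E' Q) ≤ (∏ i, pairCount U (Q i)) ^ 3 :=
    collCount_rowSum_le U E' Q hU hprime hinj hQK hE'0 (by rw [hE'1]; exact hRE)
      (by rw [hE'1, hE'2]; exact hRE2)
  have hcard : Fintype.card (Idx K U) = (U.divisors.card ^ K) ^ 3 := by
    simp [Idx, Fintype.card_pi]
  have hcardpos : 0 < Fintype.card (Idx K U) := by
    rw [hcard]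
    have : 0 < U.divisors.card := Finset.card_pos.2 ⟨1, by simp [hU.ne']⟩
    positivity
  have hcoll2 : (collCount (rowSum U E' Q)) ^ 2000 * A ^ 5997 ≤
      (Fintype.card (Idx K U)) ^ 4000 := by
    calc (collCount (rowSum U E' Q)) ^ 2000 * A ^ 5997
        ≤ ((∏ i, pairCount U (Q i)) ^ 3) ^ 2000 * A ^ 5997 :=
          Nat.mul_le_mul_right _ (Nat.pow_le_pow_left hcoll _)
      _ = ((∏ i, pairCount U (Q i)) ^ 2000 * A ^ 1999) ^ 3 := by
          rw [mul_pow, ← pow_mul, ← pow_mul, ← pow_mul]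
      _ ≤ ((U.divisors.card ^ K) ^ 4000) ^ 3 := Nat.pow_le_pow_left hpair _
      _ = (Fintype.card (Idx K U)) ^ 4000 := by
          rw [hcard, ← pow_mul, ← pow_mul, ← pow_mul, ← pow_mul]
  obtain ⟨k, hk, hmq, hsum⟩ := hmod (Idx K U) (rowSum U E' Q) A g a q hA2 hsA hcardpos hcoll2
    hcop ha1 hag hgA hqpos hqA
  set m := a + g * k with hm
  set N := N₀ + k with hN
  have hmN : m + q = g * N := by
    rw [hm, hN, mul_add, ha]; ring
  have hmpos : 0 < m := by omega
  have hNm : Nat.Coprime N m := by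
    have h1 : Nat.gcd N m ∣ q := by
      have h2 : Nat.gcd N m ∣ m + q := by
        rw [hmN]; exact Dvd.dvd.mul_left (Nat.gcd_dvd_left N m) _
      exact (Nat.dvd_add_right (Nat.gcd_dvd_right N m)).1 h2
    have h3 : Nat.gcd N m ∣ Nat.gcd m q := Nat.dvd_gcd (Nat.gcd_dvd_right N m) h1
    rw [hmq] at h3
    exact Nat.dvd_one.1 h3
  have hNq : Nat.Coprime N q := by
    have h1 : Nat.gcd N q ∣ m := by
      have h2 : Nat.gcd N q ∣ m + q := by
        rw [hmN]; exact Dvd.dvd.mul_left (Nat.gcd_dvd_left N q) _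
      exact (Nat.dvd_add_left (Nat.gcd_dvd_right N q)).1 h2
    have h3 : Nat.gcd N q ∣ Nat.gcd m q := Nat.dvd_gcd h1 (Nat.gcd_dvd_right N q)
    rw [hmq] at h3
    exact Nat.dvd_one.1 h3
  obtain ⟨v, v', hdvd⟩ := zero_sum (rowSum U E' Q) m N hmpos hNm hsum
  have hNR : R < N := by
    by_contra hcon
    push Not at hcon
    have h1 : q < g * R := by
      calc q < m + q := by omega
        _ = g * N := hmN
        _ ≤ g * R := Nat.mul_le_mul_left _ hcon
    have h2 : (R * b ^ 3) ^ 2 ≤ q * b ^ 2 := le_trans (Nat.pow_le_pow_left hRb 2) hAq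
    have h3 : R ^ 2 * b ^ 4 * b ^ 2 ≤ q * b ^ 2 := by
      calc R ^ 2 * b ^ 4 * b ^ 2 = (R * b ^ 3) ^ 2 := by ring
        _ ≤ _ := h2
    have h4 : R ^ 2 * b ^ 4 ≤ q := Nat.le_of_mul_le_mul_right h3 (by positivity)
    have h5 : g * R ≤ R ^ 2 * b ^ 4 := by
      calc g * R = R ^ 2 * p := by rw [hgdef]; ring
        _ ≤ R ^ 2 * b ^ 4 := Nat.mul_le_mul_left _ (le_trans hpb.le
            (by calc b = b ^ 1 := (pow_one b).symm
                  _ ≤ b ^ 4 := Nat.pow_le_pow_right hbpos (by norm_num)))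
    omega
  have hsq : b ^ 3 ≤ Nat.sqrt A := by
    rw [Nat.le_sqrt]
    calc b ^ 3 * b ^ 3 = b ^ 6 := by ring
      _ ≤ b ^ 12000 := Nat.pow_le_pow_right hbpos (by norm_num)
      _ ≤ A := hbA
  have hmlt : m < q := by
    have h1 : m ≤ A * Nat.sqrt A := by
      calc m = a + g * k := hm
        _ ≤ g + g * k := by omega
        _ = g * (k + 1) := by ring
        _ ≤ A * Nat.sqrt A := Nat.mul_le_mul hgA hk
    have h2 : b ^ 2 < Nat.sqrt A := by
      calc b ^ 2 < b ^ 3 := Nat.pow_lt_pow_right (by omega) (by norm_num)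
        _ ≤ _ := hsq
    have h3 : m * b ^ 2 < q * b ^ 2 := by
      calc m * b ^ 2 ≤ A * Nat.sqrt A * b ^ 2 := Nat.mul_le_mul_right _ h1
        _ < A * Nat.sqrt A * Nat.sqrt A := by
            apply Nat.mul_lt_mul_of_pos_left h2
            have : 0 < Nat.sqrt A := Nat.sqrt_pos.2 hApos
            positivity
        _ = A * (Nat.sqrt A * Nat.sqrt A) := by ring
        _ ≤ A * A := Nat.mul_le_mul_left _ (Nat.sqrt_le A)
        _ = A ^ 2 := by ring
        _ ≤ q * b ^ 2 := hAq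
    exact lt_of_mul_lt_mul_right h3 (Nat.zero_le _)
  obtain ⟨S, hS1, hS2, hS3⟩ := egypt U N m p q (R * N) E' Q v v' hK hU hprime hinj hQK hQU hE'0
    (by rw [hE'1]; exact hEq) hE'2 (by rw [hE'1]; exact hRE) (by rw [hE'1, hE'2]; exact hRE2)
    hqpos hmpos hmlt rfl (by rw [hmN, hgdef]; ring) hNq hNR hdvd
  set n := R * N with hn
  have hnA : A < n := by
    by_contra hcon
    push Not at hcon
    have h1 : q < p * n := by
      calc q < m + q := by omega
        _ = p * n := by rw [hmN, hgdef, hn]; ring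
    have h2 : q < b * A := lt_of_lt_of_le h1 (Nat.mul_le_mul hpb.le hcon)
    have h3 : A ^ 2 < b ^ 3 * A := by
      calc A ^ 2 ≤ q * b ^ 2 := hAq
        _ < b * A * b ^ 2 := Nat.mul_lt_mul_of_pos_right h2 (by positivity)
        _ = b ^ 3 * A := by ring
    have h4 : A < b ^ 3 := by
      have : A * A < b ^ 3 * A := by simpa [sq] using h3
      exact lt_of_mul_lt_mul_right this (Nat.zero_le _)
    have h5 : b ^ 3 ≤ b ^ 12000 := Nat.pow_le_pow_right hbpos (by norm_num)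
    omega
  refine ⟨insert n S, ?_, ?_, ?_⟩
  · intro x hx
    rcases Finset.mem_insert.1 hx with h | h
    · rw [h]; exact hnA
    · exact lt_trans hnA (hS1 x h)
  · have h1 : ((insert n S).card : ℝ) ≤ 7 * K := by
      have h2 : (insert n S).card ≤ S.card + 1 := Finset.card_insert_le _ _
      have h3 : (insert n S).card ≤ 7 * K := by omega
      exact_mod_cast h3
    calc ((insert n S).card : ℝ) ≤ 7 * K := h1
      _ ≤ 7 * (C * Real.log (Real.log A)) := by linarith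
      _ = 7 * C * Real.log (Real.log A) := by ring
  · have hnS : n ∉ S := fun h => lt_irrefl _ (hS1 n h)
    rw [Finset.sum_insert hnS, hS3]

theorem main : ∃ C : ℝ, ∃ b₀ : ℕ, ∀ (a b : ℕ), b₀ ≤ b → 1 ≤ a → a < b →
      ∃ S : Finset ℕ, (∀ n ∈ S, 2 ≤ n) ∧ (S.card : ℝ) ≤ C * Real.log (Real.log (b : ℝ)) ∧
        ∑ n ∈ S, (1 : ℚ) / (n : ℚ) = (a : ℚ) / (b : ℚ) := by
  obtain ⟨C₁, b₁, hC₁, hsyl⟩ := sylvester
  obtain ⟨C₂, A₀, hC₂, hstep⟩ := step
  refine ⟨C₁ + 2 * C₂, max (max b₁ A₀) (max 2 ⌈Real.exp 24000⌉₊), ?_⟩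
  intro a b hb ha hab
  have hb1 : b₁ ≤ b := le_trans (le_trans (le_max_left _ _) (le_max_left _ _)) hb
  have hb2 : A₀ ≤ b := le_trans (le_trans (le_max_right _ _) (le_max_left _ _)) hb
  have hb3 : 2 ≤ b := le_trans (le_trans (le_max_left _ _) (le_max_right _ _)) hb
  have hb4 : Real.exp 24000 ≤ b :=
    le_trans (Nat.le_ceil _) (by exact_mod_cast le_trans (le_trans (le_max_right _ _) (le_max_right _ _)) hb)
  have hbpos : (0 : ℝ) < b := by exact_mod_cast (by omega : 0 < b)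
  have hlogb : (24000 : ℝ) ≤ Real.log b := by
    rw [Real.le_log_iff_exp_le hbpos]; exact hb4
  have hloglog : Real.log 24000 ≤ Real.log (Real.log b) :=
    Real.log_le_log (by norm_num) hlogb
  have hloglog0 : 0 ≤ Real.log (Real.log b) := Real.log_nonneg (by linarith)
  rcases hsyl a b hb1 ha hab with ⟨S, h1, h2, h3⟩ | ⟨S, A, p, q, E, hS, hcard, hsum, hbA, hAb, hp, hpb, hpq, hq1, hq2, hEq, hEA, hAE⟩
  · refine ⟨S, h1, le_trans h2 ?_, h3⟩
    nlinarith
  · have hbA' : b ≤ A := by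
      calc b = b ^ 1 := (pow_one b).symm
        _ ≤ b ^ 12000 := Nat.pow_le_pow_right (by omega) (by norm_num)
        _ ≤ A := hbA
    obtain ⟨T, hT1, hT2, hT3⟩ := hstep A b p q E (le_trans hb2 hbA') hb3 hbA hp hpb hpq hq1 hq2
      hEq hEA hAE
    have hdisj : Disjoint S T := by
      rw [Finset.disjoint_left]
      intro x hx hx'
      have h1 := (hS x hx).2
      have h2 := hT1 x hx'
      omega
    refine ⟨S ∪ T, ?_, ?_, ?_⟩
    · intro n hn
      rcases Finset.mem_union.1 hn with h | h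
      · exact (hS n h).1
      · have := hT1 n h
        omega
    · have hAlog : Real.log (Real.log A) ≤ 2 * Real.log (Real.log b) := by
        have hApos : (0 : ℝ) < A := by exact_mod_cast (by omega : 0 < A)
        have h1 : Real.log A ≤ 24000 * Real.log b := by
          calc Real.log A ≤ Real.log ((b : ℝ) ^ 24000) :=
                Real.log_le_log hApos (by exact_mod_cast hAb)
            _ = 24000 * Real.log b := by rw [Real.log_pow]; norm_num
        have h0 : 0 < Real.log A := Real.log_pos (by exact_mod_cast (by omega : 1 < A))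
        calc Real.log (Real.log A) ≤ Real.log (24000 * Real.log b) := Real.log_le_log h0 h1
          _ = Real.log 24000 + Real.log (Real.log b) :=
              Real.log_mul (by norm_num) (by linarith)
          _ ≤ 2 * Real.log (Real.log b) := by linarith
      calc ((S ∪ T).card : ℝ) ≤ (S.card : ℝ) + T.card := by
            exact_mod_cast Finset.card_union_le S T
        _ ≤ C₁ * Real.log (Real.log b) + C₂ * Real.log (Real.log A) := add_le_add hcard hT2
        _ ≤ C₁ * Real.log (Real.log b) + C₂ * (2 * Real.log (Real.log b)) := by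
            have := mul_le_mul_of_nonneg_left hAlog hC₂.le
            linarith
        _ = (C₁ + 2 * C₂) * Real.log (Real.log b) := by ring
    · rw [Finset.sum_union hdisj, hT3, hsum]

end Crest.Agent.R19
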