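import Crest.Agent.R19.Defs

/-! R19, piece S, part A: inclusion-exclusion weights on subsets of a finite set. -/

set_option autoImplicit false

namespace Crest.Agent.R19.SieveAux

open Finset

/-- `f` is represented on the subsets of `P` by weights of mean `m` and total mass at most `c`. -/
def Rep (P : Finset ℕ) (f : Finset ℕ → ℝ) (m c : ℝ) : Prop :=
  ∃ lam : Finset ℕ → ℝ, (∀ T ⊆ P, f T = ∑ S ∈ T.powerset, lam S) ∧
    (∑ S ∈ P.powerset, lam S * ∏ l ∈ S, ((l : ℝ))⁻¹ = m) ∧ (∑ S ∈ P.powerset, |lam S| ≤ c)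

theorem pos_mean (p : ℕ → ℝ) (hp0 : ∀ l, 0 ≤ p l) (hp1 : ∀ l, p l ≤ 1) (P : Finset ℕ) :
    ∀ lam : Finset ℕ → ℝ, (∀ T ⊆ P, 0 ≤ ∑ S ∈ T.powerset, lam S) →
    0 ≤ ∑ S ∈ P.powerset, lam S * ∏ l ∈ S, p l := by
  induction P using Finset.induction_on with
  | empty => intro lam h; simpa using h ∅ (Finset.Subset.refl _)
  | insert x P hx ih =>
    intro lam h
    rw [Finset.sum_powerset_insert hx]
    have key := ih (fun S => lam S + p x * lam (insert x S)) ?_
    · have e : ∑ S ∈ P.powerset, (lam S + p x * lam (insert x S)) * ∏ l ∈ S, p l =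
          ∑ t ∈ P.powerset, lam t * ∏ l ∈ t, p l +
            ∑ t ∈ P.powerset, lam (insert x t) * ∏ l ∈ insert x t, p l := by
        rw [← Finset.sum_add_distrib]
        refine Finset.sum_congr rfl fun S hS => ?_
        have hxS : x ∉ S := fun hh => hx (Finset.mem_powerset.mp hS hh)
        rw [Finset.prod_insert hxS]
        ring
      rw [← e]
      exact key
    · intro T hT
      have hxT : x ∉ T := fun hh => hx (hT hh)
      have h1 := h T (hT.trans (Finset.subset_insert _ _))
      have h2 := h (insert x T) (Finset.insert_subset_insert _ hT)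
      rw [Finset.sum_powerset_insert hxT] at h2
      have e : ∑ S ∈ T.powerset, (lam S + p x * lam (insert x S)) =
          (1 - p x) * ∑ S ∈ T.powerset, lam S +
            p x * (∑ S ∈ T.powerset, lam S + ∑ S ∈ T.powerset, lam (insert x S)) := by
        rw [Finset.sum_add_distrib, ← Finset.mul_sum]
        ring
      rw [e]
      have := hp0 x
      have := hp1 x
      have a1 : 0 ≤ (1 - p x) * ∑ S ∈ T.powerset, lam S := mul_nonneg (by linarith) h1
      have a2 := mul_nonneg (hp0 x) h2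
      linarith

theorem inv_nat_le_one (l : ℕ) : ((l : ℝ))⁻¹ ≤ 1 := by
  exact Nat.cast_inv_le_one l

/-- monotonicity of means -/
theorem Rep.mono {P : Finset ℕ} {f f' : Finset ℕ → ℝ} {m m' c c' : ℝ} (h : Rep P f m c)
    (h' : Rep P f' m' c') (hle : ∀ T ⊆ P, f T ≤ f' T) : m ≤ m' := by
  obtain ⟨lam, h1, h2, _⟩ := h
  obtain ⟨lam', h1', h2', _⟩ := h'
  have := pos_mean (fun l => ((l : ℝ))⁻¹) (fun l => by positivity) (fun l => inv_nat_le_one l) P
    (fun S => lam' S - lam S) (by
      intro T hT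
      rw [Finset.sum_sub_distrib, ← h1 T hT, ← h1' T hT]
      linarith [hle T hT])
  simp_rw [sub_mul] at this
  rw [Finset.sum_sub_distrib, h2, h2'] at this
  linarith

theorem Rep.sub {P : Finset ℕ} {f f' : Finset ℕ → ℝ} {m m' c c' : ℝ} (h : Rep P f m c)
    (h' : Rep P f' m' c') : Rep P (fun T => f T - f' T) (m - m') (c + c') := by
  obtain ⟨lam, h1, h2, h3⟩ := h
  obtain ⟨lam', h1', h2', h3'⟩ := h'
  refine ⟨fun S => lam S - lam' S, ?_, ?_, ?_⟩
  · intro T hT
    rw [Finset.sum_sub_distrib, ← h1 T hT, ← h1' T hT]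
  · simp_rw [sub_mul]
    rw [Finset.sum_sub_distrib, h2, h2']
  · calc ∑ S ∈ P.powerset, |lam S - lam' S| ≤ ∑ S ∈ P.powerset, (|lam S| + |lam' S|) :=
          Finset.sum_le_sum fun S _ => abs_sub _ _
      _ ≤ c + c' := by rw [Finset.sum_add_distrib]; linarith

theorem Rep.mono_cost {P : Finset ℕ} {f : Finset ℕ → ℝ} {m c c' : ℝ} (h : Rep P f m c)
    (hc : c ≤ c') : Rep P f m c' := by
  obtain ⟨lam, h1, h2, h3⟩ := h
  exact ⟨lam, h1, h2, h3.trans hc⟩

/-- splitting of a sum over the subsets of a disjoint union -/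
theorem sum_powerset_split (A B T : Finset ℕ) (hT : T ⊆ A ∪ B) (hAB : Disjoint A B)
    (F G : Finset ℕ → ℝ) :
    ∑ S ∈ T.powerset, F (S ∩ A) * G (S ∩ B) =
      (∑ S ∈ (T ∩ A).powerset, F S) * ∑ S ∈ (T ∩ B).powerset, G S := by
  rw [Finset.sum_mul_sum, ← Finset.sum_product']
  symm
  have hd : ∀ x, x ∈ A → x ∉ B := fun x hx hy => Finset.disjoint_left.mp hAB hx hy
  refine Finset.sum_nbij' (fun q => q.1 ∪ q.2) (fun S => (S ∩ A, S ∩ B)) ?_ ?_ ?_ ?_ ?_
  · rintro ⟨S1, S2⟩ h
    simp only [Finset.mem_product, Finset.mem_powerset] at h ⊢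
    exact Finset.union_subset (h.1.trans Finset.inter_subset_left)
      (h.2.trans Finset.inter_subset_left)
  · intro S h
    simp only [Finset.mem_product, Finset.mem_powerset] at h ⊢
    exact ⟨Finset.inter_subset_inter_right h, Finset.inter_subset_inter_right h⟩
  · rintro ⟨S1, S2⟩ h
    simp only [Finset.mem_product, Finset.mem_powerset] at h ⊢
    have h1 : S1 ⊆ A := h.1.trans Finset.inter_subset_right
    have h2 : S2 ⊆ B := h.2.trans Finset.inter_subset_right
    ext x
    · simp only [Finset.mem_inter, Finset.mem_union]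
      constructor
      · rintro ⟨hx | hx, hA⟩
        · exact hx
        · exact absurd (h2 hx) (hd x hA)
      · intro hx; exact ⟨Or.inl hx, h1 hx⟩
    · simp only [Finset.mem_inter, Finset.mem_union]
      constructor
      · rintro ⟨hx | hx, hB⟩
        · exact absurd hB (hd x (h1 hx))
        · exact hx
      · intro hx; exact ⟨Or.inr hx, h2 hx⟩
  · intro S h
    simp only [Finset.mem_powerset] at h ⊢
    ext x
    simp only [Finset.mem_inter, Finset.mem_union]
    constructor
    · rintro (⟨hx, _⟩ | ⟨hx, _⟩) <;> exact hx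
    · intro hx
      rcases Finset.mem_union.mp (hT (h hx)) with hh | hh
      · exact Or.inl ⟨hx, hh⟩
      · exact Or.inr ⟨hx, hh⟩
  · rintro ⟨S1, S2⟩ h
    simp only [Finset.mem_product, Finset.mem_powerset] at h ⊢
    have h1 : S1 ⊆ A := h.1.trans Finset.inter_subset_right
    have h2 : S2 ⊆ B := h.2.trans Finset.inter_subset_right
    congr 2
    · ext x
      simp only [Finset.mem_inter, Finset.mem_union]
      constructor
      · intro hx; exact ⟨Or.inl hx, h1 hx⟩
      · rintro ⟨hx | hx, hA⟩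
        · exact hx
        · exact absurd (h2 hx) (hd x hA)
    · ext x
      simp only [Finset.mem_inter, Finset.mem_union]
      constructor
      · intro hx; exact ⟨Or.inr hx, h2 hx⟩
      · rintro ⟨hx | hx, hB⟩
        · exact absurd hB (hd x (h1 hx))
        · exact hx

theorem Rep.mul {A B : Finset ℕ} {f f' : Finset ℕ → ℝ} {m m' c c' : ℝ} (hAB : Disjoint A B)
    (hc : 0 ≤ c) (h : Rep A f m c) (h' : Rep B f' m' c') :
    Rep (A ∪ B) (fun T => f (T ∩ A) * f' (T ∩ B)) (m * m') (c * c') := by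
  obtain ⟨lam, h1, h2, h3⟩ := h
  obtain ⟨lam', h1', h2', h3'⟩ := h'
  have hA : (A ∪ B) ∩ A = A := by simp
  have hB : (A ∪ B) ∩ B = B := by simp
  refine ⟨fun S => lam (S ∩ A) * lam' (S ∩ B), ?_, ?_, ?_⟩
  · intro T hT
    show f (T ∩ A) * f' (T ∩ B) = _
    rw [sum_powerset_split A B T hT hAB, h1 _ Finset.inter_subset_right,
      h1' _ Finset.inter_subset_right]
  · have := sum_powerset_split A B (A ∪ B) (Finset.Subset.refl _) hAB
      (fun S => lam S * ∏ l ∈ S, ((l : ℝ))⁻¹) (fun S => lam' S * ∏ l ∈ S, ((l : ℝ))⁻¹)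
    rw [hA, hB, h2, h2'] at this
    rw [← this]
    refine Finset.sum_congr rfl fun S hS => ?_
    have hS' : S = (S ∩ A) ∪ (S ∩ B) := by
      rw [← Finset.inter_union_distrib_left]
      exact (Finset.inter_eq_left.mpr (Finset.mem_powerset.mp hS)).symm
    have hdis : Disjoint (S ∩ A) (S ∩ B) :=
      hAB.mono Finset.inter_subset_right Finset.inter_subset_right
    conv_lhs => rw [show ∏ l ∈ S, ((l : ℝ))⁻¹ = ∏ l ∈ (S ∩ A) ∪ (S ∩ B), ((l : ℝ))⁻¹ by
      rw [← hS']]
    rw [Finset.prod_union hdis]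
    ring
  · have := sum_powerset_split A B (A ∪ B) (Finset.Subset.refl _) hAB
      (fun S => |lam S|) (fun S => |lam' S|)
    rw [hA, hB] at this
    simp_rw [abs_mul]
    rw [this]
    exact mul_le_mul h3 h3' (Finset.sum_nonneg fun _ _ => abs_nonneg _) hc

/-- the indicator of the empty set -/
noncomputable def ind (T : Finset ℕ) : ℝ := if T = ∅ then 1 else 0

theorem ind_nonneg (T : Finset ℕ) : 0 ≤ ind T := by unfold ind; split_ifs <;> norm_num

theorem rep_ind (P : Finset ℕ) : Rep P ind (∏ l ∈ P, (1 - ((l : ℝ))⁻¹)) (2 ^ P.card) := by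
  refine ⟨fun S => (-1) ^ S.card, ?_, ?_, ?_⟩
  · intro T _
    have := Finset.sum_powerset_neg_one_pow_card (x := T)
    have h2 : ((∑ m ∈ T.powerset, (-1 : ℤ) ^ m.card : ℤ) : ℝ) = ((if T = ∅ then 1 else 0 : ℤ) : ℝ) := by
      rw [this]
    push_cast at h2
    rw [h2, ind]
  · have := Finset.prod_add (fun l : ℕ => -((l : ℝ))⁻¹) (fun _ => (1 : ℝ)) P
    simp only [Finset.prod_const_one, mul_one] at this
    have e : ∏ l ∈ P, (1 - ((l : ℝ))⁻¹) = ∏ l ∈ P, (-((l : ℝ))⁻¹ + 1) :=
      Finset.prod_congr rfl fun l _ => by ring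
    rw [e, this]
    refine Finset.sum_congr rfl fun S _ => ?_
    rw [Finset.prod_neg]
  · simp

/-- truncated inclusion-exclusion -/
noncomputable def yt (b : ℕ) (T : Finset ℕ) : ℝ :=
  ∑ t ∈ Finset.range (b + 1), (-1 : ℝ) ^ t * (T.card.choose t : ℝ)

/-- the error function -/
noncomputable def et (b : ℕ) (T : Finset ℕ) : ℝ := (T.card.choose (b + 1) : ℝ)

theorem yt_eq (b : ℕ) (hb : Even b) (T : Finset ℕ) (hT : T ≠ ∅) :
    yt b T = ((T.card - 1).choose b : ℝ) := by
  obtain ⟨n, hn⟩ : ∃ n, T.card = n + 1 := by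
    refine Nat.exists_eq_succ_of_ne_zero ?_
    simpa using hT
  unfold yt
  rw [hn]
  have := Int.alternating_sum_range_choose_eq_choose (n := n) (m := b)
  have h2 : ((∑ k ∈ Finset.range (b + 1), ((-1) ^ k * (n + 1).choose k : ℤ) : ℤ) : ℝ) =
      (((-1) ^ b * n.choose b : ℤ) : ℝ) := by rw [this]
  push_cast at h2
  rw [h2, hb.neg_one_pow]
  simp

theorem yt_empty (b : ℕ) : yt b ∅ = 1 := by
  unfold yt
  rw [Finset.sum_range_succ']
  simp

theorem ind_le_yt (b : ℕ) (hb : Even b) (T : Finset ℕ) : ind T ≤ yt b T := by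
  by_cases hT : T = ∅
  · rw [hT, yt_empty]; simp [ind]
  · rw [yt_eq b hb T hT, ind, if_neg hT]; positivity

theorem yt_nonneg (b : ℕ) (hb : Even b) (T : Finset ℕ) : 0 ≤ yt b T :=
  (ind_nonneg T).trans (ind_le_yt b hb T)

theorem et_nonneg (b : ℕ) (T : Finset ℕ) : 0 ≤ et b T := by unfold et; positivity

theorem yt_sub_ind_le (b : ℕ) (hb : Even b) (T : Finset ℕ) : yt b T - ind T ≤ et b T := by
  by_cases hT : T = ∅
  · rw [hT, yt_empty]; simp [ind, et]
  · rw [yt_eq b hb T hT, ind, if_neg hT, et]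
    obtain ⟨n, hn⟩ : ∃ n, T.card = n + 1 := by
      refine Nat.exists_eq_succ_of_ne_zero ?_
      simpa using hT
    rw [hn, Nat.choose_succ_succ]
    push_cast
    simp

theorem sum_powerset_card_le (b : ℕ) (T : Finset ℕ) (F : Finset ℕ → ℝ) :
    ∑ S ∈ T.powerset, (if S.card ≤ b then F S else 0) =
      ∑ t ∈ Finset.range (b + 1), ∑ S ∈ T.powersetCard t, F S := by
  rw [← Finset.sum_filter]
  have : (T.powerset).filter (fun S => S.card ≤ b) =
      (Finset.range (b + 1)).biUnion (fun t => T.powersetCard t) := by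
    ext S
    simp only [Finset.mem_filter, Finset.mem_powerset, Finset.mem_biUnion, Finset.mem_range,
      Finset.mem_powersetCard]
    constructor
    · rintro ⟨h1, h2⟩; exact ⟨S.card, by omega, h1, rfl⟩
    · rintro ⟨t, h1, h2, h3⟩; exact ⟨h2, by omega⟩
  rw [this, Finset.sum_biUnion]
  intro i _ j _ hij
  exact Finset.pairwise_disjoint_powersetCard T hij

theorem choose_le_pow' (n t : ℕ) : n.choose t ≤ n ^ t := Nat.choose_le_pow n t

theorem rep_yt (A : Finset ℕ) (b : ℕ) (N : ℝ) (hN : (A.card : ℝ) + 1 ≤ N) :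
    ∃ Y, Rep A (yt b) Y (N ^ b) := by
  refine ⟨_, fun S => if S.card ≤ b then (-1) ^ S.card else 0, ?_, rfl, ?_⟩
  · intro T _
    rw [sum_powerset_card_le b T (fun S => (-1) ^ S.card), yt]
    refine Finset.sum_congr rfl fun t _ => ?_
    rw [Finset.sum_congr rfl (g := fun _ => (-1 : ℝ) ^ t)]
    · rw [Finset.sum_const, Finset.card_powersetCard, nsmul_eq_mul, mul_comm]
    · intro S hS
      rw [(Finset.mem_powersetCard.mp hS).2]
  · have h1 : ∀ S ∈ A.powerset, |(if S.card ≤ b then (-1 : ℝ) ^ S.card else 0)| =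
        (if S.card ≤ b then (1 : ℝ) else 0) := by
      intro S _
      split_ifs <;> simp
    rw [Finset.sum_congr rfl h1, sum_powerset_card_le b A (fun _ => 1)]
    simp only [Finset.sum_const, Finset.card_powersetCard, nsmul_eq_mul, mul_one]
    calc ∑ t ∈ Finset.range (b + 1), ((A.card.choose t : ℕ) : ℝ)
        ≤ ∑ t ∈ Finset.range (b + 1), (A.card : ℝ) ^ t * 1 ^ (b - t) * (b.choose t : ℝ) := by
          refine Finset.sum_le_sum fun t ht => ?_
          have h2 : ((A.card.choose t : ℕ) : ℝ) ≤ (A.card : ℝ) ^ t := by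
            exact_mod_cast choose_le_pow' A.card t
          have h3 : (1 : ℝ) ≤ (b.choose t : ℝ) := by
            exact_mod_cast Nat.choose_pos (by have := Finset.mem_range.mp ht; omega)
          calc ((A.card.choose t : ℕ) : ℝ) ≤ (A.card : ℝ) ^ t * 1 := by linarith
            _ ≤ (A.card : ℝ) ^ t * 1 ^ (b - t) * (b.choose t : ℝ) := by
              rw [one_pow, mul_one]
              exact le_mul_of_one_le_right (pow_nonneg (Nat.cast_nonneg _) _) h3
      _ = ((A.card : ℝ) + 1) ^ b := (add_pow _ _ _).symm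
      _ ≤ N ^ b := by gcongr

theorem esymm_le (a : ℕ → ℝ) (ha : ∀ l, 0 ≤ a l) (A : Finset ℕ) :
    ∀ t : ℕ, ∑ S ∈ A.powersetCard t, ∏ l ∈ S, a l ≤ (∑ l ∈ A, a l) ^ t / (t.factorial : ℝ) := by
  induction A using Finset.induction_on with
  | empty =>
    intro t
    cases t with
    | zero => simp
    | succ t => rw [Finset.powersetCard_eq_empty.mpr (by simp)]; simp
  | insert x A hx ih =>
    intro t
    cases t with
    | zero => simp
    | succ t =>
      rw [Finset.powersetCard_succ_insert hx, Finset.sum_union, Finset.sum_image,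
        Finset.sum_insert hx]
      · have h1 : ∑ S ∈ A.powersetCard t, ∏ l ∈ insert x S, a l =
            a x * ∑ S ∈ A.powersetCard t, ∏ l ∈ S, a l := by
          rw [Finset.mul_sum]
          refine Finset.sum_congr rfl fun S hS => ?_
          rw [Finset.prod_insert]
          exact fun hh => hx ((Finset.mem_powersetCard.mp hS).1 hh)
        rw [h1]
        have i1 := ih (t + 1)
        have i2 := mul_le_mul_of_nonneg_left (ih t) (ha x)
        set L := ∑ l ∈ A, a l
        have hL : 0 ≤ L := Finset.sum_nonneg fun l _ => ha l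
        have hf : (0 : ℝ) < (t.factorial : ℝ) := by exact_mod_cast t.factorial_pos
        have key : L ^ (t + 1) + (t + 1) * a x * L ^ t ≤ (a x + L) ^ (t + 1) := by
          clear i1 i2 h1 ih
          have hax := ha x
          have : ∀ n : ℕ, L ^ (n + 1) + (n + 1) * a x * L ^ n ≤ (a x + L) ^ (n + 1) := by
            intro n
            induction n with
            | zero => simp; linarith
            | succ n ihn =>
              have h3 := mul_le_mul_of_nonneg_right ihn (show 0 ≤ a x + L by linarith)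
              rw [← pow_succ] at h3
              have h4 : 0 ≤ (n + 1 : ℝ) * a x * a x * L ^ n := by positivity
              push_cast
              ring_nf at h3 h4 ⊢
              nlinarith [h3, h4]
          exact this t
        have h5 : (a x + L) ^ (t + 1) / ((t + 1).factorial : ℝ) ≥
            L ^ (t + 1) / ((t + 1).factorial : ℝ) + a x * (L ^ t / (t.factorial : ℝ)) := by
          rw [Nat.factorial_succ]
          push_cast
          have e : L ^ (t + 1) / (((t : ℝ) + 1) * (t.factorial : ℝ)) +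
              a x * (L ^ t / (t.factorial : ℝ)) =
              (L ^ (t + 1) + (t + 1) * a x * L ^ t) / (((t : ℝ) + 1) * (t.factorial : ℝ)) := by
            field_simp
          rw [e, ge_iff_le]
          gcongr
        linarith
      · intro S1 h1 S2 h2 h
        simp only [Finset.mem_coe, Finset.mem_powersetCard] at h1 h2
        have n1 : x ∉ S1 := fun hh => hx (h1.1 hh)
        have n2 : x ∉ S2 := fun hh => hx (h2.1 hh)
        rw [← Finset.erase_insert n1, ← Finset.erase_insert n2, h]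
      · rw [Finset.disjoint_left]
        intro S h1 h2
        simp only [Finset.mem_image, Finset.mem_powersetCard] at h1 h2
        obtain ⟨S', _, rfl⟩ := h2
        exact hx (h1.1 (Finset.mem_insert_self _ _))

theorem rep_et (A : Finset ℕ) (b : ℕ) (N L : ℝ) (hN : (A.card : ℝ) ≤ N)
    (hL : ∑ l ∈ A, ((l : ℝ))⁻¹ ≤ L) :
    ∃ E, Rep A (et b) E (N ^ (b + 1)) ∧ E ≤ L ^ (b + 1) / ((b + 1).factorial : ℝ) := by
  have hs : ∀ (T : Finset ℕ) (F : Finset ℕ → ℝ),
      ∑ S ∈ T.powerset, (if S.card = b + 1 then F S else 0) = ∑ S ∈ T.powersetCard (b + 1), F S := by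
    intro T F
    rw [← Finset.sum_filter, Finset.powersetCard_eq_filter]
  refine ⟨_, ⟨fun S => if S.card = b + 1 then 1 else 0, ?_, rfl, ?_⟩, ?_⟩
  · intro T _
    rw [hs T (fun _ => 1), et]
    simp
  · have h1 : ∀ S ∈ A.powerset, |(if S.card = b + 1 then (1 : ℝ) else 0)| =
        (if S.card = b + 1 then (1 : ℝ) else 0) := by
      intro S _
      split_ifs <;> simp
    rw [Finset.sum_congr rfl h1, hs A (fun _ => 1)]
    simp only [Finset.sum_const, Finset.card_powersetCard, nsmul_eq_mul, mul_one]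
    calc ((A.card.choose (b + 1) : ℕ) : ℝ) ≤ (A.card : ℝ) ^ (b + 1) := by
          exact_mod_cast choose_le_pow' A.card (b + 1)
      _ ≤ N ^ (b + 1) := by gcongr
  · have e : ∑ S ∈ A.powerset, (if S.card = b + 1 then (1 : ℝ) else 0) * ∏ l ∈ S, ((l : ℝ))⁻¹ =
        ∑ S ∈ A.powersetCard (b + 1), ∏ l ∈ S, ((l : ℝ))⁻¹ := by
      rw [← hs A (fun S => ∏ l ∈ S, ((l : ℝ))⁻¹)]
      refine Finset.sum_congr rfl fun S _ => ?_
      split_ifs <;> simp
    rw [e]
    refine (esymm_le (fun l : ℕ => ((l : ℝ))⁻¹) (fun l => by positivity) A (b + 1)).trans ?_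
    have h0 : 0 ≤ ∑ l ∈ A, ((l : ℝ))⁻¹ := Finset.sum_nonneg fun l _ => by positivity
    gcongr

end Crest.Agent.R19.SieveAux
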