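import Crest.Agent.R19.SieveA

/-! R19, piece S, part B: sums of reciprocals of primes (Chebyshev). -/

set_option autoImplicit false

namespace Crest.Agent.R19.SieveAux

open Finset

/-- primes in `(m, n]` -/
def PI (m n : ℕ) : Finset ℕ := (Finset.range (n + 1)).filter (fun l => l.Prime ∧ m < l)

theorem sum_dyadic (m : ℕ) (hm : 2 ≤ m) :
    ∑ l ∈ PI m (2 * m), ((l : ℝ))⁻¹ ≤ 4 * Real.log 2 / Real.log m := by
  have hm' : (2 : ℝ) ≤ (m : ℝ) := by exact_mod_cast hm
  have hlog : 0 < Real.log m := Real.log_pos (by linarith)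
  have h1 : ∀ l ∈ PI m (2 * m), ((l : ℝ))⁻¹ ≤ Real.log l / (m * Real.log m) := by
    intro l hl
    simp only [PI, Finset.mem_filter, Finset.mem_range] at hl
    have h2 : (m : ℝ) ≤ l := by exact_mod_cast hl.2.2.le
    have h3 : Real.log m ≤ Real.log l := Real.log_le_log (by linarith) h2
    rw [inv_eq_one_div, div_le_div_iff₀ (by linarith) (by positivity), one_mul]
    calc (m : ℝ) * Real.log m ≤ l * Real.log l := by gcongr
      _ = Real.log l * l := mul_comm _ _
  have h2 : ∑ l ∈ PI m (2 * m), Real.log l ≤ Real.log 4 * (2 * m : ℕ) := by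
    calc ∑ l ∈ PI m (2 * m), Real.log l ≤ Chebyshev.theta ((2 * m : ℕ) : ℝ) := by
          rw [Chebyshev.theta_eq_sum_primesLE_log]
          refine Finset.sum_le_sum_of_subset_of_nonneg ?_ ?_
          · intro l hl
            simp only [PI, Finset.mem_filter, Finset.mem_range] at hl
            simp only [Nat.primesLE, Nat.primesBelow, Finset.mem_filter, Finset.mem_range]
            exact ⟨hl.1, hl.2.1⟩
          · intro l _ _
            exact Real.log_natCast_nonneg l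
      _ ≤ Real.log 4 * (2 * m : ℕ) := Chebyshev.theta_le_log4_mul_x (by positivity)
  calc ∑ l ∈ PI m (2 * m), ((l : ℝ))⁻¹ ≤ ∑ l ∈ PI m (2 * m), Real.log l / (m * Real.log m) :=
        Finset.sum_le_sum h1
    _ = (∑ l ∈ PI m (2 * m), Real.log l) / (m * Real.log m) := by rw [Finset.sum_div]
    _ ≤ (Real.log 4 * (2 * m : ℕ)) / (m * Real.log m) := by gcongr
    _ = 4 * Real.log 2 / Real.log m := by
      rw [show (4 : ℝ) = 2 ^ 2 by norm_num, Real.log_pow]
      push_cast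
      field_simp

theorem sum_dyadics (s : ℕ) (hs : 2 ≤ s) (k : ℕ) :
    ∑ l ∈ PI s (s * 2 ^ k), ((l : ℝ))⁻¹ ≤ k * (4 * Real.log 2 / Real.log s) := by
  have hs' : (2 : ℝ) ≤ (s : ℝ) := by exact_mod_cast hs
  have hlog : 0 < Real.log s := Real.log_pos (by linarith)
  induction k with
  | zero =>
    simp only [pow_zero, mul_one, Nat.cast_zero, zero_mul]
    rw [Finset.sum_eq_zero]
    intro l hl
    simp only [PI, Finset.mem_filter, Finset.mem_range] at hl
    omega
  | succ k ih =>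
    have hsub : PI s (s * 2 ^ (k + 1)) ⊆ PI s (s * 2 ^ k) ∪ PI (s * 2 ^ k) (2 * (s * 2 ^ k)) := by
      intro l hl
      simp only [PI, Finset.mem_filter, Finset.mem_range, Finset.mem_union] at hl ⊢
      rw [pow_succ] at hl
      have : s * (2 ^ k * 2) = 2 * (s * 2 ^ k) := by ring
      rw [this] at hl
      by_cases h : l < s * 2 ^ k + 1
      · exact Or.inl ⟨h, hl.2⟩
      · exact Or.inr ⟨hl.1, hl.2.1, by omega⟩
    have hk : s ≤ s * 2 ^ k := Nat.le_mul_of_pos_right _ (by positivity)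
    have h2 := sum_dyadic (s * 2 ^ k) (hs.trans hk)
    have h3 : Real.log s ≤ Real.log ((s * 2 ^ k : ℕ) : ℝ) :=
      Real.log_le_log (by linarith) (by exact_mod_cast hk)
    have h4 : 4 * Real.log 2 / Real.log ((s * 2 ^ k : ℕ) : ℝ) ≤ 4 * Real.log 2 / Real.log s := by
      have : 0 < Real.log 2 := Real.log_pos (by norm_num)
      gcongr
    calc ∑ l ∈ PI s (s * 2 ^ (k + 1)), ((l : ℝ))⁻¹
        ≤ ∑ l ∈ PI s (s * 2 ^ k) ∪ PI (s * 2 ^ k) (2 * (s * 2 ^ k)), ((l : ℝ))⁻¹ :=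
          Finset.sum_le_sum_of_subset_of_nonneg hsub (fun _ _ _ => by positivity)
      _ ≤ ∑ l ∈ PI s (s * 2 ^ k), ((l : ℝ))⁻¹ +
            ∑ l ∈ PI (s * 2 ^ k) (2 * (s * 2 ^ k)), ((l : ℝ))⁻¹ := by
          rw [← Finset.sum_union_inter]
          have : 0 ≤ ∑ l ∈ PI s (s * 2 ^ k) ∩ PI (s * 2 ^ k) (2 * (s * 2 ^ k)), ((l : ℝ))⁻¹ :=
            Finset.sum_nonneg fun _ _ => by positivity
          linarith
      _ ≤ ((k + 1 : ℕ) : ℝ) * (4 * Real.log 2 / Real.log s) := by
          push_cast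
          rw [add_mul, one_mul]
          linarith

/-- the sum of `1/l` over the primes of `(√y, y]` is at most `6`. -/
theorem sum_block (y : ℕ) (hy : 81 ≤ y) :
    ∑ l ∈ PI (Nat.sqrt y) y, ((l : ℝ))⁻¹ ≤ 6 := by
  set s := Nat.sqrt y with hs
  have h9 : 9 ≤ s := by
    rw [hs, Nat.le_sqrt]; omega
  have hsy : y < (s + 1) * (s + 1) := Nat.lt_succ_sqrt y
  have h9' : (9 : ℝ) ≤ (s : ℝ) := by exact_mod_cast h9
  set k := Nat.clog 2 (s + 2) with hk
  have hk1 : s + 2 ≤ 2 ^ k := Nat.le_pow_clog (by norm_num) _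
  have hk2 : 2 ^ (k - 1) < s + 2 := Nat.pow_pred_clog_lt_self (b := 2) (by norm_num) (x := s + 2) (by omega)
  have hkpos : 1 ≤ k := by
    by_contra h
    have : k = 0 := by omega
    rw [this] at hk1
    simp at hk1
  have hlog : 0 < Real.log s := Real.log_pos (by linarith)
  have hlog2 : 0 < Real.log 2 := Real.log_pos (by norm_num)
  have h1 : y ≤ s * 2 ^ k := by
    calc y ≤ s * (s + 2) := by nlinarith
      _ ≤ s * 2 ^ k := Nat.mul_le_mul_left _ hk1
  have h2 : (k : ℝ) * Real.log 2 ≤ 3 / 2 * Real.log s := by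
    have e1 : (k : ℝ) * Real.log 2 = Real.log ((2 : ℝ) ^ k) := by rw [Real.log_pow]
    have e2 : (2 : ℝ) ^ k ≤ 2 * (s + 2) := by
      have : 2 ^ k ≤ 2 * (s + 2) := by
        calc 2 ^ k = 2 * 2 ^ (k - 1) := by
              rw [← pow_succ', Nat.sub_add_cancel hkpos]
          _ ≤ 2 * (s + 2) := by omega
      exact_mod_cast this
    have e3 : Real.log ((2 : ℝ) ^ k) ≤ Real.log (2 * (s + 2)) :=
      Real.log_le_log (by positivity) e2
    have e4 : 2 * Real.log (2 * (s + 2)) ≤ 3 * Real.log s := by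
      have : Real.log ((2 * ((s : ℝ) + 2)) ^ 2) ≤ Real.log ((s : ℝ) ^ 3) := by
        apply Real.log_le_log (by positivity)
        nlinarith [mul_nonneg (show (0:ℝ) ≤ (s:ℝ) - 9 by linarith) (show (0:ℝ) ≤ (s:ℝ) by linarith), mul_nonneg (mul_nonneg (show (0:ℝ) ≤ (s:ℝ) - 9 by linarith) (show (0:ℝ) ≤ (s:ℝ) by linarith)) (show (0:ℝ) ≤ (s:ℝ) by linarith)]
      rw [Real.log_pow, Real.log_pow] at this
      exact_mod_cast this
    rw [e1]
    linarith
  calc ∑ l ∈ PI s y, ((l : ℝ))⁻¹ ≤ ∑ l ∈ PI s (s * 2 ^ k), ((l : ℝ))⁻¹ := by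
        refine Finset.sum_le_sum_of_subset_of_nonneg ?_ (fun _ _ _ => by positivity)
        intro l hl
        simp only [PI, Finset.mem_filter, Finset.mem_range] at hl ⊢
        exact ⟨by omega, hl.2⟩
    _ ≤ k * (4 * Real.log 2 / Real.log s) := sum_dyadics s (by omega) k
    _ = 4 * (k * Real.log 2) / Real.log s := by ring
    _ ≤ 4 * (3 / 2 * Real.log s) / Real.log s := by gcongr
    _ = 6 := by field_simp; norm_num

end Crest.Agent.R19.SieveAux
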