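import Crest.Agent.R19.SieveB

/-! R19, piece S, part C: the Brun-Hooley induction. -/

set_option autoImplicit false

namespace Crest.Agent.R19.SieveAux

open Finset

/-- sieving primes -/
def Pr (g y : ℕ) : Finset ℕ := (Finset.range (y + 1)).filter (fun l => l.Prime ∧ ¬ l ∣ g)

/-- the density -/
noncomputable def VV (A : Finset ℕ) : ℝ := ∏ l ∈ A, (1 - ((l : ℝ))⁻¹)

theorem one_sub_inv_ge (l : ℕ) (hl : 2 ≤ l) : Real.exp (-2 * ((l : ℝ))⁻¹) ≤ 1 - ((l : ℝ))⁻¹ := by
  have hl' : (2 : ℝ) ≤ (l : ℝ) := by exact_mod_cast hl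
  have hx1 : ((l : ℝ))⁻¹ ≤ 1 / 2 := by
    rw [inv_eq_one_div]; exact one_div_le_one_div_of_le (by norm_num) hl'
  have hx0 : 0 < ((l : ℝ))⁻¹ := by positivity
  set x := ((l : ℝ))⁻¹
  have h1 : 2 * x + 1 ≤ Real.exp (2 * x) := Real.add_one_le_exp _
  rw [show -2 * x = -(2 * x) by ring, Real.exp_neg]
  rw [inv_le_comm₀ (Real.exp_pos _) (by linarith)]
  calc (1 - x)⁻¹ ≤ 2 * x + 1 := by
        rw [inv_le_iff_one_le_mul₀ (by linarith)]
        nlinarith
    _ ≤ _ := h1

theorem VV_ge (A : Finset ℕ) (hA : ∀ l ∈ A, 2 ≤ l) (L : ℝ) (hL : ∑ l ∈ A, ((l : ℝ))⁻¹ ≤ L) :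
    Real.exp (-2 * L) ≤ VV A := by
  calc Real.exp (-2 * L) ≤ Real.exp (-2 * ∑ l ∈ A, ((l : ℝ))⁻¹) := by
        apply Real.exp_le_exp.mpr; linarith
    _ = ∏ l ∈ A, Real.exp (-2 * ((l : ℝ))⁻¹) := by
        rw [Finset.mul_sum, Real.exp_sum]
    _ ≤ VV A := by
        refine Finset.prod_le_prod (fun _ _ => (Real.exp_pos _).le) fun l hl => ?_
        exact one_sub_inv_ge l (hA l hl)

theorem VV_nonneg (A : Finset ℕ) : 0 ≤ VV A :=
  Finset.prod_nonneg fun l _ => by linarith [inv_nat_le_one l]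

theorem key_num (i : ℕ) : 6 ^ (41 + 2 * i) * 2 ^ (i + 2) * 3 ^ 12 ≤ (41 + 2 * i).factorial := by
  induction i with
  | zero => norm_num [Nat.factorial]
  | succ i ih =>
    have e1 : (41 + 2 * (i + 1)).factorial =
        (43 + 2 * i) * ((42 + 2 * i) * (41 + 2 * i).factorial) := by
      rw [show 41 + 2 * (i + 1) = (41 + 2 * i + 1) + 1 by ring, Nat.factorial_succ,
        Nat.factorial_succ]
      ring
    rw [e1]
    calc 6 ^ (41 + 2 * (i + 1)) * 2 ^ (i + 1 + 2) * 3 ^ 12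
        = 72 * (6 ^ (41 + 2 * i) * 2 ^ (i + 2) * 3 ^ 12) := by ring
      _ ≤ 72 * (41 + 2 * i).factorial := Nat.mul_le_mul_left _ ih
      _ ≤ (43 + 2 * i) * (42 + 2 * i) * (41 + 2 * i).factorial := by
          apply Nat.mul_le_mul_right
          nlinarith
      _ = _ := by ring

theorem exp12 : Real.exp (-12) ≥ 1 / 3 ^ 12 := by
  have h : Real.exp 1 < 3 := by linarith [Real.exp_one_lt_d9]
  rw [Real.exp_neg, show (12 : ℝ) = ((12 : ℕ) : ℝ) * 1 by norm_num, Real.exp_nat_mul]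
  rw [ge_iff_le, one_div]
  have : Real.exp 1 ^ 12 ≤ 3 ^ 12 := by gcongr
  gcongr

theorem ind_split (A B T : Finset ℕ) (hT : T ⊆ A ∪ B) : ind T = ind (T ∩ A) * ind (T ∩ B) := by
  unfold ind
  by_cases h : T = ∅
  · simp [h]
  · rw [if_neg h]
    by_cases hA : T ∩ A = ∅
    · by_cases hB : T ∩ B = ∅
      · exfalso
        apply h
        have : T = (T ∩ A) ∪ (T ∩ B) := by
          rw [← Finset.inter_union_distrib_left]
          exact (Finset.inter_eq_left.mpr hT).symm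
        rw [this, hA, hB]; simp
      · rw [if_neg hB]; simp
    · rw [if_neg hA]; simp

theorem Pr_card_le (g y : ℕ) : (Pr g y).card ≤ y := by
  have : Pr g y ⊆ Finset.Ioc 0 y := by
    intro l hl
    simp only [Pr, Finset.mem_filter, Finset.mem_range] at hl
    simp only [Finset.mem_Ioc]
    exact ⟨hl.2.1.pos, by omega⟩
  calc (Pr g y).card ≤ (Finset.Ioc 0 y).card := Finset.card_le_card this
    _ = y := by simp

theorem main_ind (g : ℕ) : ∀ y : ℕ, 2 ≤ y → ∀ i : ℕ,
    ∃ (u ℓ : Finset ℕ → ℝ) (U Λ : ℝ), Rep (Pr g y) u U ((y : ℝ) ^ (2 * (40 + 2 * i) + 10)) ∧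
      Rep (Pr g y) ℓ Λ ((y : ℝ) ^ (2 * (40 + 2 * i) + 10)) ∧
      (∀ T ⊆ Pr g y, ℓ T ≤ ind T ∧ ind T ≤ u T) ∧ U * (1 - (1 / 2) ^ (i + 1)) ≤ Λ := by
  intro y
  induction y using Nat.strong_induction_on with
  | _ y ih =>
  intro hy i
  have hyR : (2 : ℝ) ≤ (y : ℝ) := by exact_mod_cast hy
  by_cases hcase : y ≤ 2 * (40 + 2 * i) + 10
  · have hr := rep_ind (Pr g y)
    have hc : (2 : ℝ) ^ (Pr g y).card ≤ (y : ℝ) ^ (2 * (40 + 2 * i) + 10) := by
      calc (2 : ℝ) ^ (Pr g y).card ≤ 2 ^ (2 * (40 + 2 * i) + 10) :=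
            pow_le_pow_right₀ (by norm_num) ((Pr_card_le g y).trans hcase)
        _ ≤ (y : ℝ) ^ (2 * (40 + 2 * i) + 10) := by gcongr
    refine ⟨ind, ind, _, _, hr.mono_cost hc, hr.mono_cost hc, fun T _ => ⟨le_rfl, le_rfl⟩, ?_⟩
    have h0 := VV_nonneg (Pr g y)
    unfold VV at h0
    have h1 : (0 : ℝ) ≤ (1 / 2) ^ (i + 1) := by positivity
    nlinarith [mul_nonneg h0 h1]
  · push Not at hcase
    set s := Nat.sqrt y with hs
    set b := 40 + 2 * i with hb
    have h81 : 81 ≤ y := by omega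
    have h9 : 9 ≤ s := by rw [hs, Nat.le_sqrt]; omega
    have hsy : s * s ≤ y := Nat.sqrt_le y
    have hlt : s < y := by nlinarith
    obtain ⟨u', ℓ', U', Λ', hu', hℓ', hT', hΛ'⟩ := ih s hlt (by omega) (i + 1)
    set B := Pr g s with hB
    set A := Pr g y \ B with hA
    have hBsub : B ⊆ Pr g y := by
      intro l hl
      simp only [hB, Pr, Finset.mem_filter, Finset.mem_range] at hl ⊢
      exact ⟨by omega, hl.2⟩
    have hAB : A ∪ B = Pr g y := Finset.sdiff_union_of_subset hBsub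
    have hdis : Disjoint A B := Finset.sdiff_disjoint
    have hAPI : A ⊆ PI s y := by
      intro l hl
      simp only [hA, hB, Pr, PI, Finset.mem_sdiff, Finset.mem_filter, Finset.mem_range] at hl ⊢
      refine ⟨hl.1.1, hl.1.2.1, ?_⟩
      by_contra hh
      exact hl.2 ⟨by omega, hl.1.2⟩
    have hL : ∑ l ∈ A, ((l : ℝ))⁻¹ ≤ 6 :=
      (Finset.sum_le_sum_of_subset_of_nonneg hAPI (fun _ _ _ => by positivity)).trans
        (sum_block y h81)
    have hcard : A.card + 1 ≤ y := by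
      have : A ⊆ Finset.Ioc s y := by
        intro l hl
        have := hAPI hl
        simp only [PI, Finset.mem_filter, Finset.mem_range] at this
        simp only [Finset.mem_Ioc]
        exact ⟨this.2.2, by omega⟩
      have h := Finset.card_le_card this
      simp only [Nat.card_Ioc] at h
      omega
    have hbe : Even b := by rw [hb]; exact ⟨20 + i, by ring⟩
    obtain ⟨Y, hY⟩ := rep_yt A b (y : ℝ) (by exact_mod_cast hcard)
    obtain ⟨E, hE, hE'⟩ := rep_et A b (y : ℝ) 6 (by exact_mod_cast (by omega : A.card ≤ y)) hL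
    -- costs
    have hsR : (s : ℝ) ^ (2 * (40 + 2 * (i + 1)) + 10) ≤ (y : ℝ) ^ (b + 7) := by
      have e : 2 * (40 + 2 * (i + 1)) + 10 = 2 * (b + 7) := by omega
      rw [e, pow_mul]
      have : ((s : ℝ)) ^ 2 ≤ (y : ℝ) := by
        rw [pow_two]; exact_mod_cast hsy
      gcongr
    have hu'' := hu'.mono_cost hsR
    have hℓ'' := hℓ'.mono_cost hsR
    have hyp : (0 : ℝ) ≤ (y : ℝ) ^ b := by positivity
    have hyp1 : (0 : ℝ) ≤ (y : ℝ) ^ (b + 1) := by positivity
    have r1 := Rep.mul hdis hyp hY hu''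
    have r2 := Rep.mul hdis hyp hY hℓ''
    have r3 := Rep.mul hdis hyp1 hE hu''
    have r4 := r2.sub r3
    rw [hAB] at r1 r4
    have hy1 : (1 : ℝ) ≤ (y : ℝ) := by linarith
    have c1 : (y : ℝ) ^ b * (y : ℝ) ^ (b + 7) ≤ (y : ℝ) ^ (2 * b + 10) := by
      rw [← pow_add]
      exact pow_le_pow_right₀ hy1 (by omega)
    have c2 : (y : ℝ) ^ b * (y : ℝ) ^ (b + 7) + (y : ℝ) ^ (b + 1) * (y : ℝ) ^ (b + 7) ≤
        (y : ℝ) ^ (2 * b + 10) := by
      rw [← pow_add, ← pow_add]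
      have e1 : (y : ℝ) ^ (b + (b + 7)) ≤ (y : ℝ) ^ (2 * b + 9) :=
        pow_le_pow_right₀ hy1 (by omega)
      have e2 : (y : ℝ) ^ (b + 1 + (b + 7)) ≤ (y : ℝ) ^ (2 * b + 9) :=
        pow_le_pow_right₀ hy1 (by omega)
      have e3 : (y : ℝ) ^ (2 * b + 10) = (y : ℝ) ^ (2 * b + 9) * y := pow_succ _ _
      rw [e3]
      have : (0 : ℝ) ≤ (y : ℝ) ^ (2 * b + 9) := by positivity
      nlinarith
    refine ⟨_, _, _, _, r1.mono_cost c1, r4.mono_cost c2, ?_, ?_⟩
    · intro T hT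
      rw [← hAB] at hT
      have hTA : T ∩ A ⊆ A := Finset.inter_subset_right
      have hTB : T ∩ B ⊆ B := Finset.inter_subset_right
      obtain ⟨k1, k2⟩ := hT' (T ∩ B) hTB
      rw [ind_split A B T hT]
      have a1 := ind_le_yt b hbe (T ∩ A)
      have a2 := yt_sub_ind_le b hbe (T ∩ A)
      have a3 := yt_nonneg b hbe (T ∩ A)
      have a4 := et_nonneg b (T ∩ A)
      have a5 := ind_nonneg (T ∩ A)
      have a6 := ind_nonneg (T ∩ B)
      constructor
      · have p1 := mul_le_mul_of_nonneg_left k1 a3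
        have p2 := mul_le_mul_of_nonneg_right a2 a6
        have p3 := mul_le_mul_of_nonneg_left k2 a4
        nlinarith [p1, p2, p3]
      · exact mul_le_mul a1 k2 a6 a3
    · -- main terms
      have hV : VV A ≤ Y := by
        refine (rep_ind A).mono hY fun T _ => ind_le_yt b hbe T
      have hA2 : ∀ l ∈ A, 2 ≤ l := by
        intro l hl
        have := hAPI hl
        simp only [PI, Finset.mem_filter, Finset.mem_range] at this
        exact this.2.1.two_le
      have hV2 := VV_ge A hA2 6 hL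
      have h12 := exp12
      have hY1 : 1 / 3 ^ 12 ≤ Y := by
        have : (-2 * 6 : ℝ) = -12 := by norm_num
        rw [this] at hV2
        linarith
      have hU' : 0 ≤ U' := by
        have := (rep_ind B).mono hu' fun T hT => (hT' T hT).2
        exact (VV_nonneg B).trans this
      have hEY : E ≤ Y * (1 / 2) ^ (i + 2) := by
        refine hE'.trans ?_
        have hk := key_num i
        have hk' : (6 : ℝ) ^ (41 + 2 * i) * 2 ^ (i + 2) * 3 ^ 12 ≤ ((41 + 2 * i).factorial : ℝ) := by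
          exact_mod_cast hk
        have eb : b + 1 = 41 + 2 * i := by omega
        rw [eb]
        have hf : (0 : ℝ) < ((41 + 2 * i).factorial : ℝ) := by
          exact_mod_cast Nat.factorial_pos _
        calc (6 : ℝ) ^ (41 + 2 * i) / ((41 + 2 * i).factorial : ℝ) ≤
            1 / 3 ^ 12 * (1 / 2) ^ (i + 2) := by
              rw [div_le_iff₀ hf]
              have e : 1 / 3 ^ 12 * (1 / 2 : ℝ) ^ (i + 2) * ((41 + 2 * i).factorial : ℝ) =
                ((41 + 2 * i).factorial : ℝ) / (2 ^ (i + 2) * 3 ^ 12) := by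
                rw [one_div_pow]; field_simp
              rw [e, le_div_iff₀ (by positivity)]
              linarith
          _ ≤ Y * (1 / 2) ^ (i + 2) := by gcongr
      have q1 := mul_le_mul_of_nonneg_left hΛ' (show 0 ≤ Y by
        have : (0 : ℝ) ≤ 1 / 3 ^ 12 := by positivity
        linarith)
      have q2 := mul_le_mul_of_nonneg_right hEY hU'
      have e5 : (1 / 2 : ℝ) ^ (i + 1) = 2 * (1 / 2) ^ (i + 2) := by
        rw [pow_succ' (1 / 2 : ℝ) (i + 1)]; ring
      have e6 : (1 / 2 : ℝ) ^ (i + 1 + 1) = (1 / 2) ^ (i + 2) := rfl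
      rw [e6] at q1
      rw [e5]
      nlinarith [q1, q2]

end Crest.Agent.R19.SieveAux
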