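import Mathlib

set_option autoImplicit false

/-!
Row 19 (S0025): a weak Brun–Hooley lower bound sieve for `s * g - 1`, `g ∈ (G, 2G]`.
(helper93)
-/

namespace Crest.Agent.R19.SieveCore

open Finset

/-! ### Bonferroni for binomials -/

theorem alt_sum (ν k : ℕ) :
    ∑ j ∈ range (k + 1), (-1 : ℝ) ^ j * ((ν + 1).choose j : ℝ) = (-1) ^ k * (ν.choose k : ℝ) := by
  induction k with
  | zero => simp
  | succ k ih =>
    rw [sum_range_succ, ih, Nat.choose_succ_succ ν k]
    push_cast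
    ring

/-- truncated alternating sum -/
noncomputable def Y (k ν : ℕ) : ℝ := ∑ j ∈ range (k + 1), (-1 : ℝ) ^ j * (ν.choose j : ℝ)

theorem Y_zero (k : ℕ) : Y k 0 = 1 := by
  unfold Y
  rw [sum_range_succ']
  simp

theorem Y_succ (b ν : ℕ) : Y (2 * b) (ν + 1) = (ν.choose (2 * b) : ℝ) := by
  unfold Y
  rw [alt_sum]
  simp

theorem Y_nonneg (b ν : ℕ) : 0 ≤ Y (2 * b) ν := by
  cases ν with
  | zero => rw [Y_zero]; norm_num
  | succ ν => rw [Y_succ]; positivity

theorem ind_le_Y (b ν : ℕ) : (if ν = 0 then (1 : ℝ) else 0) ≤ Y (2 * b) ν := by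
  cases ν with
  | zero => rw [Y_zero]; norm_num
  | succ ν => rw [Y_succ]; simp

theorem Y_le (b ν : ℕ) :
    Y (2 * b) ν ≤ (if ν = 0 then (1 : ℝ) else 0) + (ν.choose (2 * b + 1) : ℝ) := by
  cases ν with
  | zero => rw [Y_zero]; simp
  | succ ν =>
    rw [Y_succ, Nat.choose_succ_succ]
    push_cast
    simp

/-! ### Representable functions -/

/-- `F` is a linear combination of indicators `[D ∣ n g]`, `D ∣ N`, with main value `M` and
total mass at most `R`. -/
def Rep (n : ℕ → ℕ) (N : ℕ) (F : ℕ → ℝ) (M R : ℝ) : Prop :=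
  ∃ (ι : Type) (_ : Fintype ι) (c : ι → ℝ) (D : ι → ℕ), (∀ i, D i ∣ N) ∧
    (∀ g, F g = ∑ i, c i * (if D i ∣ n g then 1 else 0)) ∧
    M = ∑ i, c i / (D i : ℝ) ∧ ∑ i, |c i| ≤ R

theorem Rep.one (n : ℕ → ℕ) : Rep n 1 (fun _ => 1) 1 1 := by
  refine ⟨Unit, inferInstance, fun _ => 1, fun _ => 1, ?_, ?_, ?_, ?_⟩ <;> simp

theorem Rep.zero (n : ℕ → ℕ) (N : ℕ) : Rep n N (fun _ => 0) 0 0 := by
  refine ⟨Empty, inferInstance, fun _ => 0, fun _ => 1, ?_, ?_, ?_, ?_⟩ <;> simp

theorem Rep.mul {n : ℕ → ℕ} {N N' : ℕ} {F F' : ℕ → ℝ} {M M' R R' : ℝ} (hc : N.Coprime N')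
    (h : Rep n N F M R) (h' : Rep n N' F' M' R') :
    Rep n (N * N') (fun g => F g * F' g) (M * M') (R * R') := by
  obtain ⟨ι, _, c, D, hD, hF, hM, hR⟩ := h
  obtain ⟨ι', _, c', D', hD', hF', hM', hR'⟩ := h'
  refine ⟨ι × ι', inferInstance, fun i => c i.1 * c' i.2, fun i => D i.1 * D' i.2, ?_, ?_, ?_, ?_⟩
  · intro i; exact mul_dvd_mul (hD _) (hD' _)
  · intro g
    show F g * F' g = _
    rw [hF, hF', Finset.sum_mul_sum, ← Finset.sum_product', Finset.univ_product_univ]
    refine Finset.sum_congr rfl fun i _ => ?_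
    have hcop : (D i.1).Coprime (D' i.2) :=
      Nat.Coprime.coprime_dvd_left (hD _) (Nat.Coprime.coprime_dvd_right (hD' _) hc)
    by_cases h1 : D i.1 ∣ n g
    · by_cases h2 : D' i.2 ∣ n g
      · have : D i.1 * D' i.2 ∣ n g := hcop.mul_dvd_of_dvd_of_dvd h1 h2
        simp [h1, h2, this]
      · have : ¬ D i.1 * D' i.2 ∣ n g := fun h => h2 (dvd_trans (Dvd.intro_left _ rfl) h)
        simp [h2, this]
    · have : ¬ D i.1 * D' i.2 ∣ n g := fun h => h1 (dvd_trans (Dvd.intro _ rfl) h)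
      simp [h1, this]
  · rw [hM, hM', Finset.sum_mul_sum, ← Finset.sum_product', Finset.univ_product_univ]
    refine Finset.sum_congr rfl fun i _ => ?_
    push_cast
    rw [div_mul_div_comm]
  · have : ∑ i : ι × ι', |c i.1 * c' i.2| = (∑ i, |c i|) * ∑ i, |c' i| := by
      rw [Finset.sum_mul_sum, ← Finset.sum_product', Finset.univ_product_univ]
      exact Finset.sum_congr rfl fun i _ => abs_mul _ _
    rw [this]
    exact mul_le_mul hR hR' (Finset.sum_nonneg fun _ _ => abs_nonneg _)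
      (le_trans (Finset.sum_nonneg fun _ _ => abs_nonneg _) hR)

theorem Rep.add {n : ℕ → ℕ} {N : ℕ} {F F' : ℕ → ℝ} {M M' R R' : ℝ}
    (h : Rep n N F M R) (h' : Rep n N F' M' R') :
    Rep n N (fun g => F g + F' g) (M + M') (R + R') := by
  obtain ⟨ι, _, c, D, hD, hF, hM, hR⟩ := h
  obtain ⟨ι', _, c', D', hD', hF', hM', hR'⟩ := h'
  refine ⟨ι ⊕ ι', inferInstance, Sum.elim c c', Sum.elim D D', ?_, ?_, ?_, ?_⟩
  · rintro (i | i)
    · exact hD i
    · exact hD' i
  · intro g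
    show F g + F' g = _
    rw [hF, hF', Fintype.sum_sum_type]
    rfl
  · rw [hM, hM', Fintype.sum_sum_type]
    rfl
  · rw [Fintype.sum_sum_type]
    exact add_le_add hR hR'

theorem Rep.mono {n : ℕ → ℕ} {N : ℕ} {F : ℕ → ℝ} {M R R' : ℝ}
    (h : Rep n N F M R) (hR' : R ≤ R') : Rep n N F M R' := by
  obtain ⟨ι, _, c, D, hD, hF, hM, hR⟩ := h
  exact ⟨ι, _, c, D, hD, hF, hM, hR.trans hR'⟩

theorem Rep.neg {n : ℕ → ℕ} {N : ℕ} {F : ℕ → ℝ} {M R : ℝ}
    (h : Rep n N F M R) : Rep n N (fun g => - F g) (-M) R := by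
  obtain ⟨ι, _, c, D, hD, hF, hM, hR⟩ := h
  refine ⟨ι, inferInstance, fun i => - c i, D, hD, ?_, ?_, ?_⟩
  · intro g
    show - F g = _
    rw [hF, ← Finset.sum_neg_distrib]
    exact Finset.sum_congr rfl fun i _ => by ring
  · rw [hM, ← Finset.sum_neg_distrib]
    exact Finset.sum_congr rfl fun i _ => by ring
  · simpa using hR

/-- summing a representable function over the sifted set -/
theorem Rep.sum_ge {n : ℕ → ℕ} {N : ℕ} {F : ℕ → ℝ} {M R : ℝ} (h : Rep n N F M R)
    (X : Finset ℕ) (G : ℝ)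
    (hX : ∀ D, D ∣ N → |((X.filter fun g => D ∣ n g).card : ℝ) - G / D| ≤ 1) :
    G * M - R ≤ ∑ g ∈ X, F g := by
  obtain ⟨ι, _, c, D, hD, hF, hM, hR⟩ := h
  have h1 : ∑ g ∈ X, F g = ∑ i, c i * ((X.filter fun g => D i ∣ n g).card : ℝ) := by
    simp_rw [hF]
    rw [Finset.sum_comm]
    refine Finset.sum_congr rfl fun i _ => ?_
    rw [← Finset.mul_sum, Finset.card_filter]
    push_cast
    rfl
  have h2 : G * M = ∑ i, c i * (G / (D i : ℝ)) := by
    rw [hM, Finset.mul_sum]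
    exact Finset.sum_congr rfl fun i _ => by ring
  have h3 : |∑ g ∈ X, F g - G * M| ≤ R := by
    rw [h1, h2, ← Finset.sum_sub_distrib]
    refine (Finset.abs_sum_le_sum_abs _ _).trans (le_trans ?_ hR)
    refine Finset.sum_le_sum fun i _ => ?_
    rw [← mul_sub, abs_mul]
    exact mul_le_of_le_one_right (abs_nonneg _) (hX _ (hD i))
  have := (abs_le.1 h3).1
  linarith


theorem Rep.smul {n : ℕ → ℕ} {N : ℕ} {F : ℕ → ℝ} {M R : ℝ} (a : ℝ)
    (h : Rep n N F M R) : Rep n N (fun g => a * F g) (a * M) (|a| * R) := by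
  obtain ⟨ι, _, c, D, hD, hF, hM, hR⟩ := h
  refine ⟨ι, inferInstance, fun i => a * c i, D, hD, ?_, ?_, ?_⟩
  · intro g
    show a * F g = _
    rw [hF, Finset.mul_sum]
    exact Finset.sum_congr rfl fun i _ => by ring
  · rw [hM, Finset.mul_sum]
    exact Finset.sum_congr rfl fun i _ => by ring
  · simp only [abs_mul]
    rw [← Finset.mul_sum]
    exact mul_le_mul_of_nonneg_left hR (abs_nonneg _)

/-! ### elementary symmetric sums of `1/p` -/

/-- elementary symmetric sums of `1/p`. -/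
noncomputable def es (j : ℕ) (P : Finset ℕ) : ℝ := ∑ d ∈ P.powersetCard j, ∏ p ∈ d, (1 / (p : ℝ))

/-- `∑ 1/p` -/
noncomputable def lam (P : Finset ℕ) : ℝ := ∑ p ∈ P, 1 / (p : ℝ)

/-- `∏ (1 - 1/p)` -/
noncomputable def W (P : Finset ℕ) : ℝ := ∏ p ∈ P, (1 - 1 / (p : ℝ))

/-- truncated product -/
noncomputable def T (k : ℕ) (P : Finset ℕ) : ℝ := ∑ j ∈ range (k + 1), (-1 : ℝ) ^ j * es j P

theorem es_zero (P : Finset ℕ) : es 0 P = 1 := by simp [es]

theorem es_empty (j : ℕ) : es (j + 1) ∅ = 0 := by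
  unfold es
  rw [Finset.powersetCard_eq_empty.2 (by simp)]
  simp

theorem es_nonneg (j : ℕ) (P : Finset ℕ) : 0 ≤ es j P :=
  Finset.sum_nonneg fun _ _ => Finset.prod_nonneg fun _ _ => by positivity

theorem lam_nonneg (P : Finset ℕ) : 0 ≤ lam P :=
  Finset.sum_nonneg fun _ _ => by positivity

theorem es_insert (j : ℕ) (q : ℕ) (P : Finset ℕ) (hq : q ∉ P) :
    es (j + 1) (insert q P) = es (j + 1) P + 1 / (q : ℝ) * es j P := by
  unfold es
  rw [Finset.powersetCard_succ_insert hq, Finset.sum_union, Finset.sum_image, Finset.mul_sum]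
  · congr 1
    refine Finset.sum_congr rfl fun d hd => ?_
    rw [Finset.prod_insert]
    exact fun h => hq ((Finset.mem_powersetCard.1 hd).1 h)
  · intro d hd d' hd' h
    have h1 : q ∉ d := fun h => hq ((Finset.mem_powersetCard.1 hd).1 h)
    have h2 : q ∉ d' := fun h => hq ((Finset.mem_powersetCard.1 hd').1 h)
    rw [← Finset.erase_insert h1, ← Finset.erase_insert h2, h]
  · rw [Finset.disjoint_left]
    intro d hd hd'
    obtain ⟨d', _, rfl⟩ := Finset.mem_image.1 hd'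
    exact hq ((Finset.mem_powersetCard.1 hd).1 (Finset.mem_insert_self _ _))

theorem T_zero (P : Finset ℕ) : T 0 P = 1 := by simp [T, es_zero]

theorem T_insert (k : ℕ) (q : ℕ) (P : Finset ℕ) (hq : q ∉ P) :
    T (k + 1) (insert q P) = T (k + 1) P - 1 / (q : ℝ) * T k P := by
  unfold T
  rw [Finset.sum_range_succ' _ (k + 1), Finset.sum_range_succ' _ (k + 1), Finset.mul_sum]
  rw [show (∑ j ∈ range (k + 1), (-1 : ℝ) ^ (j + 1) * es (j + 1) (insert q P))
      = (∑ j ∈ range (k + 1), (-1 : ℝ) ^ (j + 1) * es (j + 1) P)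
        - ∑ j ∈ range (k + 1), 1 / (q : ℝ) * ((-1 : ℝ) ^ j * es j P) by
    rw [← Finset.sum_sub_distrib]
    refine Finset.sum_congr rfl fun j _ => ?_
    rw [es_insert j q P hq]
    ring]
  simp only [es_zero]
  ring

theorem W_insert (q : ℕ) (P : Finset ℕ) (hq : q ∉ P) :
    W (insert q P) = (1 - 1 / (q : ℝ)) * W P := by
  unfold W
  rw [Finset.prod_insert hq]

theorem T_empty (k : ℕ) : T k ∅ = 1 := by
  unfold T
  rw [Finset.sum_range_succ']
  simp [es_empty, es_zero]

theorem W_nonneg (P : Finset ℕ) : 0 ≤ W P := by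
  refine Finset.prod_nonneg fun p _ => ?_
  rcases Nat.eq_zero_or_pos p with h | h
  · subst h; simp
  · have : (1 : ℝ) ≤ p := by exact_mod_cast h
    have : 1 / (p : ℝ) ≤ 1 := by rw [div_le_one (by linarith)]; exact this
    linarith

theorem W_le_one (P : Finset ℕ) : W P ≤ 1 := by
  refine Finset.prod_le_one (fun p _ => ?_) fun p _ => ?_
  · rcases Nat.eq_zero_or_pos p with h | h
    · subst h; simp
    · have : (1 : ℝ) ≤ p := by exact_mod_cast h
      have : 1 / (p : ℝ) ≤ 1 := by rw [div_le_one (by linarith)]; exact this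
      linarith
  · have : 0 ≤ 1 / (p : ℝ) := by positivity
    linarith

theorem bonf (P : Finset ℕ) : ∀ k, 0 ≤ (-1 : ℝ) ^ k * (T k P - W P) := by
  induction P using Finset.induction_on with
  | empty => intro k; simp [T_empty, W]
  | insert q P hq ih =>
    intro k
    cases k with
    | zero => have := W_le_one (insert q P); simp [T_zero]; exact this
    | succ k =>
      rw [T_insert k q P hq, W_insert q P hq]
      have h1 := ih (k + 1)
      have h2 := ih k
      have h3 : 0 ≤ 1 / (q : ℝ) := by positivity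
      have h4 := mul_nonneg h3 h2
      have : (-1 : ℝ) ^ (k + 1) * (T (k + 1) P - 1 / (q : ℝ) * T k P - (1 - 1 / (q : ℝ)) * W P)
        = (-1 : ℝ) ^ (k + 1) * (T (k + 1) P - W P) + 1 / (q : ℝ) * ((-1 : ℝ) ^ k * (T k P - W P)) := by
        rw [pow_succ]; ring
      rw [this]
      exact add_nonneg h1 h4

theorem W_le_T (b : ℕ) (P : Finset ℕ) : W P ≤ T (2 * b) P := by
  have := bonf P (2 * b)
  simp at this
  exact this

theorem pow_add_ge (x y : ℝ) (hx : 0 ≤ x) (hy : 0 ≤ y) (j : ℕ) :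
    x ^ (j + 1) + (j + 1) * (y * x ^ j) ≤ (x + y) ^ (j + 1) := by
  induction j with
  | zero => simp
  | succ j ih =>
    have h1 : (x ^ (j + 1) + (j + 1) * (y * x ^ j)) * (x + y) ≤ (x + y) ^ (j + 1) * (x + y) :=
      mul_le_mul_of_nonneg_right ih (by positivity)
    rw [pow_succ (x + y) (j + 1)]
    refine le_trans ?_ h1
    have h2 : 0 ≤ ((j : ℝ) + 1) * (y * x ^ j) * y := by positivity
    have h3 : (x ^ (j + 1) + (j + 1) * (y * x ^ j)) * (x + y)
        = x ^ (j + 1 + 1) + ((j : ℝ) + 1 + 1) * (y * x ^ (j + 1)) + ((j : ℝ) + 1) * (y * x ^ j) * y := by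
      ring
    push_cast
    rw [h3]
    linarith

theorem es_le (P : Finset ℕ) : ∀ j, es j P ≤ lam P ^ j / (j.factorial : ℝ) := by
  induction P using Finset.induction_on with
  | empty =>
    intro j
    cases j with
    | zero => simp [es_zero]
    | succ j => rw [es_empty]; simp [lam]
  | insert q P hq ih =>
    intro j
    cases j with
    | zero => simp [es_zero]
    | succ j =>
      rw [es_insert j q P hq]
      have hl : lam (insert q P) = lam P + 1 / (q : ℝ) := by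
        unfold lam
        rw [Finset.sum_insert hq, add_comm]
      rw [hl]
      have h1 := ih (j + 1)
      have h2 := ih j
      have h3 : 0 ≤ 1 / (q : ℝ) := by positivity
      have h4 := pow_add_ge (lam P) (1 / (q : ℝ)) (lam_nonneg P) h3 j
      have hf : (0 : ℝ) < ((j + 1).factorial : ℝ) := by positivity
      have hf' : ((j + 1).factorial : ℝ) = (j + 1) * (j.factorial : ℝ) := by
        rw [Nat.factorial_succ]; push_cast; ring
      have h5 : lam P ^ (j + 1) / ((j + 1).factorial : ℝ) + 1 / (q : ℝ) * (lam P ^ j / (j.factorial : ℝ))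
          = (lam P ^ (j + 1) + (j + 1) * (1 / (q : ℝ) * lam P ^ j)) / ((j + 1).factorial : ℝ) := by
        rw [hf']
        have : (j.factorial : ℝ) ≠ 0 := by positivity
        have : ((j : ℝ) + 1) ≠ 0 := by positivity
        field_simp
      calc es (j + 1) P + 1 / (q : ℝ) * es j P
          ≤ lam P ^ (j + 1) / ((j + 1).factorial : ℝ) + 1 / (q : ℝ) * (lam P ^ j / (j.factorial : ℝ)) :=
            add_le_add h1 (mul_le_mul_of_nonneg_left h2 h3)
        _ = _ := h5
        _ ≤ _ := by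
          exact div_le_div_of_nonneg_right h4 hf.le

theorem W_ge (P : Finset ℕ) (hP : ∀ p ∈ P, 2 ≤ p) : Real.exp (-(2 * lam P)) ≤ W P := by
  unfold lam W
  rw [Finset.mul_sum, ← Finset.sum_neg_distrib, Real.exp_sum]
  refine Finset.prod_le_prod (fun _ _ => (Real.exp_pos _).le) fun p hp => ?_
  have h2 : (2 : ℝ) ≤ p := by exact_mod_cast hP p hp
  set x : ℝ := 1 / (p : ℝ) with hx
  have hx0 : 0 ≤ x := by positivity
  have hx1 : x ≤ 1 / 2 := by
    rw [hx]; exact one_div_le_one_div_of_le (by norm_num) h2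
  have h3 : 1 + 2 * x ≤ Real.exp (2 * x) := by
    have := Real.add_one_le_exp (2 * x); linarith
  have h4 : 1 ≤ (1 - x) * Real.exp (2 * x) := by
    have : (1 - x) * (1 + 2 * x) ≤ (1 - x) * Real.exp (2 * x) :=
      mul_le_mul_of_nonneg_left h3 (by linarith)
    nlinarith
  have h5 : Real.exp (-(2 * x)) * Real.exp (2 * x) = 1 := by
    rw [← Real.exp_add]; simp
  have h6 := Real.exp_pos (-(2 * x))
  calc Real.exp (-(2 * x)) = Real.exp (-(2 * x)) * 1 := by ring
    _ ≤ Real.exp (-(2 * x)) * ((1 - x) * Real.exp (2 * x)) := mul_le_mul_of_nonneg_left h4 h6.le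
    _ = (1 - x) * (Real.exp (-(2 * x)) * Real.exp (2 * x)) := by ring
    _ = 1 - x := by rw [h5, mul_one]


/-! ### block functions -/

/-- number of primes of `P` dividing `m` -/
def nu (P : Finset ℕ) (m : ℕ) : ℕ := (P.filter (fun p => p ∣ m)).card

theorem prod_dvd_iff (d : Finset ℕ) (hd : ∀ p ∈ d, p.Prime) (m : ℕ) :
    (∏ p ∈ d, p) ∣ m ↔ ∀ p ∈ d, p ∣ m := by
  constructor
  · intro h p hp
    exact dvd_trans (Finset.dvd_prod_of_mem _ hp) h
  · intro h
    exact Finset.prod_primes_dvd m (fun p hp => (hd p hp).prime) h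

theorem choose_nu (P : Finset ℕ) (hP : ∀ p ∈ P, p.Prime) (j m : ℕ) :
    ((nu P m).choose j : ℝ) =
      ∑ d ∈ P.powersetCard j, (if (∏ p ∈ d, p) ∣ m then (1 : ℝ) else 0) := by
  unfold nu
  rw [← Finset.card_powersetCard, Finset.card_eq_sum_ones]
  push_cast
  rw [← Finset.sum_filter]
  refine Finset.sum_congr ?_ fun _ _ => rfl
  ext d
  simp only [Finset.mem_powersetCard, Finset.mem_filter, Finset.subset_iff, Finset.mem_filter]
  constructor
  · rintro ⟨h1, h2⟩
    refine ⟨⟨fun p hp => (h1 hp).1, h2⟩, ?_⟩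
    exact (prod_dvd_iff d (fun p hp => hP p (h1 hp).1) m).2 fun p hp => (h1 hp).2
  · rintro ⟨⟨h1, h2⟩, h3⟩
    refine ⟨fun p hp => ⟨h1 hp, ?_⟩, h2⟩
    exact (prod_dvd_iff d (fun p hp => hP p (h1 hp)) m).1 h3 p hp

theorem rep_choose (n : ℕ → ℕ) (P : Finset ℕ) (hP : ∀ p ∈ P, p.Prime) (j : ℕ) :
    Rep n (∏ p ∈ P, p) (fun g => ((nu P (n g)).choose j : ℝ)) (es j P) ((P.card.choose j : ℕ) : ℝ) := by
  refine ⟨{d // d ∈ P.powersetCard j}, inferInstance, fun _ => 1, fun d => ∏ p ∈ d.1, p, ?_, ?_, ?_, ?_⟩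
  · rintro ⟨d, hd⟩
    exact Finset.prod_dvd_prod_of_subset _ _ _ (Finset.mem_powersetCard.1 hd).1
  · intro g
    show ((nu P (n g)).choose j : ℝ) = _
    rw [choose_nu P hP]
    rw [← Finset.sum_coe_sort]
    exact Finset.sum_congr rfl fun i _ => by simp
  · unfold es
    rw [← Finset.sum_coe_sort]
    refine Finset.sum_congr rfl fun i _ => ?_
    push_cast
    simp
  · simp

theorem rep_Y (n : ℕ → ℕ) (P : Finset ℕ) (hP : ∀ p ∈ P, p.Prime) (k : ℕ) :
    Rep n (∏ p ∈ P, p) (fun g => Y k (nu P (n g))) (T k P) (((P.card + 1) ^ k : ℕ) : ℝ) := by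
  induction k with
  | zero =>
    have := rep_choose n P hP 0
    simp only [Nat.choose_zero_right, es_zero] at this
    simpa [Y, T_zero] using this
  | succ k ih =>
    have h1 := (rep_choose n P hP (k + 1)).smul ((-1 : ℝ) ^ (k + 1))
    have h2 := ih.add h1
    have h3 : (fun g => Y (k + 1) (nu P (n g)))
        = fun g => Y k (nu P (n g)) + (-1 : ℝ) ^ (k + 1) * ((nu P (n g)).choose (k + 1) : ℝ) := by
      funext g
      unfold Y
      rw [Finset.sum_range_succ _ (k + 1)]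
    have h4 : T (k + 1) P = T k P + (-1 : ℝ) ^ (k + 1) * es (k + 1) P := by
      unfold T
      rw [Finset.sum_range_succ _ (k + 1)]
    rw [h3, h4]
    refine h2.mono ?_
    have h5 : |(-1 : ℝ) ^ (k + 1)| = 1 := by simp
    rw [h5, one_mul]
    have h6 : P.card.choose (k + 1) ≤ P.card * (P.card + 1) ^ k := by
      calc P.card.choose (k + 1) ≤ P.card ^ (k + 1) := Nat.choose_le_pow _ _
        _ = P.card * P.card ^ k := by ring
        _ ≤ P.card * (P.card + 1) ^ k := by gcongr; omega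
    have h7 : (P.card + 1) ^ k + P.card.choose (k + 1) ≤ (P.card + 1) ^ (k + 1) := by
      calc _ ≤ (P.card + 1) ^ k + P.card * (P.card + 1) ^ k := by omega
        _ = _ := by ring
    exact_mod_cast h7


/-! ### many blocks -/

section blocks

variable (n : ℕ → ℕ) (P : ℕ → Finset ℕ) (b : ℕ → ℕ)

/-- product of the indicators -/
def Xf : ℕ → ℕ → ℝ
  | 0, _ => 1
  | t + 1, g => Xf t g * (if nu (P t) (n g) = 0 then 1 else 0)

/-- product of the upper bounds -/
noncomputable def Yf : ℕ → ℕ → ℝ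
  | 0, _ => 1
  | t + 1, g => Yf t g * Y (2 * b t) (nu (P t) (n g))

/-- the error function -/
noncomputable def Ef : ℕ → ℕ → ℝ
  | 0, _ => 0
  | t + 1, g => Ef t g * Y (2 * b t) (nu (P t) (n g))
      + Yf n P b t g * ((nu (P t) (n g)).choose (2 * b t + 1) : ℝ)

/-- main term of `Yf` -/
noncomputable def MY : ℕ → ℝ
  | 0 => 1
  | t + 1 => MY t * T (2 * b t) (P t)

/-- main term of `Ef` -/
noncomputable def ME : ℕ → ℝ
  | 0 => 0
  | t + 1 => ME t * T (2 * b t) (P t) + MY P b t * es (2 * b t + 1) (P t)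

/-- total mass -/
def RR : ℕ → ℕ
  | 0 => 1
  | t + 1 => RR t * ((P t).card + 1) ^ (2 * b t + 1)

theorem RR_succ (t : ℕ) : RR P b (t + 1) = RR P b t * ((P t).card + 1) ^ (2 * b t + 1) := rfl

theorem MY_succ (t : ℕ) : MY P b (t + 1) = MY P b t * T (2 * b t) (P t) := rfl

theorem ME_succ (t : ℕ) :
    ME P b (t + 1) = ME P b t * T (2 * b t) (P t) + MY P b t * es (2 * b t + 1) (P t) := rfl

theorem Xf_nonneg (t g : ℕ) : 0 ≤ Xf n P t g := by
  induction t with
  | zero => simp [Xf]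
  | succ t ih => unfold Xf; split_ifs <;> simp [ih]

theorem Yf_nonneg (t g : ℕ) : 0 ≤ Yf n P b t g := by
  induction t with
  | zero => simp [Yf]
  | succ t ih => unfold Yf; exact mul_nonneg ih (Y_nonneg _ _)

theorem Xf_le_Yf (t g : ℕ) : Xf n P t g ≤ Yf n P b t g := by
  induction t with
  | zero => simp [Xf, Yf]
  | succ t ih =>
    unfold Xf Yf
    refine mul_le_mul ih (ind_le_Y _ _) ?_ (Yf_nonneg n P b t g)
    split_ifs <;> norm_num

theorem Yf_sub_Ef_le (t g : ℕ) : Yf n P b t g - Ef n P b t g ≤ Xf n P t g := by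
  induction t with
  | zero => simp [Xf, Yf, Ef]
  | succ t ih =>
    unfold Xf Yf Ef
    have h1 := Y_nonneg (b t) (nu (P t) (n g))
    have h2 := Y_le (b t) (nu (P t) (n g))
    have h3 := Xf_nonneg n P t g
    have h4 := Xf_le_Yf n P b t g
    have h5 : (0 : ℝ) ≤ ((nu (P t) (n g)).choose (2 * b t + 1) : ℝ) := by positivity
    set y := Y (2 * b t) (nu (P t) (n g))
    set e := ((nu (P t) (n g)).choose (2 * b t + 1) : ℝ)
    set x : ℝ := if nu (P t) (n g) = 0 then (1 : ℝ) else 0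
    have h6 : Xf n P t g * (y - e) ≤ Xf n P t g * x :=
      mul_le_mul_of_nonneg_left (by linarith) h3
    have h7 : (Yf n P b t g - Ef n P b t g) * y ≤ Xf n P t g * y :=
      mul_le_mul_of_nonneg_right ih h1
    have h8 : Xf n P t g * e ≤ Yf n P b t g * e := mul_le_mul_of_nonneg_right h4 h5
    nlinarith

variable {P}

theorem coprime_prod (hP : ∀ t, ∀ p ∈ P t, p.Prime) (hd : ∀ i j, i ≠ j → Disjoint (P i) (P j))
    (t : ℕ) : (∏ i ∈ range t, ∏ p ∈ P i, p).Coprime (∏ p ∈ P t, p) := by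
  refine Nat.Coprime.prod_left fun i hi => Nat.Coprime.prod_left fun p hp =>
    Nat.Coprime.prod_right fun q hq => ?_
  rw [Nat.coprime_primes (hP i p hp) (hP t q hq)]
  rintro rfl
  exact Finset.disjoint_left.1 (hd i t (by have := Finset.mem_range.1 hi; omega)) hp hq

theorem rep_Yf (hP : ∀ t, ∀ p ∈ P t, p.Prime) (hd : ∀ i j, i ≠ j → Disjoint (P i) (P j))
    (t : ℕ) : Rep n (∏ i ∈ range t, ∏ p ∈ P i, p) (Yf n P b t) (MY P b t) ((RR P b t : ℕ) : ℝ) := by
  induction t with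
  | zero =>
    have := Rep.one n
    simp only [range_zero, prod_empty]
    refine Rep.mono (M := 1) (R := 1) this ?_
    simp [RR]
  | succ t ih =>
    rw [Finset.prod_range_succ]
    have h1 := ih.mul (coprime_prod hP hd t) (rep_Y n (P t) (hP t) (2 * b t))
    refine Rep.mono (h1) ?_
    rw [RR_succ]
    have h4 : ((P t).card + 1) ^ (2 * b t) ≤ ((P t).card + 1) ^ (2 * b t + 1) :=
      Nat.pow_le_pow_right (by omega) (by omega)
    have h5 : RR P b t * ((P t).card + 1) ^ (2 * b t)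
        ≤ RR P b t * ((P t).card + 1) ^ (2 * b t + 1) := Nat.mul_le_mul_left _ h4
    exact_mod_cast h5

theorem rep_Ef (hP : ∀ t, ∀ p ∈ P t, p.Prime) (hd : ∀ i j, i ≠ j → Disjoint (P i) (P j))
    (t : ℕ) : Rep n (∏ i ∈ range t, ∏ p ∈ P i, p) (Ef n P b t) (ME P b t)
      ((t * RR P b t : ℕ) : ℝ) := by
  induction t with
  | zero =>
    have := Rep.zero n 1
    simp only [range_zero, prod_empty]
    refine Rep.mono (M := 0) (R := 0) this ?_
    simp
  | succ t ih =>
    rw [Finset.prod_range_succ]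
    have h1 := ih.mul (coprime_prod hP hd t) (rep_Y n (P t) (hP t) (2 * b t))
    have h2 := (rep_Yf n b hP hd t).mul (coprime_prod hP hd t) (rep_choose n (P t) (hP t) (2 * b t + 1))
    refine Rep.mono (h1.add h2) ?_
    rw [RR_succ]
    have h3 : (P t).card.choose (2 * b t + 1) ≤ ((P t).card + 1) ^ (2 * b t + 1) :=
      (Nat.choose_le_pow _ _).trans (Nat.pow_le_pow_left (by omega) _)
    have h4 : ((P t).card + 1) ^ (2 * b t) ≤ ((P t).card + 1) ^ (2 * b t + 1) :=
      Nat.pow_le_pow_right (by omega) (by omega)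
    have h5 : t * RR P b t * ((P t).card + 1) ^ (2 * b t)
        + RR P b t * (P t).card.choose (2 * b t + 1)
        ≤ (t + 1) * (RR P b t * ((P t).card + 1) ^ (2 * b t + 1)) := by
      calc _ ≤ t * RR P b t * ((P t).card + 1) ^ (2 * b t + 1)
            + RR P b t * ((P t).card + 1) ^ (2 * b t + 1) := by gcongr
        _ = _ := by ring
    exact_mod_cast h5

theorem MY_ge (t : ℕ) : ∏ i ∈ range t, W (P i) ≤ MY P b t := by
  induction t with
  | zero => simp [MY]
  | succ t ih =>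
    rw [Finset.prod_range_succ]
    unfold MY
    exact mul_le_mul ih (W_le_T _ _) (W_nonneg _)
      (le_trans (Finset.prod_nonneg fun _ _ => W_nonneg _) ih)

theorem MY_nonneg (t : ℕ) : 0 ≤ MY P b t :=
  le_trans (Finset.prod_nonneg fun _ _ => W_nonneg _) (MY_ge b t)

theorem ME_le (η : ℕ → ℝ) (hη : ∀ t, es (2 * b t + 1) (P t) ≤ η t * T (2 * b t) (P t)) (t : ℕ) :
    ME P b t ≤ MY P b t * ∑ i ∈ range t, η i := by
  induction t with
  | zero => simp [ME]
  | succ t ih =>
    rw [Finset.sum_range_succ]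
    rw [ME_succ, MY_succ]
    have h1 : 0 ≤ T (2 * b t) (P t) := le_trans (W_nonneg _) (W_le_T _ _)
    have h2 := mul_le_mul_of_nonneg_right ih h1
    have h3 := mul_le_mul_of_nonneg_left (hη t) (MY_nonneg (P := P) b t)
    nlinarith

/-- the general sieve bound -/
theorem sieve_blocks (hP : ∀ t, ∀ p ∈ P t, p.Prime) (hd : ∀ i j, i ≠ j → Disjoint (P i) (P j))
    (η : ℕ → ℝ) (hη : ∀ t, es (2 * b t + 1) (P t) ≤ η t * T (2 * b t) (P t))
    (X : Finset ℕ) (G : ℝ) (hG : 0 ≤ G) (t : ℕ) (hsum : ∑ i ∈ range t, η i ≤ 1 / 2)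
    (hX : ∀ D, D ∣ ∏ i ∈ range t, ∏ p ∈ P i, p →
      |((X.filter fun g => D ∣ n g).card : ℝ) - G / D| ≤ 1) :
    G / 2 * (∏ i ∈ range t, W (P i)) - (t + 1) * (RR P b t : ℝ) ≤ ∑ g ∈ X, Xf n P t g := by
  have h1 : Rep n (∏ i ∈ range t, ∏ p ∈ P i, p) (fun g => Yf n P b t g + - Ef n P b t g)
      (MY P b t + - ME P b t) ((RR P b t : ℝ) + (t * RR P b t : ℕ)) :=
    (rep_Yf n b hP hd t).add (rep_Ef n b hP hd t).neg
  have h2 := h1.sum_ge X G hX
  have h3 : ∑ g ∈ X, (Yf n P b t g + - Ef n P b t g) ≤ ∑ g ∈ X, Xf n P t g := by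
    refine Finset.sum_le_sum fun g _ => ?_
    have := Yf_sub_Ef_le n P b t g
    linarith
  have h4 := ME_le b η hη t
  have h5 := MY_nonneg (P := P) b t
  have h6 : MY P b t * ∑ i ∈ range t, η i ≤ MY P b t * (1 / 2) :=
    mul_le_mul_of_nonneg_left hsum h5
  have h7 := MY_ge (P := P) b t
  have h8 : G * (1 / 2 * MY P b t) ≤ G * (MY P b t + - ME P b t) :=
    mul_le_mul_of_nonneg_left (by linarith) hG
  have h9 : G * (1 / 2 * (∏ i ∈ range t, W (P i))) ≤ G * (1 / 2 * MY P b t) :=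
    mul_le_mul_of_nonneg_left (by linarith) hG
  push_cast at h2
  linarith

theorem Xf_eq (t g : ℕ) : Xf n P t g = if (∀ i < t, nu (P i) (n g) = 0) then 1 else 0 := by
  induction t with
  | zero => simp [Xf]
  | succ t ih =>
    unfold Xf
    rw [ih]
    by_cases h : ∀ i < t, nu (P i) (n g) = 0
    · by_cases h' : nu (P t) (n g) = 0
      · have : ∀ i < t + 1, nu (P i) (n g) = 0 := by
          intro i hi
          rcases Nat.lt_succ_iff_lt_or_eq.1 hi with h1 | h1
          · exact h i h1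
          · rw [h1]; exact h'
        rw [if_pos h, if_pos h', if_pos this, mul_one]
      · have : ¬ ∀ i < t + 1, nu (P i) (n g) = 0 := fun h1 => h' (h1 t (by omega))
        rw [if_neg h', if_neg this, mul_zero]
    · have : ¬ ∀ i < t + 1, nu (P i) (n g) = 0 := fun h1 => h fun i hi => h1 i (by omega)
      rw [if_neg h, if_neg this, zero_mul]

theorem sum_Xf (X : Finset ℕ) (t : ℕ) :
    ∑ g ∈ X, Xf n P t g = ((X.filter fun g => ∀ i < t, ∀ p ∈ P i, ¬ p ∣ n g).card : ℝ) := by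
  rw [Finset.card_filter]
  push_cast
  refine Finset.sum_congr rfl fun g _ => ?_
  rw [Xf_eq]
  congr 1
  apply propext
  refine forall_congr' fun i => forall_congr' fun _ => ?_
  unfold nu
  rw [Finset.card_eq_zero, Finset.filter_eq_empty_iff]

end blocks

end Crest.Agent.R19.SieveCore
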