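import Mathlib

/-!
# R19: prime sums for the sieve
-/

namespace Crest.Agent.R19

open Finset

/-- number of primes in `(n, 2n]` -/
theorem card_primes_Ioc_mul_log (n : ℕ) (hn : 1 ≤ n) :
    ((((Finset.Ioc n (2 * n)).filter Nat.Prime).card : ℕ) : ℝ) * Real.log n ≤ n * Real.log 4 := by
  have h1 : ∏ p ∈ (Finset.Ioc n (2 * n)).filter Nat.Prime, p ≤ (2 * n).choose n := by
    have hd : primorial (n + n) ∣ primorial n * (n + n).choose n := primorial_add_dvd le_rfl
    have hsplit : primorial (n + n) =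
        primorial n * ∏ p ∈ (Finset.Ioc n (2 * n)).filter Nat.Prime, p := by
      unfold primorial
      have : (Finset.range (n + n + 1)).filter Nat.Prime =
          (Finset.range (n + 1)).filter Nat.Prime ∪ (Finset.Ioc n (2 * n)).filter Nat.Prime := by
        ext x
        simp only [Finset.mem_filter, Finset.mem_range, Finset.mem_union, Finset.mem_Ioc]
        constructor
        · rintro ⟨h1, h2⟩
          by_cases h : x < n + 1
          · exact Or.inl ⟨h, h2⟩
          · exact Or.inr ⟨⟨by omega, by omega⟩, h2⟩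
        · rintro (⟨h1, h2⟩ | ⟨⟨h1, h2⟩, h3⟩)
          · exact ⟨by omega, h2⟩
          · exact ⟨by omega, h3⟩
      rw [this, Finset.prod_union]
      rw [Finset.disjoint_left]
      intro x hx hx'
      simp only [Finset.mem_filter, Finset.mem_range, Finset.mem_Ioc] at hx hx'
      omega
    rw [hsplit] at hd
    have hpos : 0 < primorial n := primorial_pos n
    have h2 : ∏ p ∈ (Finset.Ioc n (2 * n)).filter Nat.Prime, p ∣ (n + n).choose n :=
      (Nat.mul_dvd_mul_iff_left hpos).1 hd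
    have h3 := Nat.le_of_dvd (Nat.choose_pos (by omega)) h2
    simpa [two_mul] using h3
  have h2 : (2 * n).choose n ≤ 4 ^ n := Nat.centralBinom_le_four_pow n
  have h3 : n ^ ((Finset.Ioc n (2 * n)).filter Nat.Prime).card ≤ 4 ^ n := by
    calc n ^ ((Finset.Ioc n (2 * n)).filter Nat.Prime).card
        ≤ ∏ p ∈ (Finset.Ioc n (2 * n)).filter Nat.Prime, p := by
          apply Finset.pow_card_le_prod
          intro p hp
          simp only [Finset.mem_filter, Finset.mem_Ioc] at hp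
          omega
      _ ≤ _ := h1
      _ ≤ _ := h2
  have h4 : Real.log ((n : ℝ) ^ ((Finset.Ioc n (2 * n)).filter Nat.Prime).card) ≤
      Real.log ((4 : ℝ) ^ n) := by
    apply Real.log_le_log
    · have : (0 : ℝ) < n := by exact_mod_cast hn
      positivity
    · exact_mod_cast h3
  rw [Real.log_pow, Real.log_pow] at h4
  exact h4

/-- `∑_{n<p≤2n} 1/p ≤ log 4/log n`. -/
theorem sum_inv_primes_dyadic (n : ℕ) (hn : 2 ≤ n) :
    ∑ p ∈ (Finset.Ioc n (2 * n)).filter Nat.Prime, (1 : ℝ) / p ≤ Real.log 4 / Real.log n := by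
  have hn0 : (0 : ℝ) < n := by exact_mod_cast (by omega : 0 < n)
  have hlog : 0 < Real.log n := Real.log_pos (by exact_mod_cast (by omega : 1 < n))
  have h1 : ∑ p ∈ (Finset.Ioc n (2 * n)).filter Nat.Prime, (1 : ℝ) / p ≤
      ((Finset.Ioc n (2 * n)).filter Nat.Prime).card • ((1 : ℝ) / n) := by
    apply Finset.sum_le_card_nsmul
    intro p hp
    simp only [Finset.mem_filter, Finset.mem_Ioc] at hp
    apply one_div_le_one_div_of_le hn0
    exact_mod_cast hp.1.1.le
  have h2 := card_primes_Ioc_mul_log n (by omega)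
  rw [nsmul_eq_mul] at h1
  refine h1.trans ?_
  rw [le_div_iff₀ hlog, mul_one_div, div_mul_eq_mul_div, div_le_iff₀ hn0]
  linarith

/-- Sum of `1/p` over the primes of `(n, 2^k n]`. -/
theorem sum_inv_primes_multi (n : ℕ) (hn : 2 ≤ n) (k : ℕ) :
    ∑ p ∈ (Finset.Ioc n (2 ^ k * n)).filter Nat.Prime, (1 : ℝ) / p ≤
      k * (Real.log 4 / Real.log n) := by
  induction k with
  | zero => simp
  | succ k ih =>
    have hsplit : (Finset.Ioc n (2 ^ (k + 1) * n)).filter Nat.Prime =
        (Finset.Ioc n (2 ^ k * n)).filter Nat.Prime ∪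
          (Finset.Ioc (2 ^ k * n) (2 * (2 ^ k * n))).filter Nat.Prime := by
      have hk : 1 ≤ 2 ^ k := Nat.one_le_two_pow
      have h1 : n ≤ 2 ^ k * n := Nat.le_mul_of_pos_left n (by positivity)
      have h2 : 2 ^ (k + 1) * n = 2 * (2 ^ k * n) := by ring
      rw [h2, ← Finset.filter_union, Finset.Ioc_union_Ioc_eq_Ioc h1 (by omega)]
    rw [hsplit]
    have hle : ∑ p ∈ ((Finset.Ioc n (2 ^ k * n)).filter Nat.Prime ∪
          (Finset.Ioc (2 ^ k * n) (2 * (2 ^ k * n))).filter Nat.Prime), (1 : ℝ) / p ≤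
        ∑ p ∈ (Finset.Ioc n (2 ^ k * n)).filter Nat.Prime, (1 : ℝ) / p +
        ∑ p ∈ (Finset.Ioc (2 ^ k * n) (2 * (2 ^ k * n))).filter Nat.Prime, (1 : ℝ) / p := by
      rw [← Finset.sum_union_inter]
      have : 0 ≤ ∑ p ∈ ((Finset.Ioc n (2 ^ k * n)).filter Nat.Prime ∩
          (Finset.Ioc (2 ^ k * n) (2 * (2 ^ k * n))).filter Nat.Prime), (1 : ℝ) / p :=
        Finset.sum_nonneg fun i _ => by positivity
      linarith
    have hn' : 2 ≤ 2 ^ k * n := le_trans hn (Nat.le_mul_of_pos_left n (by positivity))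
    have h3 := sum_inv_primes_dyadic (2 ^ k * n) hn'
    have hlogn : 0 < Real.log n := Real.log_pos (by exact_mod_cast (by omega : 1 < n))
    have h4 : Real.log 4 / Real.log ((2 ^ k * n : ℕ) : ℝ) ≤ Real.log 4 / Real.log n := by
      apply div_le_div_of_nonneg_left (Real.log_nonneg (by norm_num)) hlogn
      apply Real.log_le_log (by exact_mod_cast (by omega : 0 < n))
      exact_mod_cast Nat.le_mul_of_pos_left n (by positivity)
    push_cast at h3 h4 ih ⊢
    linarith

/-- Chebyshev-type bound: `∑_{√x < p ≤ x} 1/p ≤ 4` for `x ≥ 256`. -/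
theorem prime_recip_block (x : ℕ) (hx : 256 ≤ x) :
    ∑ p ∈ (Finset.Ioc (Nat.sqrt x) x).filter Nat.Prime, (1 : ℝ) / p ≤ 4 := by
  set n := Nat.sqrt x with hn
  have hn16 : 16 ≤ n := by
    rw [hn, Nat.le_sqrt]; omega
  set k := Nat.log 2 n + 2 with hk
  have hxk : x ≤ 2 ^ k * n := by
    have h1 : x ≤ n * n + n + n := by rw [hn]; exact Nat.sqrt_le_add x
    have h2 : n < 2 ^ (Nat.log 2 n + 1) := Nat.lt_pow_succ_log_self (by norm_num) n
    have h3 : n + 2 ≤ 2 ^ k := by
      rw [hk, pow_succ]; omega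
    nlinarith
  have h1 : ∑ p ∈ (Finset.Ioc n x).filter Nat.Prime, (1 : ℝ) / p ≤
      ∑ p ∈ (Finset.Ioc n (2 ^ k * n)).filter Nat.Prime, (1 : ℝ) / p := by
    apply Finset.sum_le_sum_of_subset_of_nonneg
    · apply Finset.filter_subset_filter
      exact Finset.Ioc_subset_Ioc_right hxk
    · intro i _ _; positivity
  refine h1.trans ((sum_inv_primes_multi n (by omega) k).trans ?_)
  have hnR : (16 : ℝ) ≤ n := by exact_mod_cast hn16
  have hlog2 : 0 < Real.log 2 := Real.log_pos (by norm_num)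
  have hlog4 : Real.log 4 = 2 * Real.log 2 := by
    rw [show (4 : ℝ) = 2 ^ 2 by norm_num, Real.log_pow]; norm_num
  have hlogn : 4 * Real.log 2 ≤ Real.log n := by
    calc 4 * Real.log 2 = Real.log 16 := by
          rw [show (16 : ℝ) = 2 ^ 4 by norm_num, Real.log_pow]; norm_num
      _ ≤ Real.log n := Real.log_le_log (by norm_num) hnR
  have hlogn0 : 0 < Real.log n := by linarith
  have hk2 : (Nat.log 2 n : ℝ) * Real.log 2 ≤ Real.log n := by
    rw [← Real.log_pow]
    apply Real.log_le_log (by positivity)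
    exact_mod_cast Nat.pow_log_le_self 2 (by omega)
  rw [← mul_div_assoc, div_le_iff₀ hlogn0, hlog4, hk]
  push_cast
  nlinarith

/-- `∏_{p ≤ n} (1 - 1/p) ≥ 1/n`. -/
theorem prod_one_sub_inv_primes (n : ℕ) (hn : 1 ≤ n) :
    (1 : ℝ) / n ≤ ∏ p ∈ (Finset.Icc 1 n).filter Nat.Prime, (1 - (1 : ℝ) / p) := by
  induction n, hn using Nat.le_induction with
  | base => simp [Finset.filter_singleton, Nat.not_prime_one]
  | succ n hn ih =>
    have hn0 : (0 : ℝ) < n := by exact_mod_cast hn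
    rw [← Finset.insert_Icc_right_eq_Icc_add_one (by omega : 1 ≤ n + 1), Finset.filter_insert]
    split_ifs with hp
    · rw [Finset.prod_insert (by simp)]
      have h1 : (1 : ℝ) / ((n + 1 : ℕ) : ℝ) = (1 - 1 / ((n + 1 : ℕ) : ℝ)) * (1 / n) := by
        push_cast; field_simp; ring
      have h3 : (1 : ℝ) / ((n + 1 : ℕ) : ℝ) ≤ 1 := by
        rw [div_le_one (by positivity)]; push_cast; linarith
      calc (1 : ℝ) / ((n + 1 : ℕ) : ℝ) = (1 - 1 / ((n + 1 : ℕ) : ℝ)) * (1 / n) := h1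
        _ ≤ _ := mul_le_mul_of_nonneg_left ih (by linarith)
    · refine le_trans ?_ ih
      apply one_div_le_one_div_of_le hn0
      push_cast; linarith

/-- `1 - t ≥ 4^(-t)` for `0 ≤ t ≤ 1/2`. -/
theorem one_sub_ge_rpow (t : ℝ) (h0 : 0 ≤ t) (h1 : t ≤ 1 / 2) : (4 : ℝ) ^ (-t) ≤ 1 - t := by
  have hconv : ConvexOn ℝ Set.univ (fun t : ℝ => (4 : ℝ) ^ (-t)) := by
    have : (fun t : ℝ => (4 : ℝ) ^ (-t)) = fun t : ℝ => Real.exp ((-Real.log 4) * t) := by
      funext t
      rw [Real.rpow_def_of_pos (by norm_num)]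
      ring_nf
    rw [this]
    have h := convexOn_exp.comp_linearMap (LinearMap.lsmul ℝ ℝ (-Real.log 4))
    simpa [Function.comp_def] using h
  have h := hconv.2 (Set.mem_univ (0 : ℝ)) (Set.mem_univ (1 / 2 : ℝ))
    (show 0 ≤ 1 - 2 * t by linarith) (show 0 ≤ 2 * t by linarith) (by ring)
  simp only [smul_eq_mul, mul_zero, neg_zero, Real.rpow_zero, mul_one, zero_add] at h
  have h4 : (4 : ℝ) ^ (-(1 / 2 : ℝ)) = 1 / 2 := by
    rw [show (4 : ℝ) = 2 ^ (2 : ℝ) by norm_num, ← Real.rpow_mul (by norm_num)]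
    norm_num
  rw [h4] at h
  have h5 : 2 * t * (1 / 2) = t := by ring
  rw [h5] at h
  linarith

/-- `∏ (1 - 1/p) ≥ 4^{-∑ 1/p}` over any finite set of integers `≥ 2`. -/
theorem prod_one_sub_inv_ge (s : Finset ℕ) (hs : ∀ p ∈ s, 2 ≤ p) :
    (4 : ℝ) ^ (-(∑ p ∈ s, (1 : ℝ) / p)) ≤ ∏ p ∈ s, (1 - (1 : ℝ) / p) := by
  rw [← Finset.sum_neg_distrib, Real.rpow_sum_of_pos (by norm_num)]
  apply Finset.prod_le_prod
  · intro i _; positivity
  · intro p hp
    have h2 : (2 : ℝ) ≤ p := by exact_mod_cast hs p hp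
    apply one_sub_ge_rpow
    · positivity
    · apply one_div_le_one_div_of_le (by norm_num) h2

end Crest.Agent.R19
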