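import Crest.Agent.R19.Defs

/-!
# R19, piece Z: a zero sum modulo `m`

PROOF.  Orthogonality: `∑_{h<m} ex(h·t/m) = m` if `m ∣ t` and `0` otherwise.  Hence
`m · #{(i,i') | m ∣ s i + c·s i'} = ∑_{h<m} expSum s m h · expSum s m (c·h)`.
The term `h = 0` is `(card ι)²`; the others are bounded, by Cauchy–Schwarz and since `h ↦ c·h mod m` permutes the
nonzero residues, by `∑_{0<h<m} ‖expSum s m h‖² = ∑_{d ∣ m, d ≠ 1} primSum s d`
(group `h` by `d = m / gcd(h,m)`; `expSum s m (g h') = expSum s (m/g) h'`).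
-/

set_option autoImplicit false

namespace Crest.Agent.R19

open Finset

namespace Zero

/-- the exponential sum as a function on `ZMod m` -/
noncomputable def S {ι : Type*} [Fintype ι] (s : ι → ℕ) (m : ℕ) [NeZero m] (x : ZMod m) : ℂ :=
  ∑ i, ZMod.stdAddChar (N := m) (x * (s i : ZMod m))

theorem ex_div (m : ℕ) [NeZero m] (h t : ℕ) :
    ex ((h : ℝ) * (t : ℝ) / (m : ℝ)) = ZMod.stdAddChar (N := m) ((h : ZMod m) * (t : ZMod m)) := by
  have h1 : ((h : ZMod m) * (t : ZMod m)) = (((h * t : ℕ) : ℤ) : ZMod m) := by push_cast; ring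
  rw [h1, ZMod.stdAddChar_coe, ex]
  congr 1
  push_cast
  ring

theorem expSum_eq {ι : Type*} [Fintype ι] (s : ι → ℕ) (m : ℕ) [NeZero m] (h : ℕ) :
    expSum s m h = S s m (h : ZMod m) := by
  unfold expSum S
  exact Finset.sum_congr rfl fun i _ => ex_div m h (s i)

theorem expSum_scale {ι : Type*} [Fintype ι] (s : ι → ℕ) (d g h : ℕ) (hg : 0 < g) :
    expSum s (d * g) (h * g) = expSum s d h := by
  unfold expSum
  refine Finset.sum_congr rfl fun i _ => ?_
  congr 1
  have : (g : ℝ) ≠ 0 := by positivity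
  push_cast
  rw [show (h : ℝ) * g * (s i : ℝ) = (h * s i) * g by ring, mul_div_mul_right _ _ this]

theorem main_ineq {ι : Type*} [Fintype ι] (s : ι → ℕ) (m c : ℕ) [NeZero m]
    (hc : Nat.Coprime c m) (hno : ¬ ∃ i i' : ι, m ∣ s i + c * s i') :
    (Fintype.card ι : ℝ) ^ 2 ≤ ∑ x ∈ (univ : Finset (ZMod m)).erase 0, ‖S s m x‖ ^ 2 := by
  classical
  have hsum : ∑ x : ZMod m, S s m x * S s m (c * x) = 0 := by
    have h1 : ∀ x : ZMod m, S s m x * S s m (c * x) =
        ∑ i, ∑ i', ZMod.stdAddChar (N := m) (x * ((s i : ZMod m) + c * (s i' : ZMod m))) := by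
      intro x
      unfold S
      rw [Finset.sum_mul_sum]
      refine Finset.sum_congr rfl fun i _ => Finset.sum_congr rfl fun i' _ => ?_
      rw [← AddChar.map_add_eq_mul]
      congr 1
      ring
    rw [Finset.sum_congr rfl fun x _ => h1 x, Finset.sum_comm]
    refine Finset.sum_eq_zero fun i _ => ?_
    rw [Finset.sum_comm]
    refine Finset.sum_eq_zero fun i' _ => ?_
    rw [AddChar.sum_mulShift _ (ZMod.isPrimitive_stdAddChar m), if_neg]
    · simp
    intro h0
    apply hno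
    refine ⟨i, i', ?_⟩
    rw [← ZMod.natCast_eq_zero_iff]
    push_cast
    exact h0
  have hS0 : S s m 0 = Fintype.card ι := by
    simp [S]
  rw [← Finset.add_sum_erase _ _ (Finset.mem_univ (0 : ZMod m))] at hsum
  rw [mul_zero, hS0] at hsum
  have h2 : ((Fintype.card ι : ℂ)) * (Fintype.card ι : ℂ) =
      -∑ x ∈ univ.erase (0 : ZMod m), S s m x * S s m (c * x) := by
    linear_combination hsum
  have h3 : (Fintype.card ι : ℝ) ^ 2 ≤
      ∑ x ∈ univ.erase (0 : ZMod m), ‖S s m x‖ * ‖S s m (c * x)‖ := by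
    have h4 : ‖((Fintype.card ι : ℂ)) * (Fintype.card ι : ℂ)‖ = (Fintype.card ι : ℝ) ^ 2 := by
      rw [norm_mul, Complex.norm_natCast]; ring
    rw [← h4, h2, norm_neg]
    refine (norm_sum_le _ _).trans (le_of_eq ?_)
    exact Finset.sum_congr rfl fun x _ => norm_mul _ _
  have hunit : IsUnit (c : ZMod m) := (ZMod.isUnit_iff_coprime c m).2 hc
  have hperm : ∑ x ∈ univ.erase (0 : ZMod m), ‖S s m (c * x)‖ ^ 2 =
      ∑ x ∈ univ.erase (0 : ZMod m), ‖S s m x‖ ^ 2 := by
    obtain ⟨w, hw⟩ := hunit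
    refine Finset.sum_nbij' (fun x => (w : ZMod m) * x) (fun x => ((w⁻¹ : (ZMod m)ˣ) : ZMod m) * x)
      ?_ ?_ ?_ ?_ ?_
    · intro x hx; simpa using hx
    · intro x hx; simpa using hx
    · intro x _; simp
    · intro x _; simp
    · intro x _; rw [hw]
  have h5 : ∑ x ∈ univ.erase (0 : ZMod m), ‖S s m x‖ * ‖S s m (c * x)‖ ≤
      ∑ x ∈ univ.erase (0 : ZMod m), (‖S s m x‖ ^ 2 + ‖S s m (c * x)‖ ^ 2) / 2 := by
    refine Finset.sum_le_sum fun x _ => ?_
    nlinarith [sq_nonneg (‖S s m x‖ - ‖S s m (c * x)‖)]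
  rw [← Finset.sum_div, Finset.sum_add_distrib, hperm] at h5
  linarith

theorem group {ι : Type*} [Fintype ι] (s : ι → ℕ) (m : ℕ) [NeZero m] :
    ∑ x ∈ (univ : Finset (ZMod m)).erase 0, ‖S s m x‖ ^ 2 =
      ∑ d ∈ m.divisors.erase 1, primSum s d := by
  classical
  have hm : 0 < m := Nat.pos_of_ne_zero (NeZero.ne m)
  have h1 : ∑ x ∈ (univ : Finset (ZMod m)).erase 0, ‖S s m x‖ ^ 2 =
      ∑ h ∈ (range m).erase 0, ‖expSum s m h‖ ^ 2 := by
    refine Finset.sum_nbij' (fun x => x.val) (fun h => (h : ZMod m)) ?_ ?_ ?_ ?_ ?_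
    · intro x hx
      simp only [mem_erase, mem_univ, and_true, mem_range] at hx ⊢
      exact ⟨by simpa using hx, ZMod.val_lt x⟩
    · intro h hh
      simp only [mem_erase, mem_univ, and_true, mem_range] at hh ⊢
      intro h0
      rw [ZMod.natCast_eq_zero_iff] at h0
      exact hh.1 (Nat.eq_zero_of_dvd_of_lt h0 hh.2)
    · intro x _; simp
    · intro h hh
      simp only [mem_erase, mem_range] at hh
      exact ZMod.val_cast_of_lt hh.2
    · intro x _
      rw [expSum_eq]; simp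
  rw [h1]
  have hmaps : ∀ h ∈ (range m).erase 0, m / Nat.gcd h m ∈ m.divisors.erase 1 := by
    intro h hh
    simp only [mem_erase, mem_range] at hh
    have hg : Nat.gcd h m ∣ m := Nat.gcd_dvd_right h m
    rw [mem_erase, Nat.mem_divisors]
    refine ⟨?_, Nat.div_dvd_of_dvd hg, hm.ne'⟩
    intro h1
    have h2 : Nat.gcd h m = m := by
      have := Nat.div_mul_cancel hg
      rw [h1, one_mul] at this
      exact this
    have h3 : m ∣ h := h2 ▸ Nat.gcd_dvd_left h m
    exact hh.1 (Nat.eq_zero_of_dvd_of_lt h3 hh.2)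
  rw [← Finset.sum_fiberwise_of_maps_to hmaps]
  refine Finset.sum_congr rfl fun d hd => ?_
  rw [mem_erase, Nat.mem_divisors] at hd
  obtain ⟨hd1, ⟨g, hg⟩, _⟩ := hd
  have hd0 : 0 < d := Nat.pos_of_ne_zero (by rintro rfl; simp at hg; omega)
  have hg0 : 0 < g := Nat.pos_of_ne_zero (by rintro rfl; simp at hg; omega)
  unfold primSum
  symm
  refine Finset.sum_nbij' (fun h => h * g) (fun h => h / g) ?_ ?_ ?_ ?_ ?_
  · intro h hh
    simp only [mem_filter, mem_range, mem_erase] at hh ⊢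
    refine ⟨⟨?_, ?_⟩, ?_⟩
    · intro h0
      have : h = 0 := by
        rcases Nat.mul_eq_zero.1 h0 with h | h
        · exact h
        · omega
      subst this
      have := hh.2
      simp at this
      exact hd1 this
    · rw [hg]; exact Nat.mul_lt_mul_of_pos_right hh.1 hg0
    · rw [hg, Nat.gcd_mul_right, hh.2, one_mul]
      exact Nat.mul_div_cancel _ hg0
  · intro h hh
    simp only [mem_filter, mem_range, mem_erase] at hh ⊢
    obtain ⟨⟨h0, hlt⟩, hgd⟩ := hh
    have hgm : Nat.gcd h m ∣ m := Nat.gcd_dvd_right h m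
    have e1 : Nat.gcd h m = g := by
      have := Nat.div_mul_cancel hgm
      rw [hgd, hg] at this
      exact Nat.eq_of_mul_eq_mul_left hd0 (by rw [hg]; exact this)
    have e2 : g ∣ h := e1 ▸ Nat.gcd_dvd_left h m
    obtain ⟨h', rfl⟩ := e2
    rw [Nat.mul_div_cancel_left _ hg0]
    refine ⟨?_, ?_⟩
    · rw [hg, mul_comm g h'] at hlt
      exact Nat.lt_of_mul_lt_mul_right hlt
    · rw [hg, mul_comm g h', Nat.gcd_mul_right] at e1
      exact Nat.eq_of_mul_eq_mul_right hg0 (by rw [e1, one_mul])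
  · intro h _
    exact Nat.mul_div_cancel _ hg0
  · intro h hh
    simp only [mem_filter, mem_range, mem_erase] at hh
    obtain ⟨⟨h0, hlt⟩, hgd⟩ := hh
    have hgm : Nat.gcd h m ∣ m := Nat.gcd_dvd_right h m
    have e1 : Nat.gcd h m = g := by
      have := Nat.div_mul_cancel hgm
      rw [hgd, hg] at this
      exact Nat.eq_of_mul_eq_mul_left hd0 (by rw [hg]; exact this)
    exact Nat.div_mul_cancel (e1 ▸ Nat.gcd_dvd_left h m)
  · intro h _
    rw [hg, expSum_scale s d g h hg0]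

end Zero

theorem zero_sum {ι : Type*} [Fintype ι] (s : ι → ℕ) (m c : ℕ) (hm : 0 < m)
    (hc : Nat.Coprime c m)
    (h : ∑ d ∈ m.divisors.erase 1, primSum s d < (Fintype.card ι : ℝ) ^ 2) :
    ∃ i i' : ι, m ∣ s i + c * s i' := by
  have : NeZero m := ⟨hm.ne'⟩
  by_contra hno
  have h1 := Zero.main_ineq s m c hc hno
  rw [Zero.group] at h1
  linarith

end Crest.Agent.R19
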